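import Mathlib

/-! One-sided approximate intertwining. -/

namespace Vale.Agent.P101

open Filter Topology

lemma norm_conj_unitary {B : Type*} [CStarAlgebra B] (w : unitary B) (x : B) :
    ‖(w : B) * x * star (w : B)‖ = ‖x‖ := by
  rw [← Unitary.coe_star, CStarRing.norm_mul_coe_unitary, CStarRing.norm_coe_unitary_mul]

theorem intertwine {A B : Type*} [CStarAlgebra A] [CStarAlgebra B]
    [TopologicalSpace.SeparableSpace A] [TopologicalSpace.SeparableSpace B]
    (φ : A →⋆ₐ[ℂ] B) (hφ : Function.Injective φ)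
    (H : ∀ (FA : Finset A) (FB : Finset B) (ε : ℝ), 0 < ε → ∃ v : unitary B,
      (∀ a ∈ FA, ‖(v : B) * φ a * star (v : B) - φ a‖ ≤ ε) ∧
      ∀ b ∈ FB, ∃ a, ‖(v : B) * φ a * star (v : B) - b‖ ≤ ε) :
    ∃ ψ : A →⋆ₐ[ℂ] B, Function.Bijective ψ := by
  classical
  obtain ⟨a, ha⟩ := TopologicalSpace.exists_dense_seq A
  obtain ⟨b, hb⟩ := TopologicalSpace.exists_dense_seq B
  have hiso : ∀ x, ‖φ x‖ = ‖x‖ := NonUnitalStarAlgHom.norm_map φ hφ
  have step : ∀ (n : ℕ) (s : unitary B × Finset A), ∃ s' : unitary B × Finset A,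
      s.2 ⊆ s'.2 ∧ a n ∈ s'.2 ∧
      (∀ x ∈ s.2, ‖(s'.1 : B) * φ x * star (s'.1 : B) - (s.1 : B) * φ x * star (s.1 : B)‖
        ≤ (1 / 2 : ℝ) ^ n) ∧
      ∀ j ≤ n, ∃ x ∈ s'.2, ‖(s'.1 : B) * φ x * star (s'.1 : B) - b j‖ ≤ (1 / 2 : ℝ) ^ n := by
    rintro n ⟨w, F⟩
    obtain ⟨v, h1, h2⟩ := H F ((Finset.range (n + 1)).image fun j => star (w : B) * b j * w)
      ((1 / 2 : ℝ) ^ n) (by positivity)
    have h3 : ∀ j, ∃ x, j ≤ n →
        ‖(v : B) * φ x * star (v : B) - star (w : B) * b j * w‖ ≤ (1 / 2 : ℝ) ^ n := fun j => by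
      by_cases hj : j ≤ n
      · obtain ⟨x, hx⟩ := h2 _ (Finset.mem_image_of_mem _
          (Finset.mem_range.2 (Nat.lt_succ_of_le hj)))
        exact ⟨x, fun _ => hx⟩
      · exact ⟨0, fun h => absurd h hj⟩
    choose c hc using h3
    refine ⟨(w * v, F ∪ insert (a n) ((Finset.range (n + 1)).image c)), Finset.subset_union_left,
      by simp, fun x hx => ?_, fun j hj => ⟨c j, ?_, ?_⟩⟩
    · have := norm_conj_unitary w ((v : B) * φ x * star (v : B) - φ x)
      refine le_trans (le_of_eq ?_) (this.le.trans (h1 x hx))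
      congr 1
      simp only [Submonoid.coe_mul, star_mul]
      noncomm_ring
    · simp only [Finset.mem_union, Finset.mem_insert, Finset.mem_image, Finset.mem_range]
      exact Or.inr (Or.inr ⟨j, Nat.lt_succ_of_le hj, rfl⟩)
    · have := norm_conj_unitary w ((v : B) * φ (c j) * star (v : B) - star (w : B) * b j * w)
      refine le_trans (le_of_eq ?_) (this.le.trans (hc j hj))
      congr 1
      have e : (w : B) * star (w : B) = 1 := Unitary.coe_mul_star_self w
      simp only [Submonoid.coe_mul, star_mul, mul_sub, sub_mul]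
      congr 1
      · noncomm_ring
      · calc b j = ((w : B) * star (w : B)) * b j * ((w : B) * star (w : B)) := by simp [e]
          _ = _ := by noncomm_ring
  choose st hst using step
  let s : ℕ → unitary B × Finset A := fun n => Nat.rec (1, ∅) st n
  have hs : ∀ n, s (n + 1) = st n (s n) := fun n => rfl
  let T : ℕ → A → B := fun n x => ((s n).1 : B) * φ x * star ((s n).1 : B)
  have hmono : Monotone fun n => (s n).2 := monotone_nat_of_le_succ fun n => (hst n (s n)).1
  have hT : ∀ N x, x ∈ (s N).2 → ∀ m, N ≤ m → ‖T m x - T N x‖ ≤ 2 * (1 / 2 : ℝ) ^ N := by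
    intro N x hx m hm
    have : ‖T m x - T N x‖ ≤ 2 * (1 / 2 : ℝ) ^ N - 2 * (1 / 2 : ℝ) ^ m := by
      induction m, hm using Nat.le_induction with
      | base => simp
      | succ m hm ih =>
        have h1 := (hst m (s m)).2.2.1 x (hmono hm hx)
        have h2 := norm_add_le (T (m + 1) x - T m x) (T m x - T N x)
        rw [sub_add_sub_cancel] at h2
        have h3 : ‖T (m + 1) x - T m x‖ ≤ (1 / 2 : ℝ) ^ m := h1
        rw [pow_succ]
        linarith
    have h4 : (0 : ℝ) ≤ (1 / 2 : ℝ) ^ m := by positivity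
    linarith
  have hTn : ∀ n x, ‖T n x‖ = ‖x‖ := fun n x => by rw [← hiso, norm_conj_unitary]
  have hTs : ∀ n x y, T n x - T n y = T n (x - y) := fun n x y => by
    simp only [T, map_sub]; noncomm_ring
  have hsmall : ∀ ε : ℝ, 0 < ε → ∀ j, ∃ N, j < N ∧ (1 / 2 : ℝ) ^ N < ε := fun ε hε j => by
    obtain ⟨N, hN⟩ := exists_pow_lt_of_lt_one hε (show (1 / 2 : ℝ) < 1 by norm_num)
    refine ⟨N + j + 1, by omega, lt_of_le_of_lt ?_ hN⟩
    exact pow_le_pow_of_le_one (by norm_num) (by norm_num) (by omega)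
  have hcau : ∀ x, CauchySeq fun n => T n x := fun x => by
    rw [Metric.cauchySeq_iff']
    intro ε hε
    obtain ⟨j, hj⟩ := ha.exists_dist_lt x (show 0 < ε / 4 by positivity)
    obtain ⟨N, hN, hN'⟩ := hsmall (ε / 4) (by positivity) j
    refine ⟨N, fun m hm => ?_⟩
    have h1 := hT N (a j) (hmono (show j + 1 ≤ N from hN) (hst j (s j)).2.1) m hm
    rw [dist_eq_norm] at hj ⊢
    have h2 : T m x - T N x = T m (x - a j) + (T m (a j) - T N (a j)) - T N (x - a j) := by
      rw [← hTs, ← hTs]; abel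
    rw [h2]
    have h3 := norm_sub_le (T m (x - a j) + (T m (a j) - T N (a j))) (T N (x - a j))
    have h4 := norm_add_le (T m (x - a j)) (T m (a j) - T N (a j))
    rw [hTn] at h3 h4
    linarith
  choose ψ hψ using fun x => cauchySeq_tendsto_of_complete (hcau x)
  have hu : ∀ n, star ((s n).1 : B) * ((s n).1 : B) = 1 := fun n => Unitary.coe_star_mul_self _
  have hu' : ∀ n, ((s n).1 : B) * star ((s n).1 : B) = 1 := fun n => Unitary.coe_mul_star_self _
  have hsm : ∀ (c : ℂ) x, ψ (c • x) = c • ψ x := fun c x =>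
    tendsto_nhds_unique (hψ _) (((hψ x).const_smul c).congr fun n => by simp [T])
  have hone : ψ 1 = 1 := tendsto_nhds_unique (hψ _)
    (tendsto_const_nhds.congr fun n => by simp [T, hu'])
  let Ψ : A →⋆ₐ[ℂ] B :=
    { toFun := ψ
      map_one' := hone
      map_mul' := fun x y => tendsto_nhds_unique (hψ _) (((hψ x).mul (hψ y)).congr fun n => by
        simp only [T, map_mul]
        calc _ = ((s n).1 : B) * φ x * (star ((s n).1 : B) * ((s n).1 : B)) * φ y *
            star ((s n).1 : B) := by noncomm_ring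
          _ = _ := by rw [hu]; noncomm_ring)
      map_zero' := by simpa using hsm 0 0
      map_add' := fun x y => tendsto_nhds_unique (hψ _) (((hψ x).add (hψ y)).congr fun n => by
        simp only [T, map_add]; noncomm_ring)
      commutes' := fun c => by
        rw [Algebra.algebraMap_eq_smul_one, hsm, hone, Algebra.algebraMap_eq_smul_one]
      map_star' := fun x => tendsto_nhds_unique (hψ _) ((hψ x).star.congr fun n => by
        simp only [T, map_star, star_mul, star_star, mul_assoc]) }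
  have hΨn : ∀ x, ‖Ψ x‖ = ‖x‖ := fun x => tendsto_nhds_unique (hψ x).norm
    (tendsto_const_nhds.congr fun n => (hTn n x).symm)
  have hΨi : Isometry Ψ := AddMonoidHomClass.isometry_of_norm Ψ hΨn
  refine ⟨Ψ, hΨi.injective, ?_⟩
  have hcl : IsClosed (Set.range Ψ) := hΨi.isClosedEmbedding.isClosed_range
  intro y
  change y ∈ Set.range Ψ
  rw [← hcl.closure_eq, Metric.mem_closure_iff]
  intro ε hε
  obtain ⟨j, hj⟩ := hb.exists_dist_lt y (show 0 < ε / 4 by positivity)
  obtain ⟨N, hN, hN'⟩ := hsmall (ε / 4) (by positivity) j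
  obtain ⟨x, hx, hx'⟩ := (hst N (s N)).2.2.2 j hN.le
  refine ⟨Ψ x, ⟨x, rfl⟩, ?_⟩
  have h1 : ‖ψ x - T (N + 1) x‖ ≤ 2 * (1 / 2 : ℝ) ^ (N + 1) :=
    le_of_tendsto ((hψ x).sub_const _).norm
      ((eventually_ge_atTop (N + 1)).mono fun m hm => hT (N + 1) x hx m hm)
  have h2 : ‖T (N + 1) x - b j‖ ≤ (1 / 2 : ℝ) ^ N := hx'
  rw [dist_eq_norm] at hj ⊢
  have h3 : y - Ψ x = (y - b j) - (T (N + 1) x - b j) - (ψ x - T (N + 1) x) := by
    change y - ψ x = _; abel
  rw [h3]
  have h4 := norm_sub_le ((y - b j) - (T (N + 1) x - b j)) (ψ x - T (N + 1) x)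
  have h5 := norm_sub_le (y - b j) (T (N + 1) x - b j)
  rw [pow_succ] at h1
  linarith

end Vale.Agent.P101
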