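import Mathlib

/-! Completion of a star algebra for a C*-seminorm. -/

namespace Vale.Agent.P101

open UniformSpace

universe u

structure IsCSemi {R : Type*} [Ring R] [StarRing R] [Algebra ℂ R] (ν : R → ℝ) : Prop where
  zero : ν 0 = 0
  add : ∀ x y, ν (x + y) ≤ ν x + ν y
  smul : ∀ (c : ℂ) x, ν (c • x) ≤ ‖c‖ * ν x
  mul : ∀ x y, ν (x * y) ≤ ν x * ν y
  cstar : ∀ x, ν x * ν x ≤ ν (star x * x)

section
variable {R : Type u} [Ring R] [StarRing R] [Algebra ℂ R] {ν : R → ℝ}

lemma IsCSemi.neg (h : IsCSemi ν) (x : R) : ν (-x) = ν x := by
  have key : ∀ y, ν (-y) ≤ ν y := fun y => by simpa using h.smul (-1) y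
  exact le_antisymm (key x) (by simpa using key (-x))

lemma IsCSemi.nonneg (h : IsCSemi ν) (x : R) : 0 ≤ ν x := by
  have := h.add x (-x)
  rw [add_neg_cancel, h.zero, h.neg] at this
  linarith

lemma IsCSemi.star_eq (h : IsCSemi ν) (x : R) : ν (star x) = ν x := by
  have key : ∀ y, ν y ≤ ν (star y) := fun y => by
    have h1 := (h.cstar y).trans (h.mul _ _)
    rcases (h.nonneg y).eq_or_lt with h0 | h0
    · rw [← h0]; exact h.nonneg _
    · exact le_of_mul_le_mul_right h1 h0
  exact le_antisymm (by simpa using key (star x)) (key x)

/-- type synonym carrying the seminorm -/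
def Syn (_h : IsCSemi ν) : Type u := R

variable (h : IsCSemi ν)

instance : Ring (Syn h) := inferInstanceAs (Ring R)
instance : StarRing (Syn h) := inferInstanceAs (StarRing R)
instance : Algebra ℂ (Syn h) := inferInstanceAs (Algebra ℂ R)
instance [StarModule ℂ R] : StarModule ℂ (Syn h) := inferInstanceAs (StarModule ℂ R)

def synSemi : RingSeminorm (Syn h) where
  toFun := ν
  map_zero' := h.zero
  add_le' := h.add
  neg' := h.neg
  mul_le' := h.mul

noncomputable instance : SeminormedRing (Syn h) := (synSemi h).toSeminormedRing

lemma syn_norm (x : Syn h) : ‖x‖ = ν x := rfl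

noncomputable instance : NormedAlgebra ℂ (Syn h) where
  norm_smul_le := h.smul

lemma syn_star_isom : Isometry (star : Syn h → Syn h) :=
  AddMonoidHomClass.isometry_of_norm (starAddEquiv (R := Syn h)) h.star_eq

/-- the completion -/
def CComp : Type u := Completion (Syn h)

noncomputable instance : NormedRing (CComp h) := inferInstanceAs (NormedRing (Completion (Syn h)))
noncomputable instance : Algebra ℂ (CComp h) := inferInstanceAs (Algebra ℂ (Completion (Syn h)))
instance : CompleteSpace (CComp h) := inferInstanceAs (CompleteSpace (Completion (Syn h)))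
noncomputable instance : NormedAlgebra ℂ (CComp h) where
  norm_smul_le := fun c x => norm_smul_le (β := Completion (Syn h)) c x

noncomputable def ccoe (x : Syn h) : CComp h := (x : Completion (Syn h))

noncomputable instance : Star (CComp h) where
  star := Completion.map (star : Syn h → Syn h)

lemma star_ccoe (x : Syn h) : star (ccoe h x) = ccoe h (star x) :=
  Completion.map_coe (syn_star_isom h).uniformContinuous x

lemma cont_star : Continuous (star : CComp h → CComp h) := Completion.continuous_map

lemma ccoe_mul (x y : Syn h) : ccoe h (x * y) = ccoe h x * ccoe h y := Completion.coe_mul x y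
lemma ccoe_add (x y : Syn h) : ccoe h (x + y) = ccoe h x + ccoe h y := Completion.coe_add x y
lemma ccoe_smul (c : ℂ) (x : Syn h) : ccoe h (c • x) = c • ccoe h x := Completion.coe_smul c x
lemma ccoe_norm (x : Syn h) : ‖ccoe h x‖ = ν x := Completion.norm_coe x
lemma ccoe_dense : DenseRange (ccoe h) := Completion.denseRange_coe

noncomputable instance : StarRing (CComp h) where
  star_involutive x := by
    refine (ccoe_dense h).induction_on x (isClosed_eq ((cont_star h).comp (cont_star h))
      continuous_id) fun a => ?_
    simp only [star_ccoe, star_star]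
  star_mul x y := by
    refine (ccoe_dense h).induction_on₂ (p := fun x y => star (x * y) = star y * star x)
      (isClosed_eq ((cont_star h).comp continuous_mul)
      (((cont_star h).comp continuous_snd).mul ((cont_star h).comp continuous_fst)))
      (fun a b => ?_) x y
    simp only [← ccoe_mul, star_ccoe, star_mul]
  star_add x y := by
    refine (ccoe_dense h).induction_on₂ (p := fun x y => star (x + y) = star x + star y)
      (isClosed_eq ((cont_star h).comp continuous_add)
      (((cont_star h).comp continuous_fst).add ((cont_star h).comp continuous_snd)))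
      (fun a b => ?_) x y
    simp only [← ccoe_add, star_ccoe, star_add]

instance : CStarRing (CComp h) where
  norm_mul_self_le x := by
    refine (ccoe_dense h).induction_on x (isClosed_le (continuous_norm.mul continuous_norm)
      (((cont_star h).mul continuous_id).norm)) fun a => ?_
    simp only [star_ccoe, ← ccoe_mul, ccoe_norm]
    exact h.cstar a

instance [StarModule ℂ R] : StarModule ℂ (CComp h) where
  star_smul c x := by
    refine (ccoe_dense h).induction_on x (isClosed_eq ((cont_star h).comp
      (continuous_const_smul c)) ((cont_star h).const_smul (star c))) fun a => ?_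
    simp only [← ccoe_smul, star_ccoe, star_smul]

noncomputable instance [StarModule ℂ R] : CStarAlgebra (CComp h) where

theorem exists_completion [StarModule ℂ R] (h : IsCSemi ν) :
    ∃ (C : Type u) (_ : CStarAlgebra C) (ι : R →⋆ₐ[ℂ] C), (∀ x, ‖ι x‖ = ν x) ∧ DenseRange ι := by
  refine ⟨CComp h, inferInstance,
    { toFun := ccoe h
      map_one' := Completion.coe_one (Syn h)
      map_mul' := ccoe_mul h
      map_zero' := Completion.coe_zero
      map_add' := ccoe_add h
      commutes' := fun c => rfl
      map_star' := fun x => (star_ccoe h x).symm }, ccoe_norm h, ccoe_dense h⟩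

end

/-- extension of a star homomorphism from a dense star algebra -/
theorem exists_lift {R C B : Type*} [Ring R] [StarRing R] [Algebra ℂ R] [CStarAlgebra C]
    [CStarAlgebra B] (ι : R →⋆ₐ[ℂ] C) (hι : DenseRange ι) (f : R →⋆ₐ[ℂ] B)
    (hf : ∀ x, ‖f x‖ ≤ ‖ι x‖) : ∃ g : C →⋆ₐ[ℂ] B, ∀ x, g (ι x) = f x := by
  let g : C →L[ℂ] B := (f.toAlgHom.toLinearMap).extendOfNorm ι.toAlgHom.toLinearMap
  have hg : ∀ x, g (ι x) = f x := fun x =>
    LinearMap.extendOfNorm_eq (f := f.toAlgHom.toLinearMap) (e := ι.toAlgHom.toLinearMap) hι
      ⟨1, fun x => by simpa using hf x⟩ x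
  have hmul : ∀ x y, g (x * y) = g x * g y := fun x y => by
    refine hι.induction_on₂ (p := fun x y => g (x * y) = g x * g y)
      (isClosed_eq (by fun_prop) (by fun_prop)) (fun a b => ?_) x y
    rw [← map_mul, hg, hg, hg, map_mul]
  have hone : g 1 = 1 := by rw [← map_one ι, hg, map_one]
  refine ⟨{ toFun := g
            map_one' := hone
            map_mul' := hmul
            map_zero' := map_zero g
            map_add' := map_add g
            commutes' := fun c => by
              rw [Algebra.algebraMap_eq_smul_one, map_smul, hone, Algebra.algebraMap_eq_smul_one]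
            map_star' := fun x => ?_ }, hg⟩
  refine hι.induction_on x (isClosed_eq (by fun_prop) (by fun_prop)) fun a => ?_
  rw [← map_star, hg, hg, map_star]

end Vale.Agent.P101
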