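import Vale.Agent.P101.Defs
import Vale.Agent.P101.Comp

/-! The minimal tensor norm is a C*-seminorm; existence of states. -/

namespace Vale.Agent.P101

open scoped TensorProduct ComplexConjugate

section pos
variable {R : Type*} [Ring R] [StarRing R] [Algebra ℂ R] [StarModule ℂ R]

def IsPos (θ : R →ₗ[ℂ] ℂ) : Prop := ∀ y, ∃ r : ℝ, 0 ≤ r ∧ θ (star y * y) = (r : ℂ)

noncomputable def nq (θ : R →ₗ[ℂ] ℂ) (y : R) : ℝ := Real.sqrt (θ (star y * y)).re

variable {θ : R →ₗ[ℂ] ℂ}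

omit [StarModule ℂ R] in
lemma IsPos.im (h : IsPos θ) (y : R) : (θ (star y * y)).im = 0 := by
  obtain ⟨r, -, hr⟩ := h y; rw [hr]; simp

omit [StarModule ℂ R] in
lemma IsPos.re (h : IsPos θ) (y : R) : 0 ≤ (θ (star y * y)).re := by
  obtain ⟨r, h0, hr⟩ := h y; rw [hr]; simpa

omit [StarModule ℂ R] in
lemma nq_nonneg (y : R) : 0 ≤ nq θ y := Real.sqrt_nonneg _

omit [StarModule ℂ R] in
lemma IsPos.nq_sq (h : IsPos θ) (y : R) : nq θ y * nq θ y = (θ (star y * y)).re :=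
  Real.mul_self_sqrt (h.re y)

lemma expand (x y : R) (c : ℂ) : θ (star (x + c • y) * (x + c • y)) =
    θ (star x * x) + c * θ (star x * y) + conj c * θ (star y * x) +
      conj c * c * θ (star y * y) := by
  simp only [star_add, star_smul, add_mul, mul_add, smul_mul_assoc, mul_smul_comm, map_add,
    map_smul, smul_eq_mul, RCLike.star_def]
  ring

lemma IsPos.herm (h : IsPos θ) (x y : R) : θ (star y * x) = conj (θ (star x * y)) := by
  have h1 := h.im (x + (1 : ℂ) • y)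
  have h2 := h.im (x + Complex.I • y)
  rw [expand] at h1 h2
  have hx := h.im x
  have hy := h.im y
  apply Complex.ext
  · simp [hx, hy] at h2 ⊢; linarith
  · simp [hx, hy] at h1 ⊢; linarith

lemma IsPos.cs (h : IsPos θ) (x y : R) : (θ (star x * y)).re ≤ nq θ x * nq θ y := by
  have key : ∀ t : ℝ, 0 ≤ (θ (star y * y)).re * (t * t) + (2 * (θ (star x * y)).re) * t
      + (θ (star x * x)).re := fun t => by
    have h1 := h.re (x + (t : ℂ) • y)
    rw [expand, h.herm x y] at h1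
    have hy := h.im y
    simp [hy] at h1
    linarith
  have h2 := discrim_le_zero key
  rw [discrim, ← h.nq_sq x, ← h.nq_sq y] at h2
  have h3 : (θ (star x * y)).re ^ 2 ≤ (nq θ x * nq θ y) ^ 2 := by nlinarith
  exact (le_abs_self _).trans (abs_le_of_sq_le_sq' h3
    (mul_nonneg (nq_nonneg x) (nq_nonneg y)) |> fun h => abs_le.2 h)

lemma IsPos.nq_add (h : IsPos θ) (x y : R) : nq θ (x + y) ≤ nq θ x + nq θ y := by
  have h1 := expand (θ := θ) x y 1
  rw [one_smul, h.herm x y] at h1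
  have h2 : nq θ (x + y) * nq θ (x + y) ≤ (nq θ x + nq θ y) * (nq θ x + nq θ y) := by
    rw [h.nq_sq, h1]
    have := h.cs x y
    have hx := h.nq_sq x
    have hy := h.nq_sq y
    simp
    nlinarith
  exact (mul_self_le_mul_self_iff (nq_nonneg _) (add_nonneg (nq_nonneg _) (nq_nonneg _))).2 h2

lemma IsPos.nq_smul (h : IsPos θ) (c : ℂ) (x : R) : nq θ (c • x) = ‖c‖ * nq θ x := by
  have h1 := expand (θ := θ) 0 x c
  simp only [zero_add, star_zero, mul_zero, zero_mul, map_zero, add_zero] at h1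
  rw [nq, h1, Complex.conj_mul', ← Complex.ofReal_pow, Complex.re_ofReal_mul,
    Real.sqrt_mul (sq_nonneg _), Real.sqrt_sq (norm_nonneg _), nq]

lemma IsPos.nq_hom {A : Type*} [CStarAlgebra A] (h : IsPos θ) (f : A →⋆ₐ[ℂ] R) (a : A) (y : R) :
    nq θ (f a * y) ≤ ‖a‖ * nq θ y := by
  letI := CStarAlgebra.spectralOrder A
  letI := CStarAlgebra.spectralOrderedRing A
  have h0 : 0 ≤ algebraMap ℝ A (‖a‖ ^ 2) - star a * a :=
    sub_nonneg.2 CStarAlgebra.star_mul_le_algebraMap_norm_sq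
  obtain ⟨c, hc⟩ := (CStarAlgebra.nonneg_iff_eq_star_mul_self).1 h0
  have h1 := h.re (f c * y)
  have h2 : star (f c * y) * (f c * y) =
      ((‖a‖ ^ 2 : ℝ) : ℂ) • (star y * y) - star (f a * y) * (f a * y) := by
    have h3 : star (f c) * f c = ((‖a‖ ^ 2 : ℝ) : ℂ) • 1 - star (f a) * f a := by
      rw [← map_star, ← map_mul, ← hc, map_sub, map_mul, map_star,
        Algebra.algebraMap_eq_smul_one, ← Complex.coe_smul, map_smul, map_one]
    rw [star_mul, mul_assoc, ← mul_assoc (star (f c)), h3, star_mul]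
    simp only [sub_mul, mul_sub, smul_mul_assoc, mul_smul_comm, one_mul, mul_assoc]
  rw [h2, map_sub, map_smul, Complex.sub_re, smul_eq_mul, Complex.re_ofReal_mul,
    ← h.nq_sq, ← h.nq_sq] at h1
  refine (mul_self_le_mul_self_iff (nq_nonneg _) (mul_nonneg (norm_nonneg _) (nq_nonneg _))).2 ?_
  nlinarith

variable {S : Set (R →ₗ[ℂ] ℂ)}

def Bdd (S : Set (R →ₗ[ℂ] ℂ)) (x : R) : Prop := ∃ C, ∀ θ ∈ S, ∀ y, nq θ (x * y) ≤ C * nq θ y

omit [StarModule ℂ R] in
lemma gns_le {x : R} {C : ℝ} (hC : 0 ≤ C) (h : ∀ θ ∈ S, ∀ y, nq θ (x * y) ≤ C * nq θ y) :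
    gnsNorm S x ≤ C := by
  refine Real.sSup_le ?_ hC
  rintro r ⟨θ, hθ, y, hy, rfl⟩
  have := h θ hθ y
  simpa [nq, hy] using this

omit [StarModule ℂ R] in
lemma gns_nonneg (x : R) : 0 ≤ gnsNorm S x :=
  Real.sSup_nonneg (by rintro r ⟨θ, hθ, y, hy, rfl⟩; exact Real.sqrt_nonneg _)

lemma le_gns (hS : ∀ θ ∈ S, IsPos θ) {x : R} (hx : Bdd S x) {θ : R →ₗ[ℂ] ℂ} (hθ : θ ∈ S) (y : R) :
    nq θ (x * y) ≤ gnsNorm S x * nq θ y := by
  obtain ⟨C, hC⟩ := hx
  rcases (nq_nonneg (θ := θ) y).eq_or_lt with h0 | h0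
  · have := hC θ hθ y
    rw [← h0] at this ⊢
    simpa using this
  have hp := hS θ hθ
  have hn : ‖((nq θ y)⁻¹ : ℂ)‖ = (nq θ y)⁻¹ := by simp [abs_of_pos h0]
  have h1 : nq θ (((nq θ y)⁻¹ : ℂ) • y) = 1 := by
    rw [hp.nq_smul, hn, inv_mul_cancel₀ h0.ne']
  have h2 : θ (star (((nq θ y)⁻¹ : ℂ) • y) * (((nq θ y)⁻¹ : ℂ) • y)) = 1 := by
    apply Complex.ext
    · rw [← hp.nq_sq, h1]; simp
    · rw [hp.im]; simp
  have h3 : nq θ (x * (((nq θ y)⁻¹ : ℂ) • y)) ≤ gnsNorm S x := by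
    refine le_csSup ⟨C, ?_⟩ ⟨θ, hθ, _, h2, rfl⟩
    rintro r ⟨θ, hθ, y, hy, rfl⟩
    have := hC θ hθ y
    simpa [nq, hy] using this
  rw [mul_smul_comm, hp.nq_smul, hn, inv_mul_le_iff₀ h0] at h3
  linarith

theorem gns_isCSemi (hS : ∀ θ ∈ S, IsPos θ) (hB : ∀ x, Bdd S x) : IsCSemi (gnsNorm S) where
  zero := le_antisymm (gns_le le_rfl fun θ _ y => by simp [nq]) (gns_nonneg _)
  add x x' := gns_le (add_nonneg (gns_nonneg _) (gns_nonneg _)) fun θ hθ y => by
    rw [add_mul, add_mul]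
    exact ((hS θ hθ).nq_add _ _).trans (add_le_add (le_gns hS (hB _) hθ y) (le_gns hS (hB _) hθ y))
  smul c x := gns_le (mul_nonneg (norm_nonneg _) (gns_nonneg _)) fun θ hθ y => by
    rw [smul_mul_assoc, (hS θ hθ).nq_smul, mul_assoc]
    exact mul_le_mul_of_nonneg_left (le_gns hS (hB _) hθ y) (norm_nonneg _)
  mul x x' := gns_le (mul_nonneg (gns_nonneg _) (gns_nonneg _)) fun θ hθ y => by
    rw [mul_assoc, mul_assoc]
    exact (le_gns hS (hB _) hθ _).trans
      (mul_le_mul_of_nonneg_left (le_gns hS (hB _) hθ y) (gns_nonneg _))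
  cstar x := by
    have h1 : gnsNorm S x ≤ Real.sqrt (gnsNorm S (star x * x)) := by
      refine gns_le (Real.sqrt_nonneg _) fun θ hθ y => ?_
      have hp := hS θ hθ
      refine (mul_self_le_mul_self_iff (nq_nonneg _)
        (mul_nonneg (Real.sqrt_nonneg _) (nq_nonneg _))).2 ?_
      have h2 := hp.cs y (star x * x * y)
      have h3 := le_gns hS (hB (star x * x)) hθ y
      have h4 := Real.mul_self_sqrt (gns_nonneg (S := S) (star x * x))
      have h5 : star (x * y) * (x * y) = star y * (star x * x * y) := by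
        simp only [star_mul, mul_assoc]
      rw [hp.nq_sq, h5]
      have h6 := mul_le_mul_of_nonneg_left h3 (nq_nonneg (θ := θ) y)
      calc _ ≤ _ := h2
        _ ≤ _ := h6
        _ = (Real.sqrt (gnsNorm S (star x * x)) * Real.sqrt (gnsNorm S (star x * x))) *
            (nq θ y * nq θ y) := by rw [h4]; ring
        _ = _ := by ring
    calc _ ≤ _ := mul_self_le_mul_self (gns_nonneg _) h1
      _ = _ := Real.mul_self_sqrt (gns_nonneg _)

end pos

section tens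
variable {A B : Type*} [CStarAlgebra A] [CStarAlgebra B]

noncomputable def inL (A B : Type*) [CStarAlgebra A] [CStarAlgebra B] : A →⋆ₐ[ℂ] A ⊗[ℂ] B :=
  { (Algebra.TensorProduct.includeLeft : A →ₐ[ℂ] A ⊗[ℂ] B) with
    map_star' := fun a => by simp }

noncomputable def inR (A B : Type*) [CStarAlgebra A] [CStarAlgebra B] : B →⋆ₐ[ℂ] A ⊗[ℂ] B :=
  { (Algebra.TensorProduct.includeRight : B →ₐ[ℂ] A ⊗[ℂ] B) with
    map_star' := fun a => by simp }

@[simp] lemma inL_apply (a : A) : inL A B a = a ⊗ₜ[ℂ] 1 := rfl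
@[simp] lemma inR_apply (b : B) : inR A B b = 1 ⊗ₜ[ℂ] b := rfl

open scoped ComplexOrder in
lemma gram_psd {φ : A →ₗ[ℂ] ℂ} (hφ : IsPos φ) {k : ℕ} (a : Fin k → A) :
    (Matrix.of fun i j => φ (star (a i) * a j)).PosSemidef := by
  rw [Matrix.posSemidef_iff_dotProduct_mulVec]
  refine ⟨?_, fun x => ?_⟩
  · ext i j
    simp [hφ.herm (a j) (a i)]
  · obtain ⟨r, h0, hr⟩ := hφ (∑ j, x j • a j)
    have : star x ⬝ᵥ (Matrix.of fun i j => φ (star (a i) * a j)).mulVec x =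
        φ (star (∑ j, x j • a j) * ∑ j, x j • a j) := by
      simp only [dotProduct, Matrix.mulVec, star_sum, Finset.sum_mul, Finset.mul_sum, map_sum,
        star_smul, smul_mul_assoc, mul_smul_comm, map_smul, smul_eq_mul, Matrix.of_apply,
        Pi.star_apply]
      rw [Finset.sum_comm]
      refine Finset.sum_congr rfl fun i _ => Finset.sum_congr rfl fun j _ => by ring
    rw [this, hr]
    exact_mod_cast h0

open scoped ComplexOrder in
lemma prod_pos {θ : A ⊗[ℂ] B →ₗ[ℂ] ℂ} (hθ : θ ∈ productStates A B) : IsPos θ := by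
  obtain ⟨φ, ψ, hφ, hψ, h⟩ := hθ
  intro y
  obtain ⟨k, a, b, rfl⟩ := TensorProduct.exists_sum_tmul_eq y
  have h1 := (gram_psd hφ.2 a).hadamard (gram_psd hψ.2 b)
  rw [Matrix.posSemidef_iff_dotProduct_mulVec] at h1
  have h2 := h1.2 fun _ => 1
  have h3 : θ (star (∑ j, a j ⊗ₜ[ℂ] b j) * ∑ j, a j ⊗ₜ[ℂ] b j) = star (fun _ => (1 : ℂ)) ⬝ᵥ
      ((Matrix.of fun i j => φ (star (a i) * a j)).hadamard
        (Matrix.of fun i j => ψ (star (b i) * b j))).mulVec fun _ => 1 := by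
    simp only [dotProduct, Matrix.mulVec, star_sum, Finset.sum_mul, Finset.mul_sum, map_sum,
      TensorProduct.star_tmul, Algebra.TensorProduct.tmul_mul_tmul, h, Matrix.hadamard_apply,
      Matrix.of_apply, Pi.star_apply, star_one, one_mul, mul_one]
    rw [Finset.sum_comm]
  rw [← h3] at h2
  exact ⟨_, (Complex.nonneg_iff.1 h2).1, Complex.ext (by simp)
    (by simpa using (Complex.nonneg_iff.1 h2).2.symm)⟩

lemma prod_tmul_le {θ : A ⊗[ℂ] B →ₗ[ℂ] ℂ} (hθ : θ ∈ productStates A B) (a : A) (b : B)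
    (y : A ⊗[ℂ] B) : nq θ ((a ⊗ₜ[ℂ] b) * y) ≤ (‖a‖ * ‖b‖) * nq θ y := by
  have h1 : (a ⊗ₜ[ℂ] b) * y = inL A B a * (inR A B b * y) := by
    rw [← mul_assoc]; simp
  rw [h1, mul_assoc]
  exact ((prod_pos hθ).nq_hom _ _ _).trans
    (mul_le_mul_of_nonneg_left ((prod_pos hθ).nq_hom _ _ _) (norm_nonneg _))

lemma prod_bdd (x : A ⊗[ℂ] B) : Bdd (productStates A B) x := by
  induction x using TensorProduct.induction_on with
  | zero => exact ⟨0, fun θ _ y => by simp [nq]⟩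
  | tmul a b => exact ⟨_, fun θ hθ y => prod_tmul_le hθ a b y⟩
  | add x x' hx hx' =>
    obtain ⟨C, hC⟩ := hx
    obtain ⟨C', hC'⟩ := hx'
    refine ⟨C + C', fun θ hθ y => ?_⟩
    rw [add_mul, add_mul]
    exact ((prod_pos hθ).nq_add _ _).trans (add_le_add (hC θ hθ y) (hC' θ hθ y))

theorem minNorm_isCSemi : IsCSemi (minNorm (A := A) (B := B)) :=
  gns_isCSemi (fun _ h => prod_pos h) prod_bdd

end tens

section states
variable {A : Type*} [CStarAlgebra A]

lemma isState_of_norm (g : A →L[ℂ] ℂ) (h1 : g 1 = 1) (hg : ∀ x, ‖g x‖ ≤ ‖x‖) :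
    IsState (g : A →ₗ[ℂ] ℂ) := by
  letI := CStarAlgebra.spectralOrder A
  letI := CStarAlgebra.spectralOrderedRing A
  have him : ∀ x : A, IsSelfAdjoint x → (g x).im = 0 := by
    intro x hx
    have key : ∀ t : ℝ, (g x).re ^ 2 + ((g x).im + t) ^ 2 ≤ ‖x‖ ^ 2 + t ^ 2 := by
      intro t
      have h2 := hg (x + (t * Complex.I : ℂ) • 1)
      have h3 : ‖x + (t * Complex.I : ℂ) • 1‖ ^ 2 ≤ ‖x‖ ^ 2 + t ^ 2 := by
        rw [sq, ← CStarRing.norm_star_mul_self]
        have : star (x + (t * Complex.I : ℂ) • 1) * (x + (t * Complex.I : ℂ) • 1) =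
            x * x + ((t ^ 2 : ℝ) : ℂ) • (1 : A) := by
          simp only [star_add, star_smul, hx.star_eq, star_one, add_mul, mul_add, smul_mul_assoc,
            mul_smul_comm, one_mul, mul_one, smul_add, smul_smul, star_mul', RCLike.star_def,
            Complex.conj_ofReal, Complex.conj_I]
          have e : (t : ℂ) * Complex.I * (t * -Complex.I) = ((t ^ 2 : ℝ) : ℂ) := by
            push_cast
            linear_combination (-(t : ℂ) ^ 2) * Complex.I_mul_I
          rw [e]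
          module
        rw [this]
        refine (norm_add_le _ _).trans (add_le_add ?_ ?_)
        · rw [sq]; exact norm_mul_le _ _
        · rw [norm_smul]
          have : ‖(1 : A)‖ ≤ 1 := by
            rcases subsingleton_or_nontrivial A with h | h
            · simp [Subsingleton.elim (1 : A) 0]
            · simp
          have e : ‖((t ^ 2 : ℝ) : ℂ)‖ = t ^ 2 := by simp
          rw [e]
          nlinarith [sq_nonneg t]
      have h4 : ‖g (x + (t * Complex.I : ℂ) • 1)‖ ^ 2 = (g x).re ^ 2 + ((g x).im + t) ^ 2 := by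
        rw [map_add, map_smul, h1, Complex.sq_norm, Complex.normSq_apply]
        simp; ring
      have h5 := pow_le_pow_left₀ (norm_nonneg _) h2 2
      linarith
    by_contra hne
    have h6 := key ((‖x‖ ^ 2 + 1) / (2 * (g x).im))
    have h7 : 2 * (g x).im * ((‖x‖ ^ 2 + 1) / (2 * (g x).im)) = ‖x‖ ^ 2 + 1 := by field_simp
    nlinarith [sq_nonneg (g x).re, sq_nonneg (g x).im]
  refine ⟨h1, fun a => ?_⟩
  have hsa : IsSelfAdjoint (star a * a) := IsSelfAdjoint.star_mul_self a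
  refine ⟨(g (star a * a)).re, ?_, Complex.ext (by simp) (by simpa using him _ hsa)⟩
  have h0 : 0 ≤ algebraMap ℝ A (‖a‖ ^ 2) - star a * a :=
    sub_nonneg.2 CStarAlgebra.star_mul_le_algebraMap_norm_sq
  have h2 : ‖algebraMap ℝ A (‖a‖ ^ 2) - star a * a‖ ≤ ‖a‖ ^ 2 := by
    rw [CStarAlgebra.norm_le_iff_le_algebraMap _ (sq_nonneg _) h0]
    exact sub_le_self _ (star_mul_self_nonneg a)
  have h3 := (hg _).trans h2
  have h4 := (Complex.re_le_norm _).trans h3
  rw [map_sub, Algebra.algebraMap_eq_smul_one, ← Complex.coe_smul, map_smul, h1] at h4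
  simp only [smul_eq_mul, mul_one, Complex.sub_re, Complex.ofReal_re] at h4
  linarith

lemma exists_state [Nontrivial A] (a : A) :
    ∃ φ : A →ₗ[ℂ] ℂ, IsState φ ∧ φ (star a * a) = (‖star a * a‖ : ℝ) := by
  letI := CStarAlgebra.spectralOrder A
  letI := CStarAlgebra.spectralOrderedRing A
  set b := star a * a
  have hb0 : 0 ≤ b := star_mul_self_nonneg a
  have hb : IsStarNormal b := (IsSelfAdjoint.of_nonneg hb0).isStarNormal
  have hm : ((‖b‖ : ℝ) : ℂ) ∈ spectrum ℂ b :=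
    spectrum.algebraMap_mem ℂ (CStarAlgebra.norm_mem_spectrum_of_nonneg hb0)
  let e : C(spectrum ℂ b, ℂ) →ₗᵢ[ℂ] A :=
    ⟨(cfcHom hb : C(spectrum ℂ b, ℂ) →⋆ₐ[ℂ] A).toAlgHom.toLinearMap, fun f => norm_cfcHom b f hb⟩
  let f : C(spectrum ℂ b, ℂ) →L[ℂ] ℂ := ContinuousMap.evalCLM ℂ ⟨_, hm⟩
  obtain ⟨g, hg, hn⟩ := exists_extension_norm_eq (LinearMap.range e.toLinearMap)
    (f.comp (e.equivRange.symm.toContinuousLinearEquiv : _ →L[ℂ] _))
  have hge : ∀ x, g (e x) = f x := fun x => by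
    have := hg ⟨e x, x, rfl⟩
    rw [this]
    have h2 : e.equivRange.symm ⟨e x, x, rfl⟩ = x := by
      rw [LinearIsometryEquiv.symm_apply_eq]; rfl
    simp [h2]
  have hle : ‖g‖ ≤ 1 := by
    rw [hn]
    refine ContinuousLinearMap.opNorm_le_bound _ zero_le_one fun x => ?_
    have := (e.equivRange.symm x).norm_coe_le_norm ⟨_, hm⟩
    simpa [f] using this
  refine ⟨g, isState_of_norm g ?_ fun x => ?_, ?_⟩
  · have := hge 1
    have h2 : e 1 = 1 := map_one (cfcHom hb : C(spectrum ℂ b, ℂ) →⋆ₐ[ℂ] A)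
    rw [h2] at this
    rw [this]; rfl
  · simpa using g.le_of_opNorm_le hle x
  · have := hge (ContinuousMap.restrict _ (ContinuousMap.id ℂ))
    have h2 : e (ContinuousMap.restrict _ (ContinuousMap.id ℂ)) = b := cfcHom_id hb
    rw [h2] at this
    exact this

end states

universe u v

theorem exists_minTensor (A : Type u) (Z : Type v) [CStarAlgebra A] [CStarAlgebra Z]
    [Nontrivial Z] : ∃ (B : Type (max u v)) (_ : CStarAlgebra B) (ι : A ⊗[ℂ] Z →⋆ₐ[ℂ] B),
      (∀ x, ‖ι x‖ = minNorm x) ∧ DenseRange ι ∧ Function.Injective (ι.comp (inL A Z)) := by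
  obtain ⟨B, _, ι, h1, h2⟩ := exists_completion (minNorm_isCSemi (A := A) (B := Z))
  refine ⟨B, inferInstance, ι, h1, h2, (injective_iff_map_eq_zero _).2 fun a ha => ?_⟩
  by_contra hne
  haveI : Nontrivial A := nontrivial_of_ne _ _ hne
  obtain ⟨φ, hφ, hφa⟩ := exists_state a
  obtain ⟨ψ, hψ, -⟩ := exists_state (1 : Z)
  let θ : A ⊗[ℂ] Z →ₗ[ℂ] ℂ := TensorProduct.lift ((LinearMap.mul ℂ ℂ).compl₁₂ φ ψ)
  have hθ : θ ∈ productStates A Z := ⟨φ, ψ, hφ, hψ, fun a b => by simp [θ]⟩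
  have h3 := le_gns (fun _ h => prod_pos h) (prod_bdd (a ⊗ₜ[ℂ] (1 : Z))) hθ 1
  have h4 : minNorm (a ⊗ₜ[ℂ] (1 : Z)) = 0 := by
    rw [← h1]; simpa using ha
  rw [show gnsNorm (productStates A Z) (a ⊗ₜ[ℂ] (1 : Z)) = 0 from h4, zero_mul, mul_one, nq] at h3
  have h5 : (θ (star (a ⊗ₜ[ℂ] (1 : Z)) * a ⊗ₜ[ℂ] 1)).re = ‖star a * a‖ := by
    simp [θ, hφa, hψ.1]
  rw [h5, CStarRing.norm_star_mul_self, Real.sqrt_mul_self (norm_nonneg _)] at h3
  exact hne (norm_le_zero_iff.1 h3)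

end Vale.Agent.P101
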