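import Vale.Agent.P101.Pull
import Vale.Agent.P101.Inter
import Vale.Agent.P101.MinT

/-! The main theorem. -/

namespace Vale.Agent.P101

open scoped CStarAlgebra unitInterval TensorProduct Matrix.Norms.L2Operator
open Filter Topology

universe u v

theorem approx_step {A : Type u} {B Z : Type*} [CStarAlgebra A] [CStarAlgebra B] [CStarAlgebra Z]
    (φ : A →⋆ₐ[ℂ] B) (ψ : Z →⋆ₐ[ℂ] B) (hc : ∀ a z, Commute (φ a) (ψ z)) {E₀ : CAlg.{u}}
    (h₀ : E₀ ∈ models A) (hE : IsEmpty (E₀.E →⋆ₐ[ℂ] ℂ)) {p q : ℕ} (hp : 0 < p) (hq : 0 < q)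
    (hpq : p.Coprime q) (ι : Dd (Fin p) (Fin q) →⋆ₐ[ℂ] Z) (U : C(I, Mat p q))
    (hU : ∀ s, U s ∈ unitary _) (h0 : U 0 = 1) (FA : Finset A) (FZ : Finset Z) {ε : ℝ}
    (hε : 0 < ε) (h : ∀ z ∈ FZ, ∃ g : Dd (Fin p) (Fin q), dist (ι g) z ≤ ε ∧
      ∀ s, dist (ad (U s) (g.1 0)) (g.1 s) ≤ ε) : ∃ v ∈ unitary B,
      (∀ a ∈ FA, dist (ad v (φ a)) (φ a) ≤ 5 * ε) ∧
      ∀ z ∈ FZ, ∃ a, dist (ad v (φ a)) (ψ z) ≤ 3 * (5 * ε) := by
  obtain ⟨k, l, hk, hkl⟩ : ∃ k l, 0 < k ∧ q * l = p * k + 1 := by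
    obtain ⟨n, h1, h2⟩ := Nat.chineseRemainder hpq 0 (q - 1)
    obtain ⟨k, rfl⟩ := (Nat.modEq_zero_iff_dvd).1 h1
    obtain ⟨l, hl⟩ : q ∣ p * k + 1 := by
      rw [← Nat.modEq_zero_iff_dvd]
      have := h2.add_right 1
      rw [Nat.sub_add_cancel hq] at this
      exact this.trans (Nat.modEq_zero_iff_dvd.2 dvd_rfl)
    exact ⟨k + q, l + p, by omega, by rw [mul_add, mul_add, ← hl]; ring⟩
  have hl : 0 < l := Nat.pos_of_ne_zero (by rintro rfl; simp at hkl)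
  haveI : Nonempty (Fin p) := ⟨⟨0, hp⟩⟩
  haveI : Nonempty (Fin q) := ⟨⟨0, hq⟩⟩
  haveI : Nonempty (Fin k) := ⟨⟨0, hk⟩⟩
  haveI : Nonempty (Fin l) := ⟨⟨0, hl⟩⟩
  have o : Fin q × Fin l ≃ Option (Fin p × Fin k) := Fintype.equivOfCardEq (by simpa using hkl)
  obtain ⟨E, ⟨J, W, ιE, hιE⟩, φ', v, H⟩ := exists_data (pair_models A) h₀ hE
    (Classical.arbitrary (Fin p × Fin k))
  obtain ⟨G, _, ιG, hG⟩ := exists_model (φ.comp (StarAlgHom.id ℂ A)) W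
  obtain ⟨j, hj⟩ := lift_model φ tendsto_id hιE hG
  let c : Z →⋆ₐ[ℂ] cen (φ.comp (StarAlgHom.id ℂ A)) W :=
    { toFun := fun z => ⟨fun _ => ψ z, ⟨_, fun _ => le_rfl⟩, fun a => by simp [(hc a z).eq]⟩
      map_one' := Subtype.ext (funext fun _ => map_one ψ)
      map_mul' := fun _ _ => Subtype.ext (funext fun _ => map_mul ψ _ _)
      map_zero' := Subtype.ext (funext fun _ => map_zero ψ)
      map_add' := fun _ _ => Subtype.ext (funext fun _ => map_add ψ _ _)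
      commutes' := fun r => Subtype.ext (funext fun _ => ψ.commutes r)
      map_star' := fun _ => Subtype.ext (funext fun _ => map_star ψ _) }
  have hjc : Continuous j := map_continuous j
  obtain ⟨V, hV, hV'⟩ := exists_unitary j (ιG.comp c) (fun x z => by
    refine hιE.dense.induction_on (p := fun x => Commute (j x) (ιG (c z))) x
      (isClosed_eq (by fun_prop) (by fun_prop)) fun x => ?_
    rw [hj]
    have : Commute (pull φ tendsto_id x) (c z) := Subtype.ext (funext fun i => hc _ z)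
    exact this.map ιG) ι o H U hU h0
  refine pullback hιE hG hj (c := c) (fun _ _ => rfl) hV FA FZ (by positivity) fun z hz => ?_
  obtain ⟨g, h1, h2⟩ := h z hz
  obtain ⟨y, hy⟩ := hV' g ε h2
  have h3 := (dist_map_le (ιG.comp c) _ _).trans h1
  exact ⟨y, (dist_triangle _ _ _).trans ((add_le_add hy h3).trans_eq (by ring))⟩

lemma diagAt_le {p q p' q' k : ℕ} (e : (Fin p × Fin q) × Fin k ≃ Fin p' × Fin q')
    (ξ : Fin k → C(I, I)) (f : C(I, Mat p q)) {ε : ℝ} (hε : 0 ≤ ε) (s t : I)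
    (h : ∀ i, dist (f (ξ i s)) (f (ξ i t)) ≤ ε) : dist (diagAt e ξ f s) (diagAt e ξ f t) ≤ ε := by
  let bd : (Fin k → Mat p q) →⋆ₐ[ℂ] Mat p' q' :=
    { toFun := fun x => Matrix.reindex e e (Matrix.blockDiagonal x)
      map_one' := by simp
      map_mul' := fun x y => by
        rw [show x * y = fun i => x i * y i from rfl, Matrix.blockDiagonal_mul]; simp
      map_zero' := by simp
      map_add' := fun x y => by rw [Matrix.blockDiagonal_add]; rfl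
      commutes' := fun r => by simp [Algebra.algebraMap_eq_smul_one, Matrix.submatrix_smul]
      map_star' := fun x => by
        simp [Matrix.star_eq_conjTranspose, Matrix.blockDiagonal_conjTranspose]; rfl }
  exact (dist_map_le bd _ _).trans ((dist_pi_le_iff hε).2 h)

theorem approx_Z {A : Type u} {B Z : Type*} [CStarAlgebra A] [CStarAlgebra B] [CStarAlgebra Z]
    (φ : A →⋆ₐ[ℂ] B) (ψ : Z →⋆ₐ[ℂ] B) (hc : ∀ a z, Commute (φ a) (ψ z)) {E₀ : CAlg.{u}}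
    (h₀ : E₀ ∈ models A) (hE : IsEmpty (E₀.E →⋆ₐ[ℂ] ℂ)) (hZ : IsJiangSu Z) (FA : Finset A)
    (FZ : Finset Z) {ε : ℝ} (hε : 0 < ε) : ∃ v ∈ unitary B,
      (∀ a ∈ FA, dist (ad v (φ a)) (φ a) ≤ 5 * ε) ∧
      ∀ z ∈ FZ, ∃ a, dist (ad v (φ a)) (ψ z) ≤ 3 * (5 * ε) := by
  obtain ⟨p, q, ι, hpq, hι, hd, hL⟩ := hZ
  obtain ⟨m, hm⟩ : ∃ m, ∀ z ∈ FZ, ∃ f ∈ dimDrop (p m) (q m), dist (ι m f) z ≤ ε := by
    refine ((eventually_all_finset (l := atTop) FZ).2 fun z _ => ?_).exists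
    obtain ⟨y, hy, hyz⟩ := hd.exists_dist_lt z hε
    obtain ⟨m, f, hf, rfl⟩ := Set.mem_iUnion.1 hy
    refine (eventually_gt_atTop m).mono fun n hn => ?_
    obtain ⟨k, e, ξ, u, -, -, h⟩ := hL m n hn
    obtain ⟨g, hg, hg', -⟩ := h f hf
    exact ⟨g, hg, by rw [hg', dist_comm]; exact hyz.le⟩
  choose! f hf hfz using hm
  obtain ⟨n, hn, hn'⟩ : ∃ n, m < n ∧ ∀ z ∈ FZ, ∀ s t : I, dist s t ≤ (1 / 2 : ℝ) ^ (n - m) →
      dist (f z s) (f z t) ≤ ε := by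
    refine ((eventually_gt_atTop m).and ((eventually_all_finset FZ).2 fun z _ => ?_)).exists
    obtain ⟨δ, hδ, h⟩ := Metric.uniformContinuous_iff.1
      (CompactSpace.uniformContinuous_of_continuous (f z).continuous) ε hε
    refine (((tendsto_pow_atTop_nhds_zero_of_lt_one (r := (1 / 2 : ℝ)) (by norm_num)
      (by norm_num)).comp (tendsto_sub_atTop_nat m)).eventually_lt_const hδ).mono
      fun n hn s t hst => (h (hst.trans_lt hn)).le
  obtain ⟨k, e, ξ, u, hu, hξ, h⟩ := hL m n hn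
  obtain ⟨ι', hι'⟩ := exists_hom_Dd (hι n).1
  obtain ⟨U, hU⟩ : ∃ U : C(I, Mat (p n) (q n)), ∀ s, U s = star (u s) * u 0 :=
    ⟨star u * ContinuousMap.const _ (u 0), fun _ => rfl⟩
  refine approx_step φ ψ hc h₀ hE (hpq n).1 (hpq n).2.1 (hpq n).2.2 ι' U
    (fun s => by rw [hU]; exact mul_mem (Unitary.star_mem (hu s)) (hu 0))
    (by rw [hU]; exact (hu 0).1) FA FZ hε fun z hz => ?_
  obtain ⟨g, hg, hg', hgs⟩ := h (f z) (hf z hz)
  refine ⟨⟨g, mem_Dd.2 hg⟩, by rw [hι', hg']; exact hfz z hz, fun s => ?_⟩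
  have h1 : ∀ s, g s = ad (star (u s)) (diagAt e ξ (f z) s) := fun s => by simp [ad, hgs]
  rw [hU]
  dsimp only
  have h2 := ad_star_ad (Unitary.star_mem (hu 0)) (diagAt e ξ (f z) 0)
  rw [star_star] at h2
  rw [h1, h1, ad_mul, h2, dist_ad (Unitary.star_mem (hu s))]
  exact diagAt_le e ξ _ hε.le _ _ fun i => hn' z hz _ _ (hξ i _ _)

theorem approx_B {A B Z : Type*} [CStarAlgebra A] [CStarAlgebra B] [CStarAlgebra Z]
    (ι : A ⊗[ℂ] Z →⋆ₐ[ℂ] B) (hι : DenseRange ι) {φ : A →⋆ₐ[ℂ] B} {ψ : Z →⋆ₐ[ℂ] B}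
    (h : ∀ a z, ι (a ⊗ₜ[ℂ] z) = φ a * ψ z)
    (H : ∀ (FA : Finset A) (FZ : Finset Z) (ε : ℝ), 0 < ε → ∃ v ∈ unitary B,
      (∀ a ∈ FA, dist (ad v (φ a)) (φ a) ≤ 5 * ε) ∧
      ∀ z ∈ FZ, ∃ a, dist (ad v (φ a)) (ψ z) ≤ 3 * (5 * ε)) (FA : Finset A) (FB : Finset B)
    (ε : ℝ) (hε : 0 < ε) : ∃ v : unitary B,
      (∀ a ∈ FA, ‖(v : B) * φ a * star (v : B) - φ a‖ ≤ ε) ∧
      ∀ b ∈ FB, ∃ a, ‖(v : B) * φ a * star (v : B) - b‖ ≤ ε := by
  classical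
  choose v hv h1 h2 using fun x : Finset A × Finset Z × ℕ =>
    H x.1 x.2.1 (1 / ((x.2.2 : ℝ) + 1)) (by positivity)
  choose! a ha using h2
  let L : Filter (Finset A × Finset Z × ℕ) := atTop ×ˢ atTop ×ˢ atTop
  have h0 : Tendsto (fun x : Finset A × Finset Z × ℕ => 1 / ((x.2.2 : ℝ) + 1)) L (𝓝 0) :=
    tendsto_one_div_add_atTop_nhds_zero_nat.comp (tendsto_snd.comp tendsto_snd)
  have hA : ∀ b, Tendsto (fun x => ad (v x) (φ b)) L (𝓝 (φ b)) := fun b => by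
    rw [tendsto_iff_dist_tendsto_zero]
    refine squeeze_zero' (Eventually.of_forall fun _ => dist_nonneg) ?_
      (by simpa only [mul_zero] using h0.const_mul 5)
    exact (tendsto_fst.eventually (eventually_ge_atTop {b})).mono fun x hx =>
      h1 x b (Finset.singleton_subset_iff.1 hx)
  have hZ : ∀ z, Tendsto (fun x => ad (v x) (φ (a x z))) L (𝓝 (ψ z)) := fun z => by
    rw [tendsto_iff_dist_tendsto_zero]
    refine squeeze_zero' (Eventually.of_forall fun _ => dist_nonneg) ?_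
      (by simpa only [mul_zero] using (h0.const_mul 5).const_mul 3)
    exact ((tendsto_fst.comp tendsto_snd).eventually (eventually_ge_atTop {z})).mono fun x hx =>
      ha x z (Finset.singleton_subset_iff.1 hx)
  have hB : ∀ y, ∃ c : _ → A, Tendsto (fun x => ad (v x) (φ (c x))) L (𝓝 (ι y)) := fun y => by
    induction y using TensorProduct.induction_on with
    | zero => exact ⟨0, by simp [ad]⟩
    | tmul b z =>
      refine ⟨fun x => b * a x z, h b z ▸ ((hA b).mul (hZ z)).congr fun x => ?_⟩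
      simp only [ad, map_mul, mul_assoc]
      rw [← mul_assoc (star (v x)), (hv x).1, one_mul]
    | add y y' hy hy' =>
      obtain ⟨c, hc⟩ := hy
      obtain ⟨c', hc'⟩ := hy'
      exact ⟨c + c', map_add ι y y' ▸ (hc.add hc').congr fun x => by simp [ad, mul_add, add_mul]⟩
  have e1 : ∀ᶠ x in L, ∀ b ∈ FA, dist (ad (v x) (φ b)) (φ b) < ε :=
    (eventually_all_finset FA).2 fun b _ => Metric.tendsto_nhds.1 (hA b) ε hε
  have e2 : ∀ᶠ x in L, ∀ b ∈ FB, ∃ c, dist (ad (v x) (φ c)) b < ε :=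
    (eventually_all_finset FB).2 fun b _ => by
      obtain ⟨y, hy⟩ := hι.exists_dist_lt b hε
      obtain ⟨c, hc⟩ := hB y
      exact ((hc.dist tendsto_const_nhds).eventually_lt_const (by rwa [dist_comm])).mono
        fun x hx => ⟨c x, hx⟩
  obtain ⟨x, h3, h4⟩ := (e1.and e2).exists
  exact ⟨⟨v x, hv x⟩, fun b hb => by simpa [dist_eq_norm, ad] using (h3 b hb).le,
    fun b hb => (h4 b hb).imp fun c hc => by simpa [dist_eq_norm, ad] using hc.le⟩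

lemma IsJiangSu.nontrivial {Z : Type*} [CStarAlgebra Z] (hZ : IsJiangSu Z) : Nontrivial Z := by
  obtain ⟨p, q, ι, hpq, hι, -⟩ := hZ
  obtain ⟨ι', hι'⟩ := exists_hom_Dd (hι 0).1
  haveI : Nonempty (Fin (p 0) × Fin (q 0)) := ⟨⟨0, (hpq 0).1⟩, ⟨0, (hpq 0).2.1⟩⟩
  refine ⟨0, 1, fun h => ?_⟩
  have h1 := (hι 0).2 (mem_Dd.1 (zero_mem _)) (mem_Dd.1 (one_mem _))
    (((hι' 0).symm.trans (map_zero ι')).trans (h.trans (hι 0).1.map_one.symm))
  exact zero_ne_one (DFunLike.congr_fun h1 0)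

lemma IsJiangSu.separable {Z : Type*} [CStarAlgebra Z] (hZ : IsJiangSu Z) :
    TopologicalSpace.SeparableSpace Z := by
  obtain ⟨p, q, ι, hpq, hι, hd, -⟩ := hZ
  rw [← TopologicalSpace.isSeparable_univ_iff, ← hd.closure_eq]
  refine TopologicalSpace.IsSeparable.closure (TopologicalSpace.IsSeparable.iUnion fun n => ?_)
  obtain ⟨ι', hι'⟩ := exists_hom_Dd (hι n).1
  refine (TopologicalSpace.isSeparable_range (map_continuous ι')).mono ?_
  rintro _ ⟨f, hf, rfl⟩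
  exact ⟨⟨f, mem_Dd.2 hf⟩, hι' _⟩

lemma separable_tensor {A B Z : Type*} [CStarAlgebra A] [CStarAlgebra B] [CStarAlgebra Z]
    [TopologicalSpace.SeparableSpace A] [TopologicalSpace.SeparableSpace Z]
    (ι : A ⊗[ℂ] Z →⋆ₐ[ℂ] B) (hι : DenseRange ι) {φ : A →⋆ₐ[ℂ] B} {ψ : Z →⋆ₐ[ℂ] B}
    (h : ∀ a z, ι (a ⊗ₜ[ℂ] z) = φ a * ψ z) : TopologicalSpace.SeparableSpace B := by
  have h1 : Continuous φ := map_continuous φ
  have h2 : Continuous ψ := map_continuous ψ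
  rw [← TopologicalSpace.isSeparable_univ_iff, ← hι.closure_range]
  refine TopologicalSpace.IsSeparable.closure ((TopologicalSpace.isSeparable_range
    (f := fun x : A × Z => φ x.1 * ψ x.2) (by fun_prop)).span (R := ℂ) |>.mono ?_)
  rintro _ ⟨y, rfl⟩
  induction y using TensorProduct.induction_on with
  | zero => simp
  | tmul b z => exact Submodule.subset_span ⟨(b, z), (h b z).symm⟩
  | add y y' hy hy' => rw [map_add]; exact add_mem hy hy'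

lemma noChar {A E : Type*} [CStarAlgebra A] [CStarAlgebra E] {ω : Ultrafilter ℕ}
    (hA : ¬ HasCharacter A ω) {ι : cen (StarAlgHom.id ℂ A) ω →⋆ₐ[ℂ] E} (hι : IsModel ι) :
    IsEmpty (E →⋆ₐ[ℂ] ℂ) := ⟨fun χ => hA <| by
  classical
  have hm : ∀ {x}, x ∈ centralSeq A ω → x ∈ cen (StarAlgHom.id ℂ A) ω := fun hx =>
    ⟨hx.1, fun a => tendsto_zero_iff_norm_tendsto_zero.2 (hx.2 a)⟩
  let f : (ℕ → A) → ℂ := fun x => if h : x ∈ cen (StarAlgHom.id ℂ A) ω then χ (ι ⟨x, h⟩) else 0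
  have hf : ∀ x : cen (StarAlgHom.id ℂ A) ω, f x = χ.comp ι x := fun x => dif_pos x.2
  refine ⟨f, ⟨(hf 1).trans (map_one _), fun x hx y hy => ?_, fun x hx y hy => ?_,
    fun c x hx => ?_, fun x hx => ?_⟩, fun x hx h0 => ?_⟩
  · rw [hf ⟨x, hm hx⟩, hf ⟨y, hm hy⟩, ← map_add]; exact hf (⟨x, hm hx⟩ + ⟨y, hm hy⟩)
  · rw [hf ⟨x, hm hx⟩, hf ⟨y, hm hy⟩, ← map_mul]; exact hf (⟨x, hm hx⟩ * ⟨y, hm hy⟩)
  · rw [hf ⟨x, hm hx⟩, ← map_smul]; exact hf (c • ⟨x, hm hx⟩)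
  · rw [hf ⟨x, hm hx⟩, ← map_star]; exact hf (star ⟨x, hm hx⟩)
  · rw [hf ⟨x, hm hx⟩, StarAlgHom.comp_apply,
      hι.eq_zero (tendsto_zero_iff_norm_tendsto_zero.2 h0), map_zero]⟩

theorem absorbs_of_noChar (A : Type u) [CStarAlgebra A] [TopologicalSpace.SeparableSpace A]
    (ω : Ultrafilter ℕ) (hA : ¬ HasCharacter A ω) (Z : Type v) [CStarAlgebra Z]
    (hZ : IsJiangSu Z) : Absorbs A Z := by
  haveI := hZ.nontrivial
  haveI := hZ.separable
  obtain ⟨B, _, ι, h1, h2, h3⟩ := exists_minTensor A Z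
  have h : ∀ a z, ι (a ⊗ₜ[ℂ] z) = ι.comp (inL A Z) a * ι.comp (inR A Z) z := fun a z => by
    simp [← map_mul]
  haveI := separable_tensor ι h2 h
  obtain ⟨E₀, _, ι₀, h₀⟩ := exists_model (StarAlgHom.id ℂ A) ω
  obtain ⟨Ψ, hΨ⟩ := intertwine _ h3 (approx_B ι h2 h fun FA FZ ε hε =>
    approx_Z _ _ (fun a z => by simp [Commute, SemiconjBy, ← map_mul]) (E₀ := ⟨E₀⟩)
      ⟨ℕ, ω, ι₀, h₀⟩ (noChar hA h₀) hZ FA FZ hε)
  let e := StarAlgEquiv.ofBijective Ψ hΨ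
  refine ⟨(e.symm : B →⋆ₐ[ℂ] A).comp ι, ?_, fun x => ?_⟩
  · exact (e.symm.surjective.denseRange).comp h2 (map_continuous (e.symm : B →⋆ₐ[ℂ] A))
  · rw [← h1]
    exact StarAlgEquiv.norm_map e.symm _

end Vale.Agent.P101
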