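import Mathlib

/-! Definitions for the Kirchberg-Rordam character question. -/

namespace Vale.Agent.P101

open scoped TensorProduct
open Filter Topology

/-- A state on a unital C*-algebra: a unital positive linear functional. -/
def IsState {A : Type*} [CStarAlgebra A] (φ : A →ₗ[ℂ] ℂ) : Prop :=
  φ 1 = 1 ∧ ∀ a : A, ∃ r : ℝ, 0 ≤ r ∧ φ (star a * a) = (r : ℂ)

/-- The product states `φ ⊗ ψ` on the algebraic tensor product. -/
def productStates (A B : Type*) [CStarAlgebra A] [CStarAlgebra B] : Set (A ⊗[ℂ] B →ₗ[ℂ] ℂ) :=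
  {θ | ∃ (φ : A →ₗ[ℂ] ℂ) (ψ : B →ₗ[ℂ] ℂ), IsState φ ∧ IsState ψ ∧
    ∀ (a : A) (b : B), θ (a ⊗ₜ[ℂ] b) = φ a * ψ b}

/-- The supremum over `θ` in `S` of the operator norm of `x` in the GNS representation of `θ`. -/
noncomputable def gnsNorm {R : Type*} [Ring R] [StarRing R] [Algebra ℂ R]
    (S : Set (R →ₗ[ℂ] ℂ)) (x : R) : ℝ :=
  sSup {r : ℝ | ∃ θ ∈ S, ∃ y : R, θ (star y * y) = 1 ∧
    r = Real.sqrt (θ (star (x * y) * (x * y))).re}

/-- The minimal (spatial) C*-norm on the algebraic tensor product: the supremum over states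
`φ, ψ` of the operator norm in the GNS representation of `φ ⊗ ψ`. -/
noncomputable def minNorm {A B : Type*} [CStarAlgebra A] [CStarAlgebra B] (x : A ⊗[ℂ] B) : ℝ :=
  gnsNorm (productStates A B) x

/-- `A` is isomorphic to the minimal tensor product of `A` and `Z`: `A` is a completion of the
algebraic tensor product for the minimal C*-norm. -/
def Absorbs (A Z : Type*) [CStarAlgebra A] [CStarAlgebra Z] : Prop :=
  ∃ Φ : A ⊗[ℂ] Z →⋆ₐ[ℂ] A, DenseRange Φ ∧ ∀ x, ‖Φ x‖ = minNorm x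

/-- `f` restricts to a unital star-algebra homomorphism on the star-subalgebra `S` (its values
outside `S` play no role). -/
structure IsHomOn {R Z : Type*} [One R] [Add R] [Mul R] [SMul ℂ R] [Star R]
    [One Z] [Add Z] [Mul Z] [SMul ℂ Z] [Star Z] (S : Set R) (f : R → Z) : Prop where
  map_one : f 1 = 1
  map_add : ∀ x ∈ S, ∀ y ∈ S, f (x + y) = f x + f y
  map_mul : ∀ x ∈ S, ∀ y ∈ S, f (x * y) = f x * f y
  map_smul : ∀ (c : ℂ), ∀ x ∈ S, f (c • x) = c • f x
  map_star : ∀ x ∈ S, f (star x) = star (f x)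

/-- Bounded sequences in `A` that are central along the ultrafilter `ω`. -/
def centralSeq (A : Type*) [CStarAlgebra A] (ω : Ultrafilter ℕ) : Set (ℕ → A) :=
  {x | (∃ C : ℝ, ∀ n, ‖x n‖ ≤ C) ∧ ∀ a : A, Tendsto (fun n => ‖x n * a - a * x n‖) ω (𝓝 0)}

/-- The central sequence algebra (central sequences modulo the sequences tending to zero along
`ω`) has a character. -/
def HasCharacter (A : Type*) [CStarAlgebra A] (ω : Ultrafilter ℕ) : Prop :=
  ∃ χ : (ℕ → A) → ℂ, IsHomOn (centralSeq A ω) χ ∧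
    ∀ x ∈ centralSeq A ω, Tendsto (fun n => ‖x n‖) ω (𝓝 0) → χ x = 0

/-- The matrix algebra `M_p ⊗ M_q`. -/
abbrev Mat (p q : ℕ) : Type := Matrix (Fin p × Fin q) (Fin p × Fin q) ℂ

/-- The dimension drop algebra: continuous `f` on the unit interval with values in `M_p ⊗ M_q`,
`f 0` in `M_p ⊗ 1` and `f 1` in `1 ⊗ M_q`. -/
def dimDrop (p q : ℕ) : Set C(unitInterval, Mat p q) :=
  {f | (∃ x : Matrix (Fin p) (Fin p) ℂ,
      f 0 = Matrix.kronecker x (1 : Matrix (Fin q) (Fin q) ℂ)) ∧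
    ∃ y : Matrix (Fin q) (Fin q) ℂ,
      f 1 = Matrix.kronecker (1 : Matrix (Fin p) (Fin p) ℂ) y}

/-- The block diagonal matrix `diag (f (ξ 1 s), …, f (ξ k s))`, read in `M_p' ⊗ M_q'` through
the identification `e` of index sets. -/
noncomputable def diagAt {p q p' q' k : ℕ} (e : (Fin p × Fin q) × Fin k ≃ Fin p' × Fin q')
    (ξ : Fin k → C(unitInterval, unitInterval)) (f : C(unitInterval, Mat p q))
    (s : unitInterval) : Mat p' q' :=
  Matrix.reindex e e (Matrix.blockDiagonal fun i => f (ξ i s))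

/-- The embeddings `ι`, `ι'` of two dimension drop algebras are linked by a connecting map of the
form `f ↦ u* diag (f ∘ ξ 1, …, f ∘ ξ k) u`, with `u` a path of unitaries and paths `ξ i` of
oscillation at most `δ`. -/
def Linked {Z : Type*} {p q p' q' : ℕ} (ι : C(unitInterval, Mat p q) → Z)
    (ι' : C(unitInterval, Mat p' q') → Z) (δ : ℝ) : Prop :=
  ∃ (k : ℕ) (e : (Fin p × Fin q) × Fin k ≃ Fin p' × Fin q')
    (ξ : Fin k → C(unitInterval, unitInterval)) (u : C(unitInterval, Mat p' q')),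
    (∀ s, u s ∈ unitary (Mat p' q')) ∧ (∀ i s t, dist (ξ i s) (ξ i t) ≤ δ) ∧
    ∀ f ∈ dimDrop p q, ∃ g ∈ dimDrop p' q', ι' g = ι f ∧
      ∀ s, g s = star (u s) * diagAt e ξ f s * u s

/-- `Z` is the Jiang-Su algebra, as constructed by Jiang and Su: the inductive limit of prime
dimension drop algebras along injective unital connecting maps
`f ↦ u* diag (f ∘ ξ 1, …, f ∘ ξ k) u`, the paths `ξ i` of the map from stage `m` to stage `n`
having oscillation at most `2 ^ (m - n)`. -/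
def IsJiangSu (Z : Type*) [CStarAlgebra Z] : Prop :=
  ∃ (p q : ℕ → ℕ) (ι : ∀ n, C(unitInterval, Mat (p n) (q n)) → Z),
    (∀ n, 0 < p n ∧ 0 < q n ∧ (p n).Coprime (q n)) ∧
    (∀ n, IsHomOn (dimDrop (p n) (q n)) (ι n) ∧ Set.InjOn (ι n) (dimDrop (p n) (q n))) ∧
    Dense (⋃ n, ι n '' dimDrop (p n) (q n)) ∧
    ∀ m n, m < n → Linked (ι m) (ι n) ((1 / 2 : ℝ) ^ (n - m))

end Vale.Agent.P101
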