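import Mathlib

/-! The unitary on the square that moves an almost constant element to the second variable. -/

namespace Vale.Agent.P101

open scoped CStarAlgebra unitInterval
open Complex

variable {M Q : Type*} [CStarAlgebra M] [CStarAlgebra Q]

/-- powers of a symmetry -/
noncomputable def pw (F : M) (τ : ℝ) : M :=
  (2⁻¹ : ℂ) • (1 + F) + (exp (τ * Real.pi * Complex.I) * 2⁻¹) • (1 - F)

lemma pw_zero (F : M) : pw F 0 = 1 := by
  simp only [pw, ofReal_zero, zero_mul, exp_zero, one_mul]; module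

lemma pw_one (F : M) : pw F 1 = F := by
  simp only [pw, ofReal_one, one_mul, exp_pi_mul_I]; module

@[fun_prop] lemma pw_cont (F : M) : Continuous (pw F) := by unfold pw; fun_prop

lemma pw_mem {S : StarSubalgebra ℂ M} {F : M} (h : F ∈ S) (τ : ℝ) : pw F τ ∈ S :=
  add_mem (S.smul_mem (add_mem (one_mem S) h) _) (S.smul_mem (sub_mem (one_mem S) h) _)

lemma pw_comm {F x : M} (h : Commute F x) (τ : ℝ) : Commute (pw F τ) x :=
  (((Commute.one_left x).add_left h).smul_left _).add_left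
    (((Commute.one_left x).sub_left h).smul_left _)

lemma pw_star {F : M} (h : star F = F) (τ : ℝ) : star (pw F τ) = pw F (-τ) := by
  simp [pw, h, ← exp_conj]

lemma pw_mul {F : M} (h : F * F = 1) (τ r : ℝ) : pw F τ * pw F r = pw F (τ + r) := by
  simp only [pw, ofReal_add, add_mul, exp_add, mul_add, smul_mul_assoc, mul_smul_comm, sub_mul,
    mul_sub, one_mul, mul_one, h]
  module

lemma pw_unitary {F : M} (h : star F = F) (h' : F * F = 1) (τ : ℝ) : pw F τ ∈ unitary M := by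
  constructor <;> simp [pw_star h, pw_mul h', pw_zero]

/-- conjugation -/
def ad (u x : M) : M := u * x * star u

lemma ad_mul (u v x : M) : ad (u * v) x = ad u (ad v x) := by simp [ad, mul_assoc]

lemma dist_ad {u : M} (hu : u ∈ unitary M) (x y : M) : dist (ad u x) (ad u y) = dist x y := by
  rw [dist_eq_norm, dist_eq_norm, ad, ad, ← sub_mul, ← mul_sub,
    CStarRing.norm_mul_mem_unitary _ (Unitary.star_mem hu), CStarRing.norm_mem_unitary_mul _ hu]

lemma ad_of_comm {u x : M} (hu : u ∈ unitary M) (h : Commute u x) : ad u x = x := by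
  rw [ad, h.eq, mul_assoc, hu.2, mul_one]

lemma ad_star_ad {u : M} (hu : u ∈ unitary M) (x : M) : ad (star u) (ad u x) = x := by
  rw [← ad_mul, hu.1]; simp [ad]

lemma map_ad (L : Q →⋆ₐ[ℂ] M) (u x : Q) : L (ad u x) = ad (L u) (L x) := by simp [ad, map_star]

lemma dist_map_le (L : Q →⋆ₐ[ℂ] M) (x y : Q) : dist (L x) (L y) ≤ dist x y := by
  rw [dist_eq_norm, dist_eq_norm, ← map_sub]; exact NonUnitalStarAlgHom.norm_apply_le L _

structure FH (L R : Q →⋆ₐ[ℂ] M) (F G H : M) (S₀ S₁ S₁' T₀ T₁ : StarSubalgebra ℂ M) : Prop where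
  sF : star F = F
  sG : star G = G
  sH : star H = H
  FF : F * F = 1
  GG : G * G = 1
  HH : H * H = 1
  FG : F * G = G * F
  FGL : ∀ x, F * G * L x = R x * (F * G)
  HR : ∀ x, Commute H (R x)
  a₁ : ∀ x, R x ∈ S₀
  a₂ : F ∈ S₀
  a₃ : ∀ x, G * L x * G ∈ S₀
  b₁ : ∀ x, R x ∈ S₁'
  b₂ : G ∈ S₁'
  b₃ : ∀ x, F * L x * F ∈ S₁'
  b₄ : ∀ y ∈ S₁', H * y * H ∈ S₁
  c₁ : ∀ x, L x ∈ T₀
  c₂ : F ∈ T₀
  c₃ : H ∈ T₀
  d₁ : ∀ x, L x ∈ T₁
  d₂ : G ∈ T₁
  d₃ : H ∈ T₁

theorem FH.exists_X {L R : Q →⋆ₐ[ℂ] M} {F G H : M} {S₀ S₁ S₁' T₀ T₁ : StarSubalgebra ℂ M}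
    (h : FH L R F G H S₀ S₁ S₁' T₀ T₁) (U : C(I, Q)) (hU : ∀ s, U s ∈ unitary Q) (h0 : U 0 = 1) :
    ∃ X : C(I × I, M), (∀ x, X x ∈ unitary M) ∧ (∀ s, X (0, s) ∈ S₀) ∧ (∀ s, X (1, s) ∈ S₁) ∧
      (∀ t, X (t, 0) ∈ T₀) ∧ (∀ t, X (t, 1) ∈ T₁) ∧ ∀ (g : I → Q) (ε : ℝ),
      Commute G (L (g 0)) → F * L (g 0) = R (g 0) * F → Commute F (L (g 1)) →
      (∀ s, dist (ad (U s) (g 0)) (g s) ≤ ε) →
      ∀ t s, dist (ad (X (t, s)) (ad (pw H t) (L (g t)))) (R (g s)) ≤ 4 * ε := by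
  have hL : Continuous L := map_continuous L
  have hR : Continuous R := map_continuous R
  have uL : ∀ s, L (U s) ∈ unitary M := fun s => Unitary.map_mem L (hU s)
  have uR : ∀ s, R (U s) ∈ unitary M := fun s => Unitary.map_mem R (hU s)
  have uF : F ∈ unitary M := by simp [Unitary.mem_iff, h.sF, h.FF]
  have uF' := pw_unitary h.sF h.FF
  have uG := pw_unitary h.sG h.GG
  have uH := pw_unitary h.sH h.HH
  let Y : I → I → M := fun t s => R (U s) * F * pw G (s + (1 - s) * max 0 (1 - 2 * (t : ℝ))) *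
    (star (L (U 1)) * pw F (s + (1 - s) * max 0 (2 * (t : ℝ) - 1)) * L (U 1)) *
    star (pw G (max 0 (1 - 2 * (t : ℝ)))) * star (L (U t))
  have uY : ∀ t s, Y t s ∈ unitary M := fun t s => mul_mem (mul_mem (mul_mem (mul_mem
    (mul_mem (uR _) uF) (uG _)) (mul_mem (mul_mem (Unitary.star_mem (uL _)) (uF' _)) (uL _)))
    (Unitary.star_mem (uG _))) (Unitary.star_mem (uL _))
  refine ⟨⟨fun x => pw H x.1 * Y x.1 x.2 * star (pw H x.1), by simp only [Y]; fun_prop⟩,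
    fun x => mul_mem (mul_mem (uH _) (uY _ _)) (Unitary.star_mem (uH _)), fun s => ?_, fun s => ?_,
    fun t => ?_, fun t => ?_, fun g ε h1 h2 h3 h4 t s => ?_⟩
  · have : Y 0 s = R (U s) * F * (G * L (star (U 1)) * G) * pw F s * (G * L (U 1) * G) := by
      have h5 : pw F s = G * (pw F s * G) := by
        rw [(pw_comm h.FG s).eq, ← mul_assoc, h.GG, one_mul]
      simp only [Y]
      norm_num [pw_one, h0, h.sG, map_star, mul_assoc]
      conv_lhs => rw [h5]
      simp only [mul_assoc]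
    simp only [ContinuousMap.coe_mk, this, Set.Icc.coe_zero, pw_zero, one_mul, star_one, mul_one]
    exact mul_mem (mul_mem (mul_mem (mul_mem (h.a₁ _) h.a₂) (h.a₃ _)) (pw_mem h.a₂ _)) (h.a₃ _)
  · have : Y 1 s = R (U s) * pw G s * (F * L (star (U 1)) * F) := by
      simp only [Y]
      norm_num [pw_one, pw_zero, map_star, mul_assoc, (uL 1).2]
      rw [← mul_assoc F, ← (pw_comm h.FG.symm s).eq, mul_assoc]
    simp only [ContinuousMap.coe_mk, this, Set.Icc.coe_one, pw_one, h.sH]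
    exact h.b₄ _ (mul_mem (mul_mem (h.b₁ _) (pw_mem h.b₂ _)) (h.b₃ _))
  · refine mul_mem (mul_mem (pw_mem h.c₃ _) ?_) (star_mem (pw_mem h.c₃ _))
    simp only [Y]
    rcases le_total (t : ℝ) (1 / 2) with ht | ht
    · rw [max_eq_left (show 2 * (t : ℝ) - 1 ≤ 0 by linarith)]
      norm_num [pw_zero, h0, (uL 1).1, mul_assoc F, (uG _).2]
      exact mul_mem h.c₂ (star_mem (h.c₁ _))
    · rw [max_eq_left (show 1 - 2 * (t : ℝ) ≤ 0 by linarith)]
      norm_num [pw_zero, h0]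
      exact mul_mem (mul_mem h.c₂ (mul_mem (mul_mem (star_mem (h.c₁ _)) (pw_mem h.c₂ _)) (h.c₁ _)))
        (star_mem (h.c₁ _))
  · refine mul_mem (mul_mem (pw_mem h.d₃ _) ?_) (star_mem (pw_mem h.d₃ _))
    refine mul_mem (mul_mem ?_ (star_mem (pw_mem h.d₂ _))) (star_mem (h.d₁ _))
    have : R (U 1) * F * G * (star (L (U 1)) * F * L (U 1)) = G * L (U 1) := by
      rw [← map_star, ← mul_assoc, ← mul_assoc, mul_assoc _ F G, mul_assoc _ _ (L (star _)), h.FGL,
        ← mul_assoc, map_star, (uR 1).2, one_mul, h.FG, mul_assoc G, h.FF, mul_one]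
    norm_num [pw_one, this]
    exact mul_mem h.d₂ (h.d₁ _)
  · have e1 : ∀ t, dist (ad (L (U t)) (L (g 0))) (L (g t)) ≤ ε := fun t => by
      rw [← map_ad]; exact (dist_map_le _ _ _).trans (h4 t)
    have e2 : ∀ t, dist (ad (star (L (U t))) (L (g t))) (L (g 0)) ≤ ε := fun t => by
      rw [← ad_star_ad (uL t) (L (g 0)), dist_ad (Unitary.star_mem (uL t)), dist_comm]; exact e1 t
    have e3 : dist (ad (R (U s)) (R (g 0))) (R (g s)) ≤ ε := by
      rw [← map_ad]; exact (dist_map_le _ _ _).trans (h4 s)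
    have step : ∀ {u x y z : M} {δ δ' : ℝ}, u ∈ unitary M → dist x y ≤ δ → dist (ad u y) z ≤ δ' →
        dist (ad u x) z ≤ δ + δ' := fun {u x y z δ δ'} hu h1 h2 =>
      (dist_triangle _ (ad u y) _).trans (add_le_add (by rwa [dist_ad hu]) h2)
    have step0 : ∀ {u x y z : M} {δ : ℝ}, u ∈ unitary M → dist x y ≤ δ → ad u y = z →
        dist (ad u x) z ≤ δ := fun hu h1 h2 => by rwa [← h2, dist_ad hu]
    simp only [ContinuousMap.coe_mk, Y, ad_mul, ad_star_ad (uH _)]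
    have := step0 (uH t) (step (uR s) (step0 uF (step0 (uG (s + (1 - s) * max 0 (1 - 2 * (t : ℝ))))
      (step (Unitary.star_mem (uL 1)) (step0 (uF' (s + (1 - s) * max 0 (2 * (t : ℝ) - 1))) (step (uL 1)
      (step0 (Unitary.star_mem (uG (max 0 (1 - 2 * (t : ℝ))))) (e2 t) (ad_of_comm (Unitary.star_mem (uG _))
        (by rw [pw_star h.sG]; exact pw_comm h1 _))) (e1 1))
      (ad_of_comm (uF' _) (pw_comm h3 _))) (e2 1)) (ad_of_comm (uG _) (pw_comm h1 _)))
      (z := R (g 0)) (by rw [ad, h2, h.sF, mul_assoc, h.FF, mul_one])) e3)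
      (ad_of_comm (uH _) (pw_comm (h.HR _) _))
    linarith

end Vale.Agent.P101
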