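import Vale.Agent.P101.Red

/-! Homomorphisms from continuous functions on the interval. -/

namespace Vale.Agent.P101

open scoped CStarAlgebra TensorProduct unitInterval
open Filter Topology

/-- real functions as complex functions on the interval -/
noncomputable def sc (f : ℝ → ℝ) (hf : Continuous f) : C(I, ℂ) :=
  ⟨fun t => (f t : ℂ), by fun_prop⟩

@[simp] lemma sc_apply (f : ℝ → ℝ) (hf : Continuous f) (t : I) : sc f hf t = (f t : ℂ) := rfl

lemma exists_eta {E : Type*} [CStarAlgebra E] {h : E} (hh : IsSelfAdjoint h)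
    (hs : spectrum ℝ h ⊆ Set.Icc 0 1) : ∃ η : C(I, ℂ) →⋆ₐ[ℂ] E, η (sc id continuous_id) = h ∧
      ∀ x, Commute h x → ∀ f, Commute (η f) x := by
  have hn : IsStarNormal h := hh.isStarNormal
  let p : C(spectrum ℂ h, I) := ⟨fun z => Set.projIcc 0 1 zero_le_one z.1.re,
    continuous_projIcc.comp (by fun_prop)⟩
  refine ⟨(cfcHom hn).comp (ContinuousMap.compStarAlgHom' ℂ ℂ p), ?_, fun x hx f =>
    Commute.cfcHom hn hx (by rwa [hh.star_eq]) _⟩
  refine Eq.trans ?_ (cfcHom_id (R := ℂ) hn)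
  rw [StarAlgHom.comp_apply]
  congr 1
  ext z
  have h1 := hh.mem_spectrum_eq_re z.2
  have h2 : z.1.re ∈ spectrum ℝ h := by
    rw [← spectrum.algebraMap_mem_iff ℂ]
    have := z.2
    rwa [h1] at this
  simp only [ContinuousMap.compStarAlgHom'_apply, ContinuousMap.comp_apply, sc_apply, p,
    ContinuousMap.coe_mk, Set.projIcc_of_mem _ (hs h2), id]
  exact h1.symm

section
variable {Z : Type*} [CStarAlgebra Z]

/-- scalar functions -/
noncomputable def emb (Z : Type*) [CStarAlgebra Z] : C(I, ℂ) →⋆ₐ[ℂ] C(I, Z) :=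
  ContinuousMap.compStarAlgHom I (StarAlgHom.ofId ℂ Z) (continuous_algebraMap ℂ Z)

lemma emb_apply (f : C(I, ℂ)) (t : I) : emb Z f t = f t • (1 : Z) :=
  Algebra.algebraMap_eq_smul_one (f t)

/-- constant functions -/
def cst (Z : Type*) [CStarAlgebra Z] : Z →⋆ₐ[ℂ] C(I, Z) where
  toFun := ContinuousMap.const I
  map_one' := rfl
  map_mul' _ _ := rfl
  map_zero' := rfl
  map_add' _ _ := rfl
  commutes' c := by ext; simp [Algebra.algebraMap_eq_smul_one]
  map_star' _ := rfl

@[simp] lemma cst_apply (z : Z) (t : I) : cst Z z t = z := rfl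

lemma emb_comm (f : C(I, ℂ)) (x : C(I, Z)) : emb Z f * x = x * emb Z f := by
  ext t; simp [emb_apply]

end

lemma norm_conv_le {G κ : Type*} [CStarAlgebra G] [Fintype κ] {s y : κ → G} {C : ℝ} (hC : 0 ≤ C)
    (hs : ∀ l, star (s l) = s l) (h1 : ∑ l, s l * s l = 1) (hy : ∀ l, ‖y l‖ ≤ C)
    (hss : ∀ l m, s l * s m = s m * s l) (hsy : ∀ l m, s l * y m = y m * s l) :
    ‖∑ l, s l * s l * y l‖ ≤ C := by
  let := CStarAlgebra.spectralOrder G
  let := CStarAlgebra.spectralOrderedRing G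
  set X := ∑ l, s l * s l * y l with hX
  have hsX : ∀ l, s l * X = X * s l := fun l => by
    simp only [hX, Finset.mul_sum, Finset.sum_mul]
    refine Finset.sum_congr rfl fun m _ => ?_
    rw [mul_assoc _ (y m), ← hsy, ← mul_assoc, ← mul_assoc, hss l m, mul_assoc (s m), hss l m]
    simp only [mul_assoc]
  have h2 : 0 ≤ ∑ l, star (s l * (y l - X)) * (s l * (y l - X)) :=
    Finset.sum_nonneg fun l _ => star_mul_self_nonneg _
  have hXs : star X = ∑ l, star (y l) * (s l * s l) := by simp [hX, hs]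
  have h3 : ∑ l, star (s l * (y l - X)) * (s l * (y l - X)) =
      ∑ l, star (y l * s l) * (y l * s l) - star X * X := by
    have : ∀ l, star (s l * (y l - X)) * (s l * (y l - X)) = star (y l * s l) * (y l * s l)
        - star (y l) * (s l * s l) * X - star X * (s l * s l * y l)
        + star X * (s l * s l) * X := fun l => by
      rw [← hsy]
      simp only [star_mul, star_sub, hs]
      noncomm_ring
    simp only [this, Finset.sum_add_distrib, Finset.sum_sub_distrib, ← Finset.mul_sum,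
      ← Finset.sum_mul, ← hXs, ← hX, h1, mul_one]
    abel
  have h4 : ∑ l, star (y l * s l) * (y l * s l) ≤ algebraMap ℝ G (C ^ 2) := by
    have : algebraMap ℝ G (C ^ 2) = ∑ l, star (s l) * algebraMap ℝ G (C ^ 2) * s l := by
      simp only [hs, ← Algebra.commutes, mul_assoc, ← Finset.mul_sum, h1, mul_one]
    rw [this]
    refine Finset.sum_le_sum fun l _ => ?_
    have h5 : star (y l) * y l ≤ algebraMap ℝ G (C ^ 2) :=
      (CStarAlgebra.norm_le_iff_le_algebraMap _ (sq_nonneg _) (star_mul_self_nonneg _)).1 (by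
        rw [CStarRing.norm_star_mul_self, sq]
        exact mul_self_le_mul_self (norm_nonneg _) (hy l))
    convert star_left_conjugate_le_conjugate h5 (s l) using 1
    simp only [star_mul, mul_assoc]
  rw [h3, sub_nonneg] at h2
  have h6 := (CStarAlgebra.norm_le_iff_le_algebraMap _ (sq_nonneg _)
    (star_mul_self_nonneg _)).2 (h2.trans h4)
  rw [CStarRing.norm_star_mul_self, sq] at h6
  exact (mul_self_le_mul_self_iff (norm_nonneg _) hC).2 h6

/-- the homomorphism on the algebraic tensor product given by two commuting homomorphisms -/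
noncomputable def tlift {A Z B : Type*} [CStarAlgebra A] [CStarAlgebra Z] [CStarAlgebra B]
    (f : A →⋆ₐ[ℂ] B) (g : Z →⋆ₐ[ℂ] B) (h : ∀ x y, Commute (f x) (g y)) : A ⊗[ℂ] Z →⋆ₐ[ℂ] B :=
  { Algebra.TensorProduct.lift f.toAlgHom g.toAlgHom h with
    map_star' := fun x => by
      change Algebra.TensorProduct.lift f.toAlgHom g.toAlgHom h (star x) =
        star (Algebra.TensorProduct.lift f.toAlgHom g.toAlgHom h x)
      induction x using TensorProduct.induction_on with
      | zero => simp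
      | tmul a b => simpa [map_star] using (h (star a) (star b)).eq
      | add x y hx hy => simp only [star_add, map_add, hx, hy] }

lemma tlift_tmul {A Z B : Type*} [CStarAlgebra A] [CStarAlgebra Z] [CStarAlgebra B]
    (f : A →⋆ₐ[ℂ] B) (g : Z →⋆ₐ[ℂ] B) (h : ∀ x y, Commute (f x) (g y)) (a : A) (z : Z) :
    tlift f g h (a ⊗ₜ[ℂ] z) = f a * g z := rfl

theorem exists_lift₂ {A Z C B : Type*} [CStarAlgebra A] [CStarAlgebra Z] [CStarAlgebra C]
    [CStarAlgebra B] (ι : A ⊗[ℂ] Z →⋆ₐ[ℂ] C) (hι : DenseRange ι) (f : A ⊗[ℂ] Z →⋆ₐ[ℂ] B)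
    (hf : ∀ x, ‖f x‖ ≤ ‖ι x‖) : ∃ g : C →⋆ₐ[ℂ] B, ∀ x, g (ι x) = f x := exists_lift ι hι f hf

theorem exists_kappa {Z G : Type*} [CStarAlgebra Z] [CStarAlgebra G] (η : C(I, ℂ) →⋆ₐ[ℂ] G)
    (τ : Z →⋆ₐ[ℂ] G) (hc : ∀ f z, Commute (η f) (τ z)) : ∃ κ : C(I, Z) →⋆ₐ[ℂ] G,
      (∀ f, κ (emb Z f) = η f) ∧ (∀ z, κ (cst Z z) = τ z) ∧
      ∀ x, (∀ f, Commute (η f) x) → (∀ z, Commute (τ z) x) → ∀ F, Commute (κ F) x := by
  obtain ⟨ι, hι⟩ : ∃ ι : C(I, ℂ) ⊗[ℂ] Z →⋆ₐ[ℂ] C(I, Z), ∀ f z,
      ι (f ⊗ₜ[ℂ] z) = emb Z f * cst Z z :=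
    ⟨tlift (emb Z) (cst Z) fun f z => emb_comm f _, fun _ _ => rfl⟩
  obtain ⟨lam, hlam⟩ : ∃ lam : C(I, ℂ) ⊗[ℂ] Z →⋆ₐ[ℂ] G, ∀ f z, lam (f ⊗ₜ[ℂ] z) = η f * τ z :=
    ⟨tlift η τ hc, fun _ _ => rfl⟩
  let bn : ℕ → ℕ → C(I, ℂ) := fun n l => ⟨fun t => (bernstein n l t : ℂ), by fun_prop⟩
  let sn : ℕ → ℕ → C(I, ℂ) := fun n l => ⟨fun t => (√(bernstein n l t) : ℝ), by fun_prop⟩
  have hsn : ∀ n l, sn n l * sn n l = bn n l := fun n l => by
    ext t
    simp only [sn, bn, ContinuousMap.mul_apply, ContinuousMap.coe_mk]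
    rw [← Complex.ofReal_mul, Real.mul_self_sqrt bernstein_nonneg]
  have hdense : DenseRange ι := by
    intro F
    refine mem_closure_of_tendsto (bernsteinApproximation_uniform F)
      (Eventually.of_forall fun n => ⟨∑ l : Fin (n + 1), bn n l ⊗ₜ[ℂ] F (bernstein.z l), ?_⟩)
    ext t
    simp [hι, bernsteinApproximation.apply, emb_apply, bn]
  have hle : ∀ x, ‖lam x‖ ≤ ‖ι x‖ := fun x => by
    obtain ⟨K, f, z, rfl⟩ := TensorProduct.exists_sum_tmul_eq x
    have h1 : Tendsto (fun n => ∑ k, η (bernsteinApproximation n (f k)) * τ (z k)) atTop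
        (𝓝 (∑ k, η (f k) * τ (z k))) :=
      tendsto_finsetSum _ fun k _ => (((map_continuous η).tendsto _).comp
        (bernsteinApproximation_uniform (f k))).mul_const _
    rw [map_sum lam]
    simp only [hlam]
    refine le_of_tendsto' h1.norm fun n => ?_
    have h2 : ∑ k, η (bernsteinApproximation n (f k)) * τ (z k) = ∑ l : Fin (n + 1),
        η (sn n l) * η (sn n l) * τ (ι (∑ k, f k ⊗ₜ[ℂ] z k) (bernstein.z l)) := by
      have h3 : ∀ k, bernsteinApproximation n (f k) =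
          ∑ l : Fin (n + 1), f k (bernstein.z l) • bn n l := fun k => by
        ext t
        simp [bernsteinApproximation.apply, bn, mul_comm]
      simp only [h3, ← map_mul η, hsn, map_sum, hι, Finset.sum_mul, Finset.mul_sum,
        ContinuousMap.sum_apply, ContinuousMap.mul_apply, emb_apply, cst_apply, map_smul,
        smul_mul_assoc, mul_smul_comm, one_mul]
      rw [Finset.sum_comm]
    rw [h2]
    refine norm_conv_le (norm_nonneg _) (fun l => ?_) ?_ (fun l => ?_) (fun l m => ?_)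
      fun l m => (hc _ _).eq
    · rw [← map_star]; congr 1; ext t; simp [sn]
    · simp only [← map_mul η, hsn, ← map_sum]
      rw [← map_one η]; congr 1; ext t
      simp only [bn, ContinuousMap.sum_apply, ContinuousMap.coe_mk, ContinuousMap.one_apply]
      rw [← Complex.ofReal_sum, bernstein.probability]; rfl
    · exact (NonUnitalStarAlgHom.norm_apply_le τ _).trans (ContinuousMap.norm_coe_le_norm _ _)
    · rw [← map_mul, mul_comm, map_mul]
  obtain ⟨κ, hκ⟩ := exists_lift₂ ι hdense lam hle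
  refine ⟨κ, fun f => ?_, fun z => ?_, fun x h1 h2 F => ?_⟩
  · simpa [hι, hlam] using hκ (f ⊗ₜ[ℂ] 1)
  · simpa [hι, hlam] using hκ (1 ⊗ₜ[ℂ] z)
  · have hκc : Continuous κ := map_continuous κ
    refine hdense.induction_on (p := fun F => Commute (κ F) x) F
      (isClosed_eq (hκc.mul continuous_const) (continuous_const.mul hκc)) fun y => ?_
    rw [hκ]
    induction y using TensorProduct.induction_on with
    | zero => simp
    | tmul a b => rw [hlam]; exact (h1 a).mul_left (h2 b)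
    | add y y' hy hy' => rw [map_add]; exact hy.add_left hy'

end Vale.Agent.P101
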