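import Vale.Agent.P101.Red

/-! From an order zero system with absorbed defect to the data of a dimension drop algebra. -/

namespace Vale.Agent.P101

section
variable {E : Type*} [Ring E] [StarRing E] {N α β γ δ : Type*} [Fintype N] [Fintype α] [Fintype β]
  [DecidableEq N] [DecidableEq α] [DecidableEq β]

structure GA (h : E) (a : α → α → E) (b : β → β → E) (m : N → N → E)
    (e0 : N ≃ α × γ) (e1 : N ≃ β × δ) : Prop where
  oa : OZ a
  ob : OZ b
  om : OZ m
  ca : ∀ i j, Commute h (a i j)
  cb : ∀ i j, Commute h (b i j)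
  cm : ∀ i j, Commute h (m i j)
  ta : tr a = 1 - h
  tb : tr b = h
  tm : tr m = h * (1 - h) ^ 2
  am : ∀ i j p q, a i j * m p q =
    if j = (e0 p).1 then (1 - h) * m (e0.symm (i, (e0 p).2)) q else 0
  bm : ∀ i j p q, b i j * m p q = if j = (e1 p).1 then h * m (e1.symm (i, (e1 p).2)) q else 0

lemma oz_of_col {y : N → E} {c : E} (hy : ∀ i j, star (y i) * y j = if i = j then c else 0) :
    OZ fun i j => y i * star (y j) := by
  have hy' : ∀ i j z, star (y i) * (y j * z) = if i = j then c * z else 0 := fun i j z => by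
    rw [← mul_assoc, hy]; split_ifs <;> simp
  refine ⟨fun i j => by simp, fun i j k l => ?_⟩
  simp only [tr, Finset.sum_mul, mul_assoc, hy']
  split_ifs <;> simp

/-- the twisting involution -/
def twist (o : β ≃ Option α) (x : α × β) : α × β :=
  (o x.2).elim x fun j => (j, o.symm (some x.1))

omit [Fintype α] [Fintype β] [DecidableEq α] [DecidableEq β] in
lemma twist_invol (o : β ≃ Option α) : Function.Involutive (twist o) := by
  rintro ⟨i, b⟩
  obtain ⟨b, rfl⟩ := o.symm.surjective b
  cases b <;> simp [twist]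

theorem exists_GA (o : β ≃ Option α) {i₀ : α} {φ : α → α → E} {ρ v : E} (hφ : OZ φ)
    (hρ : star ρ = ρ) (hc : ∀ i j, φ i j * ρ = ρ * φ i j) (hρρ : ρ * ρ = 1 - tr φ)
    (htop : φ i₀ i₀ * v = v) (hv : star v * v = ρ * ρ) (hρv : ρ * v = 0)
    (hvv : ∀ i j, v * (φ i j * v) = 0) :
    ∃ (y : β → E) (a : α → α → E) (m : α × β → α × β → E),
      (∀ i j, star (y i) * y j = if i = j then ρ * ρ else 0) ∧
      GA (∑ i, y i * star (y i)) a (fun i j => y i * star (y j)) m (Equiv.refl _)
        ((twist_invol o).toPerm.trans (Equiv.prodComm _ _)) := by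
  have he := hφ.tr_top htop
  let w : α → E := fun i => φ i i₀ * v
  have hφw : ∀ i j k, φ i j * w k = if j = k then w i else 0 := fun i j k => by
    simp only [w]
    rw [← mul_assoc, hφ.mul]
    split_ifs
    · rw [← hφ.comm, mul_assoc, he]
    · simp
  have hρw : ∀ i, ρ * w i = 0 := fun i => by simp only [w]; rw [← mul_assoc, ← hc, mul_assoc, hρv]; simp
  have hwρ : ∀ i, star (w i) * ρ = 0 := fun i => by rw [← hρ, ← star_mul, hρw, star_zero]
  have hww : ∀ i j, star (w i) * w j = if i = j then ρ * ρ else 0 := fun i j => by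
    conv_lhs => enter [1]; simp only [w, star_mul, hφ.star]
    rw [mul_assoc, hφw]
    split_ifs
    · simp only [w, htop, hv]
    · simp
  have hw2 : ∀ i j, w i * w j = 0 := fun i j => by simp only [w, mul_assoc, hvv, mul_zero]
  let y' : Option α → E := fun c => c.elim ρ w
  let y : β → E := fun i => y' (o i)
  have hy : ∀ i j, star (y i) * y j = if i = j then ρ * ρ else 0 := fun i j => by
    obtain ⟨i, rfl⟩ := o.symm.surjective i
    obtain ⟨j, rfl⟩ := o.symm.surjective j
    cases i <;> cases j <;> simp [y, y', hρ, hρw, hwρ, hww]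
  set P := ∑ i, w i * star (w i) with hP
  set h := ∑ i, y i * star (y i) with hh
  have hhP : h = ρ * ρ + P := by
    rw [hh, ← o.symm.sum_comp]
    simp [y, y', hρ, hP]
  have hPs : star P = P := by simp [hP]
  have hρP : ρ * P = 0 := by simp [hP, Finset.mul_sum, ← mul_assoc, hρw]
  have hPρ : P * ρ = 0 := by simp [hP, Finset.sum_mul, mul_assoc, hwρ]
  have hwP : ∀ i, w i * P = 0 := fun i => by simp [hP, Finset.mul_sum, ← mul_assoc, hw2]
  have hPw : ∀ i, P * w i = w i * (ρ * ρ) := fun i => by
    simp [hP, Finset.sum_mul, mul_assoc, hww]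
  have hφP : ∀ i j, φ i j * P = P * φ i j := fun i j => by
    have h1 : ∀ i j, φ i j * P = w i * star (w j) := fun i j => by
      simp [hP, Finset.mul_sum, ← mul_assoc, hφw]
    have := congrArg star (h1 j i)
    rw [star_mul, hPs, hφ.star, star_mul, star_star] at this
    rw [h1, this]
  have hyh : ∀ i, y i * h = y i * (ρ * ρ) := fun i => by
    obtain ⟨i, rfl⟩ := o.symm.surjective i
    cases i <;> simp [y, y', hhP, mul_add, hρP, hwP]
  have hhy : ∀ i, h * y i = y i * (ρ * ρ) := fun i => by
    simp [hh, Finset.sum_mul, mul_assoc, hy]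
  have hhs : star h = h := by simp [hh]
  have cy : ∀ i, Commute h (y i) := fun i => (hhy i).trans (hyh i).symm
  have cs : ∀ {x}, Commute h x → Commute h (star x) := fun hx => by
    simpa [hhs] using hx.star_star
  let a : α → α → E := fun i j => φ i j * (1 - P)
  have cP : ∀ i j, Commute (φ i j) (1 - P) := fun i j => (Commute.one_right _).sub_right (hφP i j)
  have hρa : ∀ i j, Commute ρ (a i j) := fun i j => Commute.mul_right (hc i j).symm
    ((Commute.one_right _).sub_right (hρP.trans hPρ.symm))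
  have hPa : ∀ i j, Commute P (a i j) := fun i j => Commute.mul_right (hφP i j).symm
    ((Commute.one_right _).sub_right (Commute.refl _))
  have ca : ∀ i j, Commute h (a i j) := fun i j =>
    hhP ▸ ((hρa i j).mul_left (hρa i j)).add_left (hPa i j)
  have hta' : tr a = tr φ * (1 - P) := by simp [a, tr, Finset.sum_mul]
  have hta : tr a = 1 - h := by
    rw [hta', ← sub_sub_cancel 1 (tr φ), ← hρρ, hhP, mul_sub, mul_one, sub_mul, mul_assoc, hρP]
    noncomm_ring
  have oa : OZ a := ⟨fun i j => by
    simp only [a, star_mul, star_sub, star_one, hPs, hφ.star, (cP _ _).eq], fun i j k l => by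
    simp only [a]
    rw [mul_assoc, ← mul_assoc (1 - P), ← (cP _ _).eq, ← mul_assoc, ← mul_assoc, hφ.mul, hta']
    split_ifs
    · simp only [mul_assoc]; rw [← mul_assoc (1 - P), ← (cP _ _).eq, mul_assoc]
    · simp⟩
  have haw : ∀ i j k, a i j * w k = if j = k then (1 - h) * w i else 0 := fun i j k => by
    have h1 : ∀ k, h * w k = w k * (ρ * ρ) := fun k => by
      simpa [y, y'] using hhy (o.symm (some k))
    simp only [a]
    rw [mul_assoc, sub_mul, one_mul, hPw, mul_sub, ← mul_assoc _ (w k), hφw, sub_mul, h1]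
    split_ifs <;> simp
  let z : α × β → E := fun x => y (twist o x).2 * a (twist o x).1 i₀
  have hz : ∀ x x', star (z x) * z x' = if x = x' then ρ * ρ * ((1 - h) * a i₀ i₀) else 0 := by
    intro x x'
    simp only [z]
    rw [star_mul, oa.star, mul_assoc, ← mul_assoc (star _), hy]
    by_cases h1 : x = x'
    · rw [if_pos h1, h1, if_pos rfl, ← mul_assoc, ← ((hρa _ _).mul_left (hρa _ _)).eq, mul_assoc _ (a _ _),
        oa.mul, if_pos rfl, hta]
    · rw [if_neg h1]
      split_ifs with h2
      · rw [← mul_assoc, ← ((hρa _ _).mul_left (hρa _ _)).eq, mul_assoc _ (a _ _), oa.mul,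
          if_neg fun h3 => h1 ((twist_invol o).injective (Prod.ext h3 h2)), mul_zero]
      · simp
  have cz : ∀ x, Commute h (z x) := fun x => (cy _).mul_right (ca _ _)
  have hz1 : ∀ k, z (k, o.symm none) = ρ * a k i₀ := fun k => by simp [z, twist, y, y']
  have hz2 : ∀ k l, z (k, o.symm (some l)) = w k * a l i₀ := fun k l => by simp [z, twist, y, y']
  have hz3 : ∀ k i, z (twist o (k, i)) = y i * a k i₀ := fun k i => by
    simp only [z, twist_invol o (k, i)]
  have hρh : Commute h ρ := by simpa [y, y'] using cy (o.symm none)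
  clear_value z a h y w
  refine ⟨y, a, fun x x' => z x * star (z x'), hy, hh ▸ ⟨oa, oz_of_col hy, oz_of_col hz, ca,
    fun i j => (cy _).mul_right (cs (cy _)), fun i j => (cz _).mul_right (cs (cz _)), hta, hh.symm,
    ?_, fun i j x x' => ?_, fun i j x x' => ?_⟩⟩
  · rw [tr, ← Equiv.sum_comp (twist_invol o).toPerm, Fintype.sum_prod_type_right]
    have h1 : ∀ i k, z (twist o (k, i)) * star (z (twist o (k, i))) =
        y i * ((1 - h) * a k k) * star (y i) := fun i k => by
      rw [hz3, star_mul, oa.star, mul_assoc, ← mul_assoc (a _ _), oa.mul, if_pos rfl, hta,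
        mul_assoc (y i)]
    have h2 : ∀ i, y i * ((1 - h) * (1 - h)) = (1 - h) * (1 - h) * y i := fun i =>
      (((Commute.one_left _).sub_left (cy i)).mul_left
        ((Commute.one_left _).sub_left (cy i))).eq.symm
    simp only [Function.Involutive.coe_toPerm, h1, ← Finset.sum_mul, ← Finset.mul_sum]
    rw [show ∑ k, a k k = 1 - h from hta]
    simp only [h2, mul_assoc, ← Finset.mul_sum]
    rw [← hh]
    noncomm_ring
  · obtain ⟨k, c⟩ := x
    obtain ⟨c, rfl⟩ := o.symm.surjective c
    simp only [Equiv.refl_apply, Equiv.refl_symm, ← mul_assoc]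
    cases c with
    | none =>
      rw [hz1, hz1, ← mul_assoc, ← (hρa _ _).eq, mul_assoc ρ, oa.mul, hta]
      split_ifs
      · rw [← mul_assoc, ← mul_assoc, ((Commute.one_left _).sub_left hρh).eq]
      · simp
    | some l =>
      rw [hz2, hz2, ← mul_assoc, haw]
      split_ifs <;> simp [mul_assoc]
  · obtain ⟨⟨k, c⟩, rfl⟩ := (twist_invol o).surjective x
    simp only [Equiv.trans_apply, Function.Involutive.coe_toPerm, Equiv.prodComm_apply,
      Prod.fst_swap, Prod.snd_swap, Equiv.symm_trans_apply, Equiv.prodComm_symm,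
      Function.Involutive.toPerm_symm, Prod.swap_prod_mk, ← mul_assoc, hz3, twist_invol o _]
    rw [mul_assoc (y i), hy, hhy]
    split_ifs <;> simp

end

open scoped CStarAlgebra

lemma spec_of_col {E N : Type*} [CStarAlgebra E] [Fintype N] [DecidableEq N] {y : N → E} {ρ : E}
    (hρ : star ρ = ρ) (hn : ‖ρ‖ ≤ 1) (hy : ∀ i j, star (y i) * y j = if i = j then ρ * ρ else 0) :
    spectrum ℝ (∑ i, y i * star (y i)) ⊆ Set.Icc 0 1 := by
  let := CStarAlgebra.spectralOrder E
  let := CStarAlgebra.spectralOrderedRing E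
  set h := ∑ i, y i * star (y i) with hh
  have hc1 : ρ * ρ ≤ 1 := by
    have := star_mul_self_nonneg ρ
    rw [hρ] at this
    exact (CStarAlgebra.norm_le_one_iff_of_nonneg _ this).1
      ((norm_mul_le _ _).trans (mul_le_one₀ hn (norm_nonneg _) hn))
  have he0 : 0 ≤ h := Finset.sum_nonneg fun i _ => mul_star_self_nonneg _
  have hs : star h = h := by simp [hh]
  have hee : h * h ≤ h := by
    conv_lhs => enter [2]; rw [hh]
    rw [Finset.mul_sum]
    refine Finset.sum_le_sum fun i _ => ?_
    have h1 : h * (y i * star (y i)) = y i * (ρ * ρ) * star (y i) := by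
      rw [← mul_assoc]; simp [hh, Finset.sum_mul, mul_assoc, hy]
    have h2 := star_right_conjugate_le_conjugate hc1 (y i)
    rw [mul_one] at h2
    exact h1 ▸ h2
  have hn : ‖h‖ ≤ 1 := by
    have h1 := CStarAlgebra.norm_le_norm_of_nonneg_of_le
      (by simpa [hs] using star_mul_self_nonneg h) hee
    have h2 : ‖h * h‖ = ‖h‖ * ‖h‖ := by
      simpa [hs] using CStarRing.norm_star_mul_self (x := h)
    by_contra h3
    rw [h2] at h1
    nlinarith
  exact fun t ht => ⟨spectrum_nonneg_of_nonneg he0 ht, (spectrum_subset_Icc _ ht).2.trans hn⟩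

theorem Data.GA {E α β : Type*} [CStarAlgebra E] [Fintype α] [Fintype β] [DecidableEq α]
    [DecidableEq β] (o : β ≃ Option α) {i₀ : α} {φ : α → α → E} {v : Fin 1 → E}
    (H : Data i₀ φ v) : ∃ (h : E) (a : α → α → E) (b : β → β → E) (m : α × β → α × β → E),
      IsSelfAdjoint h ∧ spectrum ℝ h ⊆ Set.Icc 0 1 ∧ GA h a b m (Equiv.refl _)
        ((twist_invol o).toPerm.trans (Equiv.prodComm _ _)) := by
  obtain ⟨ρ, v, hρ, hφρ, hρρ, hρn, htop, hsum, hρv⟩ := H.prep
  have ht : tr (fun i j => φ i j * tr φ) = tr φ * tr φ := by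
    rw [tr.eq_1 (fun i j => φ i j * tr φ), ← Finset.sum_mul]; rfl
  have hρt : tr φ * ρ = ρ * tr φ := by simp [tr, Finset.sum_mul, Finset.mul_sum, hφρ]
  have hφ : OZ fun i j => φ i j * tr φ := ⟨fun i j => by
    rw [star_mul, H.oz.star_tr, H.oz.star, H.oz.comm], fun i j k l => by
    rw [ht, mul_assoc, ← mul_assoc (tr φ), ← H.oz.comm, ← mul_assoc, ← mul_assoc, H.oz.mul]
    split_ifs
    · simp only [mul_assoc]; rw [← mul_assoc (φ i l) (tr φ), H.oz.comm, mul_assoc, H.oz.comm]
    · simp⟩
  have hc : ∀ i j, φ i j * tr φ * ρ = ρ * (φ i j * tr φ) := fun i j => by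
    rw [mul_assoc, hρt, ← mul_assoc, hφρ, mul_assoc]
  have hv : star (v 0) * v 0 = ρ * ρ := by simpa using hsum
  obtain ⟨y, a, m, hy, hG⟩ := exists_GA o (i₀ := i₀) (v := v 0) hφ hρ hc (by rw [ht, hρρ])
    (by rw [mul_assoc, H.oz.tr_top (htop 0), htop]) hv (hρv 0) fun i j => eq_zero_of_star_mul (by
      rw [star_mul, mul_assoc, ← mul_assoc (star (v 0)), hv, mul_assoc ρ, ← mul_assoc ρ _ (v 0),
        ← hc, mul_assoc _ ρ, hρv]
      simp)
  exact ⟨_, a, _, m, by simp [IsSelfAdjoint], spec_of_col hρ hρn hy, hG⟩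

end Vale.Agent.P101
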