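import Vale.Agent.P101.Glue
import Vale.Agent.P101.Kappa
import Vale.Agent.P101.RW

/-! The homomorphism from a dimension drop algebra with coefficients. -/

namespace Vale.Agent.P101

open scoped CStarAlgebra unitInterval

/-- evaluation -/
def evX {X : Type*} [TopologicalSpace X] [CompactSpace X] (Z : Type*) [CStarAlgebra Z] (t : X) :
    C(X, Z) →⋆ₐ[ℂ] Z where
  toFun f := f t
  map_one' := rfl
  map_mul' _ _ := rfl
  map_zero' := rfl
  map_add' _ _ := rfl
  commutes' c := by simp [Algebra.algebraMap_eq_smul_one]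
  map_star' _ := rfl

@[simp] lemma evX_apply {X : Type*} [TopologicalSpace X] [CompactSpace X] (Z : Type*)
    [CStarAlgebra Z] (t : X) (x : C(X, Z)) : evX Z t x = x t := rfl

noncomputable def lam : C(I, I) :=
  ⟨fun t => Set.projIcc 0 1 zero_le_one (3 * t - 1), continuous_projIcc.comp (by fun_prop)⟩

noncomputable def lr (t : ℝ) : ℝ := Set.projIcc (0 : ℝ) 1 zero_le_one (3 * t - 1)

@[fun_prop] lemma lr_cont : Continuous lr :=
  continuous_subtype_val.comp (continuous_projIcc.comp (by fun_prop))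

lemma lr_lo {t : ℝ} (h : t ≤ 1 / 3) : lr t = 0 := by
  rw [lr, Set.projIcc_of_le_left _ (by linarith)]
lemma lr_hi {t : ℝ} (h : 2 / 3 ≤ t) : lr t = 1 := by
  rw [lr, Set.projIcc_of_right_le _ (by linarith)]
lemma lam_lo {t : I} (h : (t : ℝ) ≤ 1 / 3) : lam t = 0 := Subtype.ext (lr_lo h)
lemma lam_hi {t : I} (h : 2 / 3 ≤ (t : ℝ)) : lam t = 1 := Subtype.ext (lr_hi h)

lemma sc_mul {f g h : ℝ → ℝ} {hf hg hh} (H : ∀ t, f t * g t = h t) :
    sc f hf * sc g hg = sc h hh := by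
  ext t; simp [← H]

lemma one_sub_sc : 1 - sc id continuous_id = sc (fun t => 1 - t) (by fun_prop) := by
  ext t; simp

lemma mu_sc : sc id continuous_id * (1 - sc id continuous_id) ^ 2 =
    sc (fun t => t * (1 - t) ^ 2) (by fun_prop) := by
  ext t; simp

lemma sep_pos (t : ℝ) : 0 < max 0 (1 - 3 * t) * max 0 (1 - 3 * t) +
    max 0 (3 * t - 2) * max 0 (3 * t - 2) + t * (1 - t) ^ 2 * (t * (1 - t) ^ 2) := by
  have h1 := mul_self_nonneg (max 0 (1 - 3 * t))
  have h2 := mul_self_nonneg (max 0 (3 * t - 2))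
  by_cases h : t * (1 - t) ^ 2 = 0
  · rcases mul_eq_zero.1 h with h | h
    · simp [h]
    · obtain rfl : t = 1 := by linarith [pow_eq_zero_iff (two_ne_zero) |>.1 h]
      norm_num
  · linarith [mul_self_pos.2 h]

section
variable (Z : Type*) [CStarAlgebra Z]

@[reducible] noncomputable def algK : Algebra C(I, ℂ) C(I, Z) :=
  (emb Z).toRingHom.toAlgebra' emb_comm

attribute [local instance 2000] algK

variable {Z}

lemma smulK (s : C(I, ℂ)) (x : C(I, Z)) (t : I) : (algebraMap C(I, ℂ) C(I, Z) s * x) t =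
    s t • x t := by
  change (emb Z s * x) t = _
  simp [emb_apply]

lemma starK (f : ℝ → ℝ) (hf) (x : C(I, Z)) : star (algebraMap C(I, ℂ) C(I, Z) (sc f hf) * x) =
    algebraMap C(I, ℂ) C(I, Z) (sc f hf) * star x := by
  ext t
  rw [ContinuousMap.star_apply, smulK, smulK]; simp

lemma killK (x : C(I, Z)) {t : I} (ht : (t : ℝ) ≤ 1 / 3 ∨ 2 / 3 ≤ (t : ℝ)) :
    (ContinuousMap.compStarAlgHom' ℂ Z lam x -
      algebraMap C(I, ℂ) C(I, Z) (sc (fun t => 1 - lr t) (by fun_prop)) * cst Z (evX Z 0 x) -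
      algebraMap C(I, ℂ) C(I, Z) (sc lr lr_cont) * cst Z (evX Z 1 x)) t = 0 := by
  rw [ContinuousMap.sub_apply, ContinuousMap.sub_apply, smulK, smulK]
  rcases ht with ht | ht
  · simp [lr_lo ht, lam_lo ht]
  · simp [lr_hi ht, lam_hi ht]

variable (Z) in
noncomputable def ivK : Iv C(I, ℂ) C(I, Z) Z where
  cst := cst Z
  ev0 := evX Z 0
  ev1 := evX Z 1
  rp := ContinuousMap.compStarAlgHom' ℂ Z lam
  t := sc id continuous_id
  k₀ := sc (fun t => (1 - lr t) / (1 - min t (2 / 3))) (Continuous.div (by fun_prop) (by fun_prop)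
    fun t => by linarith [min_le_right t (2 / 3)])
  k₁ := sc (fun t => lr t / max t (1 / 3)) (Continuous.div (by fun_prop) (by fun_prop)
    fun t => by linarith [le_max_right t (1 / 3)])
  k := sc (fun t => (max t (1 / 3) * (1 - min t (2 / 3)) ^ 2)⁻¹) (Continuous.inv₀ (by fun_prop)
    fun t => mul_ne_zero (by linarith [le_max_right t (1 / 3)])
      (pow_ne_zero _ (by linarith [min_le_right t (2 / 3)])))
  ψ₀ := sc (fun t => max 0 (1 - 3 * t)) (by fun_prop)
  ψ₁ := sc (fun t => max 0 (3 * t - 2)) (by fun_prop)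
  χ₀ := sc (fun t => 1 - lr t) (by fun_prop)
  χ₁ := sc lr lr_cont
  w := sc (fun t => (max 0 (1 - 3 * t) * max 0 (1 - 3 * t) +
    max 0 (3 * t - 2) * max 0 (3 * t - 2) + t * (1 - t) ^ 2 * (t * (1 - t) ^ 2))⁻¹)
    (Continuous.inv₀ (by fun_prop) fun t => (sep_pos t).ne')
  s₀ := starK _ _
  s₁ := starK _ _
  s₂ := starK _ _
  s₃ := starK _ _
  s₄ := starK _ _
  h₀ := by
    rw [one_sub_sc]
    refine sc_mul fun t => ?_
    rcases le_total t (2 / 3) with h | h
    · rw [min_eq_left h, mul_div_cancel₀ _ (by linarith)]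
    · simp [lr_hi h]
  h₁ := by
    refine sc_mul fun t => ?_
    rcases le_total t (1 / 3) with h | h
    · simp [lr_lo h]
    · rw [max_eq_left h, id, mul_div_cancel₀ _ (by linarith)]
  hk x := by
    ext t
    simp only [Algebra.smul_def]
    rw [smulK]
    by_cases ht : (t : ℝ) ≤ 1 / 3 ∨ 2 / 3 ≤ (t : ℝ)
    · rw [killK x ht, smul_zero]
    · push Not at ht
      rw [mu_sc, sc_mul (h := fun t => t * (1 - t) ^ 2 * (max t (1 / 3) * (1 - min t (2 / 3)) ^ 2)⁻¹)
        (hh := by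
          refine Continuous.mul (by fun_prop) (Continuous.inv₀ (by fun_prop)
            fun t => mul_ne_zero (by linarith [le_max_right t (1 / 3)])
              (pow_ne_zero _ (by linarith [min_le_right t (2 / 3)])))) fun _ => rfl, sc_apply,
        max_eq_left ht.1.le, min_eq_left ht.2.le, mul_inv_cancel₀ (mul_ne_zero (by linarith)
          (pow_ne_zero _ (by linarith))), Complex.ofReal_one, one_smul]
  g₀ x := by
    ext t
    simp only [Algebra.smul_def]
    rw [smulK]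
    rcases le_total (t : ℝ) (1 / 3) with h | h
    · rw [killK x (Or.inl h)]; simp
    · simp [max_eq_left (show 1 - 3 * (t : ℝ) ≤ 0 by linarith)]
  g₁ x := by
    ext t
    simp only [Algebra.smul_def]
    rw [smulK]
    rcases le_total (t : ℝ) (2 / 3) with h | h
    · simp [max_eq_left (show 3 * (t : ℝ) - 2 ≤ 0 by linarith)]
    · rw [killK x (Or.inr h)]; simp
  p₀ := by
    ext t
    rcases le_total (t : ℝ) (1 / 3) with h | h
    · simp [lr_lo h]
    · simp [max_eq_left (show 1 - 3 * (t : ℝ) ≤ 0 by linarith)]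
  p₁ := by
    ext t
    rcases le_total (t : ℝ) (2 / 3) with h | h
    · simp [max_eq_left (show 3 * (t : ℝ) - 2 ≤ 0 by linarith)]
    · simp [lr_hi h]
  q₀ := by
    refine sc_mul fun t => ?_
    rcases le_total (t : ℝ) (1 / 3) with h | h
    · simp [lr_lo h]
    · simp [max_eq_left (show 1 - 3 * (t : ℝ) ≤ 0 by linarith)]
  q₁ := by
    refine sc_mul fun t => ?_
    rcases le_total (t : ℝ) (2 / 3) with h | h
    · simp [max_eq_left (show 3 * (t : ℝ) - 2 ≤ 0 by linarith)]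
    · simp [lr_hi h]
  sep := by
    rw [mu_sc]
    ext t
    simp only [ContinuousMap.mul_apply, ContinuousMap.add_apply, sc_apply, ContinuousMap.one_apply]
    exact_mod_cast inv_mul_cancel₀ (sep_pos t).ne'
  c₀ _ := rfl
  c₁ _ := rfl
  c₂ _ := rfl

theorem exists_Gamma {E G : Type*} [CStarAlgebra E] [CStarAlgebra G] (j : E →⋆ₐ[ℂ] G)
    (τ : Z →⋆ₐ[ℂ] G) (hc : ∀ x z, Commute (j x) (τ z)) {N α β γ δ : Type*} [Fintype N]
    [Fintype α] [Fintype β] [Fintype γ] [Fintype δ] [DecidableEq N] [DecidableEq α]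
    [DecidableEq β] [DecidableEq γ] [DecidableEq δ] {h : E} {a : α → α → E} {b : β → β → E}
    {m : N → N → E} {e0 : N ≃ α × γ} {e1 : N ≃ β × δ} (hh : IsSelfAdjoint h)
    (hs : spectrum ℝ h ⊆ Set.Icc 0 1) (H : GA h a b m e0 e1) (c : γ) (d : δ) :
    ∃ Γ : DD (evX Z (0 : I)) (evX Z (1 : I)) e0 e1 →⋆ₐ[ℂ] G,
      (∀ T z, T.1 = (Matrix.diagonal fun _ => cst Z z) → Γ T = τ z) ∧
      ∀ T, (∀ p q, ∃ f, T.1 p q = emb Z f) → ∃ y, Γ T = j y := by
  obtain ⟨η, hη, hηc⟩ := exists_eta hh hs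
  obtain ⟨κ, h1, h2, h3⟩ := exists_kappa (j.comp η) τ fun f z => hc _ _
  have hcm : ∀ x, Commute h x → ∀ F, j x * κ F = κ F * j x := fun x hx F =>
    (h3 _ (fun f => (hηc x hx f).map j) (fun z => (hc x z).symm) F).eq.symm
  have hκ : ∀ s, κ (algebraMap C(I, ℂ) C(I, Z) s) = j (η s) := h1
  have ht : η (ivK Z).t = h := hη
  have HH : GH (ivK Z) κ (fun i k => j (a i k)) (fun i k => j (b i k)) (fun i k => j (m i k))
      e0 e1 :=
    { oa := H.oa.map j
      ob := H.ob.map j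
      om := H.om.map j
      ca := fun x i k => hcm _ (H.ca i k) x
      cb := fun x i k => hcm _ (H.cb i k) x
      cm := fun x i k => hcm _ (H.cm i k) x
      ta := by simp [tr, hκ, ht, ← map_sum, show ∑ i, a i i = _ from H.ta]
      tb := by simp [tr, hκ, ht, ← map_sum, show ∑ i, b i i = _ from H.tb]
      tm := by simp [tr, hκ, ht, ← map_sum, show ∑ i, m i i = _ from H.tm]
      am := fun i k p q => by
        rw [← map_mul, H.am, hκ]
        split_ifs <;> simp [ht]
      bm := fun i k p q => by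
        rw [← map_mul, H.bm, hκ]
        split_ifs <;> simp [ht] }
  obtain ⟨Γ, h4, h5⟩ := HH.exists_hom c d
  refine ⟨Γ, fun T z hT => (h4 T z hT).trans (h2 z), fun T hT => ?_⟩
  obtain ⟨y, hy⟩ := h5 j.toRingHom.range (emb Z).toRingHom.range (fun _ _ => ⟨_, rfl⟩)
    (fun _ _ => ⟨_, rfl⟩) (fun _ _ => ⟨_, rfl⟩) (by rintro _ ⟨f, rfl⟩; exact ⟨η f, (h1 f).symm⟩)
    (fun s => ⟨s, rfl⟩) (by
      rintro _ ⟨f, rfl⟩
      exact ⟨⟨f.comp lam, rfl⟩, ⟨.const _ (f 0), rfl⟩, ⟨.const _ (f 1), rfl⟩⟩) T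
    fun p q => (hT p q).imp fun _ h => h.symm
  exact ⟨y, hy.symm⟩

end

end Vale.Agent.P101
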