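import Vale.Agent.P101.Join

/-! Gluing three order zero systems over the interval (algebraic part). -/

namespace Vale.Agent.P101

section amp
variable {R N α γ : Type*} [DecidableEq γ]

/-- amplification `x ⊗ 1` along an identification of index sets -/
def amp [Zero R] (e : N ≃ α × γ) (x : Matrix α α R) : Matrix N N R :=
  Matrix.of fun p q => if (e p).2 = (e q).2 then x (e p).1 (e q).1 else 0

lemma amp_apply [Zero R] (e : N ≃ α × γ) (x : Matrix α α R) (p q : N) :
    amp e x p q = if (e p).2 = (e q).2 then x (e p).1 (e q).1 else 0 := rfl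

lemma amp_map [Zero R] {R' : Type*} [Zero R'] (e : N ≃ α × γ) (x : Matrix α α R) (f : R → R')
    (hf : f 0 = 0) : (amp e x).map f = amp e (x.map f) := by
  ext p q; simp only [Matrix.map_apply, amp_apply]; split_ifs <;> simp [hf]

lemma amp_symm [Zero R] (e : N ≃ α × γ) (x : Matrix α α R) (c : γ) (i j : α) :
    amp e x (e.symm (i, c)) (e.symm (j, c)) = x i j := by simp [amp_apply]

variable [Ring R]

lemma amp_add (e : N ≃ α × γ) (x y : Matrix α α R) : amp e (x + y) = amp e x + amp e y := by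
  ext p q; simp only [Matrix.add_apply, amp_apply]; split_ifs <;> simp

lemma amp_smul {S : Type*} [Monoid S] [DistribMulAction S R] (e : N ≃ α × γ) (s : S)
    (x : Matrix α α R) : amp e (s • x) = s • amp e x := by
  ext p q; simp only [Matrix.smul_apply, amp_apply]; split_ifs <;> simp

lemma amp_star [StarRing R] (e : N ≃ α × γ) (x : Matrix α α R) :
    amp e (star x) = star (amp e x) := by
  ext p q; simp only [Matrix.star_apply, amp_apply, eq_comm (a := (e q).2)]; split_ifs <;> simp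

lemma amp_scalar [DecidableEq N] [DecidableEq α] (e : N ≃ α × γ) (z : R) :
    amp e (Matrix.diagonal fun _ => z) = Matrix.diagonal fun _ => z := by
  ext p q
  simp only [amp_apply, Matrix.diagonal_apply]
  by_cases h : p = q
  · simp [h]
  · rw [if_neg h]
    split_ifs with h1 h2
    · exact absurd (e.injective (Prod.ext h2 h1)) h
    · rfl
    · rfl

lemma amp_mul_apply [Fintype N] [Fintype α] [Fintype γ] (e : N ≃ α × γ) (x : Matrix α α R)
    (T : Matrix N N R) (p q : N) :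
    (amp e x * T) p q = ∑ j, x (e p).1 j * T (e.symm (j, (e p).2)) q := by
  rw [Matrix.mul_apply, ← e.symm.sum_comp, Fintype.sum_prod_type]
  simp [amp_apply]

lemma amp_mul [Fintype N] [Fintype α] [Fintype γ] (e : N ≃ α × γ) (x y : Matrix α α R) :
    amp e (x * y) = amp e x * amp e y := by
  ext p q
  rw [amp_mul_apply]
  simp only [amp_apply, Equiv.apply_symm_apply, Matrix.mul_apply]
  split_ifs <;> simp

/-- amplification as a homomorphism -/
def ampHom [StarRing R] [Algebra ℂ R] [Fintype N] [Fintype α] [Fintype γ] [DecidableEq N]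
    [DecidableEq α] (e : N ≃ α × γ) : Matrix α α R →⋆ₐ[ℂ] Matrix N N R where
  toFun := amp e
  map_one' := amp_scalar e 1
  map_mul' := amp_mul e
  map_zero' := by ext p q; simp [amp_apply]
  map_add' := amp_add e
  commutes' c := amp_scalar e (algebraMap ℂ R c)
  map_star' := amp_star e

end amp

section ev
variable {S K G : Type*} [CommRing S] [Ring K] [StarRing K] [Algebra S K] [Algebra ℂ K]
  [Ring G] [StarRing G] [Algebra ℂ G] (κ : K →⋆ₐ[ℂ] G)
  {N α γ : Type*} [Fintype N] [Fintype α] [Fintype γ] [DecidableEq N] [DecidableEq α]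
  [DecidableEq γ]

def ev (m : N → N → G) (T : Matrix N N K) : G := ∑ i, ∑ j, κ (T i j) * m i j

variable {κ} {m : N → N → G}

omit [DecidableEq N] in
lemma ev_add (T T' : Matrix N N K) : ev κ m (T + T') = ev κ m T + ev κ m T' := by
  simp [ev, add_mul, Finset.sum_add_distrib]

omit [DecidableEq N] in
lemma ev_zero : ev κ m 0 = 0 := by simp [ev]

omit [DecidableEq N] in
lemma ev_smul (s : S) (T : Matrix N N K) :
    ev κ m (s • T) = κ (algebraMap S K s) * ev κ m T := by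
  simp [ev, Algebra.smul_def, Finset.mul_sum, mul_assoc]

lemma ev_scalar (z : K) : ev κ m (Matrix.diagonal fun _ => z) = κ z * tr m := by
  simp [ev, tr, Matrix.diagonal_apply, apply_ite κ, Finset.mul_sum]

lemma ev_star (hm : OZ m) (hc : ∀ x i j, m i j * κ x = κ x * m i j) (T : Matrix N N K) :
    star (ev κ m T) = ev κ m (star T) := by
  simp only [ev, star_sum, star_mul, hm.star, ← map_star, hc, Matrix.star_apply]
  rw [Finset.sum_comm]

omit [DecidableEq N] in
lemma ev_comm (hc : ∀ x i j, m i j * κ x = κ x * m i j) (s : S) (T : Matrix N N K) :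
    ev κ m T * κ (algebraMap S K s) = κ (algebraMap S K s) * ev κ m T := by
  simp only [ev, Finset.sum_mul, Finset.mul_sum, mul_assoc, hc]
  simp only [← mul_assoc, ← map_mul, Algebra.commutes]

omit [DecidableEq N] in
lemma ev_amp_mul {a : α → α → G} (hc : ∀ x i j, a i j * κ x = κ x * a i j) (e : N ≃ α × γ)
    {θ : S} (h : ∀ i j p q, a i j * m p q =
      if j = (e p).1 then κ (algebraMap S K θ) * m (e.symm (i, (e p).2)) q else 0)
    (x : Matrix α α K) (T : Matrix N N K) :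
    ev κ a x * ev κ m T = ev κ m (θ • (amp e x * T)) := by
  have h1 : ∀ i j p q, κ (x i j) * a i j * (κ (T p q) * m p q) = if j = (e p).1 then
      κ (θ • (x i j * T p q)) * m (e.symm (i, (e p).2)) q else 0 := fun i j p q => by
    rw [mul_assoc, ← mul_assoc (a i j), hc, mul_assoc, h]
    split_ifs
    · rw [Algebra.smul_def, Algebra.commutes]
      simp only [← mul_assoc, ← map_mul]
    · simp
  simp only [ev, Finset.sum_mul, Finset.mul_sum, h1, Matrix.smul_apply, amp_mul_apply,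
    Finset.smul_sum, map_sum]
  rw [← e.symm.sum_comp, ← e.symm.sum_comp, Fintype.sum_prod_type, Fintype.sum_prod_type]
  simp only [Equiv.apply_symm_apply, Finset.sum_ite_eq', Finset.mem_univ, if_true]
  rw [Finset.sum_comm]
  conv_rhs => rw [Finset.sum_comm]
  refine Finset.sum_congr rfl fun c _ => ?_
  rw [Finset.sum_comm]
  conv_rhs => rw [Finset.sum_comm]
  refine Finset.sum_congr rfl fun q _ => ?_
  rw [Finset.sum_comm]

lemma ev_mul (hm : OZ m) (hc : ∀ x i j, m i j * κ x = κ x * m i j) {θ : S}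
    (hθ : tr m = κ (algebraMap S K θ)) (T T' : Matrix N N K) :
    ev κ m T * ev κ m T' = ev κ m (θ • (T * T')) := by
  have := ev_amp_mul (m := m) hc (Equiv.prodUnique N Unit).symm (θ := θ)
    (fun i j p q => by rw [hm.mul, hθ]; by_cases h : j = p <;> simp [h]) T T'
  have h2 : amp (Equiv.prodUnique N Unit).symm T = T := by
    ext p q
    simp [amp_apply]
  rw [this, h2]

end ev

section glue
variable {S K Z G : Type*} [CommRing S] [Ring K] [StarRing K] [Algebra S K] [Algebra ℂ K]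
  [StarModule ℂ K] [Ring Z] [StarRing Z] [Algebra ℂ Z] [Ring G] [StarRing G] [Algebra ℂ G]
  {N α β γ δ : Type*} [Fintype N] [Fintype α] [Fintype β] [Fintype γ] [Fintype δ] [DecidableEq N]
  [DecidableEq α] [DecidableEq β] [DecidableEq γ] [DecidableEq δ]

/-- the scalar data of the interval -/
structure Iv (S K Z : Type*) [CommRing S] [Ring K] [StarRing K] [Algebra S K] [Algebra ℂ K]
    [Ring Z] [StarRing Z] [Algebra ℂ Z] where
  cst : Z →⋆ₐ[ℂ] K
  ev0 : K →⋆ₐ[ℂ] Z
  ev1 : K →⋆ₐ[ℂ] Z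
  rp : K →⋆ₐ[ℂ] K
  t : S
  k₀ : S
  k₁ : S
  k : S
  ψ₀ : S
  ψ₁ : S
  χ₀ : S
  χ₁ : S
  w : S
  s₀ : ∀ x : K, star (k₀ • x) = k₀ • star x
  s₁ : ∀ x : K, star (k₁ • x) = k₁ • star x
  s₂ : ∀ x : K, star (k • x) = k • star x
  s₃ : ∀ x : K, star (χ₀ • x) = χ₀ • star x
  s₄ : ∀ x : K, star (χ₁ • x) = χ₁ • star x
  h₀ : (1 - t) * k₀ = χ₀
  h₁ : t * k₁ = χ₁
  hk : ∀ x, (t * (1 - t) ^ 2 * k) • (rp x - χ₀ • cst (ev0 x) - χ₁ • cst (ev1 x)) =
    rp x - χ₀ • cst (ev0 x) - χ₁ • cst (ev1 x)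
  g₀ : ∀ x, ψ₀ • (rp x - χ₀ • cst (ev0 x) - χ₁ • cst (ev1 x)) = 0
  g₁ : ∀ x, ψ₁ • (rp x - χ₀ • cst (ev0 x) - χ₁ • cst (ev1 x)) = 0
  p₀ : ψ₀ * k₁ = 0
  p₁ : ψ₁ * k₀ = 0
  q₀ : ψ₀ * χ₀ = ψ₀
  q₁ : ψ₁ * χ₁ = ψ₁
  sep : w * (ψ₀ * ψ₀ + ψ₁ * ψ₁ + (t * (1 - t) ^ 2) * (t * (1 - t) ^ 2)) = 1
  c₀ : ∀ z, ev0 (cst z) = z
  c₁ : ∀ z, ev1 (cst z) = z
  c₂ : ∀ z, rp (cst z) = cst z

structure GH (V : Iv S K Z) (κ : K →⋆ₐ[ℂ] G) (a : α → α → G) (b : β → β → G) (m : N → N → G)
    (e0 : N ≃ α × γ) (e1 : N ≃ β × δ) : Prop where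
  oa : OZ a
  ob : OZ b
  om : OZ m
  ca : ∀ x i j, a i j * κ x = κ x * a i j
  cb : ∀ x i j, b i j * κ x = κ x * b i j
  cm : ∀ x i j, m i j * κ x = κ x * m i j
  ta : tr a = κ (algebraMap S K (1 - V.t))
  tb : tr b = κ (algebraMap S K V.t)
  tm : tr m = κ (algebraMap S K (V.t * (1 - V.t) ^ 2))
  am : ∀ i j p q, a i j * m p q =
    if j = (e0 p).1 then κ (algebraMap S K (1 - V.t)) * m (e0.symm (i, (e0 p).2)) q else 0
  bm : ∀ i j p q, b i j * m p q =
    if j = (e1 p).1 then κ (algebraMap S K V.t) * m (e1.symm (i, (e1 p).2)) q else 0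

/-- matrices over functions with boundary conditions -/
def DD (ev0 ev1 : K →⋆ₐ[ℂ] Z) (e0 : N ≃ α × γ) (e1 : N ≃ β × δ) :
    StarSubalgebra ℂ (Matrix N N K) where
  carrier := {T | (∃ x, T.map ev0 = amp e0 x) ∧ ∃ y, T.map ev1 = amp e1 y}
  mul_mem' := by
    rintro T T' ⟨⟨x, hx⟩, y, hy⟩ ⟨⟨x', hx'⟩, y', hy'⟩
    exact ⟨⟨x * x', by rw [Matrix.map_mul, hx, hx', amp_mul]⟩,
      y * y', by rw [Matrix.map_mul, hy, hy', amp_mul]⟩
  add_mem' := by
    rintro T T' ⟨⟨x, hx⟩, y, hy⟩ ⟨⟨x', hx'⟩, y', hy'⟩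
    exact ⟨⟨x + x', by rw [Matrix.map_add _ (map_add ev0), hx, hx', amp_add]⟩,
      y + y', by rw [Matrix.map_add _ (map_add ev1), hy, hy', amp_add]⟩
  algebraMap_mem' c := by
    have h : ∀ f : K →⋆ₐ[ℂ] Z, (algebraMap ℂ (Matrix N N K) c).map f =
        Matrix.diagonal fun _ => algebraMap ℂ Z c := fun f => by
      rw [Matrix.algebraMap_eq_diagonal, Matrix.diagonal_map (map_zero f)]
      congr 1; ext; exact AlgHomClass.commutes f c
    exact ⟨⟨_, by rw [h, amp_scalar]⟩, _, by rw [h, amp_scalar]⟩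
  star_mem' := by
    rintro T ⟨⟨x, hx⟩, y, hy⟩
    have h : ∀ f : K →⋆ₐ[ℂ] Z, (star T).map f = star (T.map f) := fun f => by
      ext; simp [map_star]
    exact ⟨⟨star x, by rw [h, hx, amp_star]⟩, star y, by rw [h, hy, amp_star]⟩

def corner (f : K → K) (e : N ≃ α × γ) (c : γ) (T : Matrix N N K) : Matrix α α K :=
  Matrix.of fun i j => f (T (e.symm (i, c)) (e.symm (j, c)))

def Iv.g (V : Iv S K Z) (x : K) : K :=
  V.rp x - V.χ₀ • V.cst (V.ev0 x) - V.χ₁ • V.cst (V.ev1 x)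

def glue (V : Iv S K Z) (κ : K →⋆ₐ[ℂ] G) (a : α → α → G) (b : β → β → G) (m : N → N → G)
    (e0 : N ≃ α × γ) (e1 : N ≃ β × δ) (c : γ) (d : δ) (T : Matrix N N K) : G :=
  ev κ a (V.k₀ • corner (fun x => V.cst (V.ev0 x)) e0 c T) +
  ev κ b (V.k₁ • corner (fun x => V.cst (V.ev1 x)) e1 d T) + ev κ m (V.k • T.map V.g)

omit [StarModule ℂ K] [Fintype N] [Fintype α] [Fintype γ] [DecidableEq N] [DecidableEq α] in
lemma corner_eq {f : K →⋆ₐ[ℂ] Z} (cst : Z →⋆ₐ[ℂ] K) {e : N ≃ α × γ} (c : γ) {T : Matrix N N K}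
    {x : Matrix α α Z} (h : T.map f = amp e x) :
    corner (fun x => cst (f x)) e c T = x.map cst := by
  ext i j
  have := congrFun (congrFun h (e.symm (i, c))) (e.symm (j, c))
  rw [amp_symm, Matrix.map_apply] at this
  simp [corner, this]

namespace GH
variable {V : Iv S K Z} {κ : K →⋆ₐ[ℂ] G} {a : α → α → G} {b : β → β → G} {m : N → N → G}
  {e0 : N ≃ α × γ} {e1 : N ≃ β × δ} (h : GH V κ a b m e0 e1) (c : γ) (d : δ)
include h

omit [StarModule ℂ K] in
lemma P1 {T : Matrix N N K} {x : Matrix α α Z} {y : Matrix β β Z} (hx : T.map V.ev0 = amp e0 x)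
    (hy : T.map V.ev1 = amp e1 y) (U : Matrix N N K) :
    glue V κ a b m e0 e1 c d T * ev κ m U = ev κ m (T.map V.rp * U) := by
  rw [glue, add_mul, add_mul, ev_amp_mul h.ca e0 h.am, ev_amp_mul h.cb e1 h.bm,
    ev_mul h.om h.cm h.tm, corner_eq _ _ hx, corner_eq _ _ hy, ← ev_add, ← ev_add, amp_smul,
    amp_smul, ← amp_map _ _ _ (map_zero _), ← amp_map _ _ _ (map_zero _), ← hx, ← hy]
  congr 1
  simp only [← smul_mul_assoc, smul_smul, V.h₀, V.h₁, ← add_mul]
  congr 1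
  ext p q
  simp only [Matrix.add_apply, Matrix.smul_apply, Matrix.map_apply, Iv.g, V.hk]
  abel

omit h [StarModule ℂ K] [Fintype γ] [Fintype δ] [DecidableEq N] [DecidableEq α] [DecidableEq β]
  [DecidableEq γ] [DecidableEq δ] in
lemma P2 (T : Matrix N N K) : κ (algebraMap S K V.ψ₀) * glue V κ a b m e0 e1 c d T =
    ev κ a ((V.ψ₀ * V.k₀) • corner (fun x => V.cst (V.ev0 x)) e0 c T) := by
  have : (V.ψ₀ * V.k) • T.map V.g = 0 := by
    ext p q; simp only [Matrix.smul_apply, Matrix.map_apply, Iv.g, mul_comm V.ψ₀, mul_smul, V.g₀,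
      smul_zero, Matrix.zero_apply]
  simp only [glue, mul_add, ← ev_smul, smul_smul, V.p₀, zero_smul, ev_zero, this, add_zero]

omit h [StarModule ℂ K] [Fintype γ] [Fintype δ] [DecidableEq N] [DecidableEq α] [DecidableEq β]
  [DecidableEq γ] [DecidableEq δ] in
lemma P3 (T : Matrix N N K) : κ (algebraMap S K V.ψ₁) * glue V κ a b m e0 e1 c d T =
    ev κ b ((V.ψ₁ * V.k₁) • corner (fun x => V.cst (V.ev1 x)) e1 d T) := by
  have : (V.ψ₁ * V.k) • T.map V.g = 0 := by
    ext p q; simp only [Matrix.smul_apply, Matrix.map_apply, Iv.g, mul_comm V.ψ₁, mul_smul, V.g₁,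
      smul_zero, Matrix.zero_apply]
  simp only [glue, mul_add, ← ev_smul, smul_smul, V.p₁, zero_smul, ev_zero, this, add_zero,
    zero_add]

omit [StarModule ℂ K] [Fintype γ] [Fintype δ] [DecidableEq γ] [DecidableEq δ] in
lemma comm (s : S) (T : Matrix N N K) : glue V κ a b m e0 e1 c d T * κ (algebraMap S K s) =
    κ (algebraMap S K s) * glue V κ a b m e0 e1 c d T := by
  simp only [glue, add_mul, mul_add, ev_comm h.ca, ev_comm h.cb, ev_comm h.cm]

omit h [StarModule ℂ K] in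
lemma sep {D D' : G} (h₀ : κ (algebraMap S K (V.ψ₀ * V.ψ₀)) * D =
      κ (algebraMap S K (V.ψ₀ * V.ψ₀)) * D')
    (h₁ : κ (algebraMap S K (V.ψ₁ * V.ψ₁)) * D = κ (algebraMap S K (V.ψ₁ * V.ψ₁)) * D')
    (h₂ : κ (algebraMap S K (V.t * (1 - V.t) ^ 2)) * D =
      κ (algebraMap S K (V.t * (1 - V.t) ^ 2)) * D') : D = D' := by
  have h3 := congrArg (fun s => κ (algebraMap S K s)) V.sep
  simp only [map_one] at h3
  rw [← one_mul D, ← one_mul D', ← h3, map_mul, map_mul, map_add, map_add, map_add, map_add,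
    map_mul _ (V.t * _), map_mul κ (algebraMap S K (V.t * _))]
  simp only [mul_assoc, add_mul, h₀, h₁, h₂]

omit [StarModule ℂ K] in
lemma scalar (z : Z) :
    glue V κ a b m e0 e1 c d (Matrix.diagonal fun _ => V.cst z) = κ (V.cst z) := by
  have hx : (Matrix.diagonal fun _ => V.cst z).map V.ev0 = amp e0 (Matrix.diagonal fun _ => z) := by
    rw [amp_scalar, Matrix.diagonal_map (map_zero _)]; simp [V.c₀]
  have hy : (Matrix.diagonal fun _ => V.cst z).map V.ev1 = amp e1 (Matrix.diagonal fun _ => z) := by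
    rw [amp_scalar, Matrix.diagonal_map (map_zero _)]; simp [V.c₁]
  have hcz : ∀ s : S, κ (V.cst z) * κ (algebraMap S K s) = κ (algebraMap S K s) * κ (V.cst z) :=
    fun s => by rw [← map_mul, ← map_mul, Algebra.commutes]
  refine sep (V := V) (κ := κ) ?_ ?_ ?_
  · rw [map_mul, map_mul, mul_assoc, P2, corner_eq _ _ hx, Matrix.diagonal_map (map_zero _),
      ev_smul, ev_scalar, h.ta, hcz]
    simp only [← mul_assoc, ← map_mul]
    congr 3
    linear_combination V.ψ₀ * V.ψ₀ * V.h₀ + V.ψ₀ * V.q₀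
  · rw [map_mul, map_mul, mul_assoc, P3, corner_eq _ _ hy, Matrix.diagonal_map (map_zero _),
      ev_smul, ev_scalar, h.tb, hcz]
    simp only [← mul_assoc, ← map_mul]
    congr 3
    linear_combination V.ψ₁ * V.ψ₁ * V.h₁ + V.ψ₁ * V.q₁
  · have := h.P1 c d hx hy (Matrix.diagonal fun _ => 1)
    rw [ev_scalar, map_one, one_mul, Matrix.diagonal_map (map_zero _), Matrix.diagonal_one,
      mul_one, ev_scalar, h.tm, h.comm, V.c₂, hcz] at this
    exact this

omit [StarModule ℂ K] in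
lemma mul {T T' : Matrix N N K} {x x' : Matrix α α Z} {y y' : Matrix β β Z}
    (hx : T.map V.ev0 = amp e0 x) (hy : T.map V.ev1 = amp e1 y) (hx' : T'.map V.ev0 = amp e0 x')
    (hy' : T'.map V.ev1 = amp e1 y') : glue V κ a b m e0 e1 c d (T * T') =
      glue V κ a b m e0 e1 c d T * glue V κ a b m e0 e1 c d T' := by
  have hx'' : (T * T').map V.ev0 = amp e0 (x * x') := by rw [Matrix.map_mul, hx, hx', amp_mul]
  have hy'' : (T * T').map V.ev1 = amp e1 (y * y') := by rw [Matrix.map_mul, hy, hy', amp_mul]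
  have hh : ∀ s : S, κ (algebraMap S K (s * s)) * (glue V κ a b m e0 e1 c d T *
      glue V κ a b m e0 e1 c d T') = (κ (algebraMap S K s) * glue V κ a b m e0 e1 c d T) *
      (κ (algebraMap S K s) * glue V κ a b m e0 e1 c d T') := fun s => by
    rw [map_mul, map_mul, mul_assoc, mul_assoc, ← mul_assoc (glue V κ a b m e0 e1 c d T),
      h.comm, mul_assoc]
  refine sep (V := V) (κ := κ) ?_ ?_ ?_
  · rw [hh, map_mul, map_mul, mul_assoc, P2, P2, P2, ev_mul h.oa h.ca h.ta, ← ev_smul,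
      corner_eq _ _ hx, corner_eq _ _ hx', corner_eq _ _ hx'', Matrix.map_mul]
    simp only [smul_mul_assoc, mul_smul_comm, smul_smul]
    congr 2
    linear_combination -V.ψ₀ * V.ψ₀ * V.k₀ * V.h₀ - V.ψ₀ * V.k₀ * V.q₀
  · rw [hh, map_mul, map_mul, mul_assoc, P3, P3, P3, ev_mul h.ob h.cb h.tb, ← ev_smul,
      corner_eq _ _ hy, corner_eq _ _ hy', corner_eq _ _ hy'', Matrix.map_mul]
    simp only [smul_mul_assoc, mul_smul_comm, smul_smul]
    congr 2
    linear_combination -V.ψ₁ * V.ψ₁ * V.k₁ * V.h₁ - V.ψ₁ * V.k₁ * V.q₁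
  · have h1 := h.P1 c d hx'' hy'' (Matrix.diagonal fun _ => 1)
    have h2 := h.P1 c d hx' hy' (Matrix.diagonal fun _ => 1)
    rw [ev_scalar, map_one, one_mul, Matrix.diagonal_one, mul_one, h.tm] at h1 h2
    rw [← h.comm, h1, ← mul_assoc, ← h.comm, mul_assoc, ← h.comm, h2, h.P1 c d hx hy,
      Matrix.map_mul]

include c d in
theorem exists_hom : ∃ Γ : DD V.ev0 V.ev1 e0 e1 →⋆ₐ[ℂ] G,
    (∀ T : DD V.ev0 V.ev1 e0 e1, ∀ z, T.1 = (Matrix.diagonal fun _ => V.cst z) →
      Γ T = κ (V.cst z)) ∧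
    ∀ (Ω : Subring G) (K₀ : Subring K), (∀ i j, a i j ∈ Ω) → (∀ i j, b i j ∈ Ω) →
      (∀ i j, m i j ∈ Ω) → (∀ x ∈ K₀, κ x ∈ Ω) → (∀ s, algebraMap S K s ∈ K₀) →
      (∀ x ∈ K₀, V.rp x ∈ K₀ ∧ V.cst (V.ev0 x) ∈ K₀ ∧ V.cst (V.ev1 x) ∈ K₀) →
      ∀ T : DD V.ev0 V.ev1 e0 e1, (∀ p q, T.1 p q ∈ K₀) → Γ T ∈ Ω := by
  have hadd : ∀ T T' : Matrix N N K, glue V κ a b m e0 e1 c d (T + T') =
      glue V κ a b m e0 e1 c d T + glue V κ a b m e0 e1 c d T' := fun T T' => by
    have h1 : corner (fun x => V.cst (V.ev0 x)) e0 c (T + T') =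
        corner (fun x => V.cst (V.ev0 x)) e0 c T + corner (fun x => V.cst (V.ev0 x)) e0 c T' := by
      ext; simp [corner]
    have h2 : corner (fun x => V.cst (V.ev1 x)) e1 d (T + T') =
        corner (fun x => V.cst (V.ev1 x)) e1 d T + corner (fun x => V.cst (V.ev1 x)) e1 d T' := by
      ext; simp [corner]
    have h3 : (T + T').map V.g = T.map V.g + T'.map V.g := by
      ext; simp only [Matrix.map_apply, Matrix.add_apply, Iv.g, map_add, smul_add]; abel
    simp only [glue, h1, h2, h3, smul_add, ev_add]; abel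
  refine ⟨{ toFun := fun T => glue V κ a b m e0 e1 c d T.1
            map_one' := by simpa using h.scalar c d 1
            map_mul' := fun T T' => ?_
            map_zero' := by simpa using h.scalar c d 0
            map_add' := fun T T' => hadd _ _
            commutes' := fun r => ?_
            map_star' := fun T => ?_ }, fun T z hT => ?_, ?_⟩
  · obtain ⟨⟨x, hx⟩, y, hy⟩ := T.2
    obtain ⟨⟨x', hx'⟩, y', hy'⟩ := T'.2
    exact h.mul c d hx hy hx' hy'
  · have := h.scalar c d (algebraMap ℂ Z r)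
    rw [AlgHomClass.commutes, AlgHomClass.commutes] at this
    exact this
  · change glue V κ a b m e0 e1 c d (star T.1) = star (glue V κ a b m e0 e1 c d T.1)
    simp only [glue, star_add, ev_star h.oa h.ca, ev_star h.ob h.cb, ev_star h.om h.cm]
    congr 3
    · congr 1; ext; simp [corner, V.s₀, map_star]
    · ext; simp [corner, V.s₁, map_star]
    · ext; simp [Iv.g, V.s₂, V.s₃, V.s₄, map_star]
  · change glue V κ a b m e0 e1 c d T.1 = _
    rw [hT, h.scalar]
  · intro Ω K₀ ha hb hm hκ hS hV T hT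
    have hsm : ∀ (s : S), ∀ x ∈ K₀, s • x ∈ K₀ := fun s x hx => by
      rw [Algebra.smul_def]; exact K₀.mul_mem (hS s) hx
    change glue V κ a b m e0 e1 c d T.1 ∈ Ω
    refine Ω.add_mem (Ω.add_mem ?_ ?_) ?_
    · exact sum_mem fun i _ => sum_mem fun j _ => Ω.mul_mem
        (hκ _ (hsm _ _ (hV _ (hT _ _)).2.1)) (ha i j)
    · exact sum_mem fun i _ => sum_mem fun j _ => Ω.mul_mem
        (hκ _ (hsm _ _ (hV _ (hT _ _)).2.2)) (hb i j)
    · exact sum_mem fun i _ => sum_mem fun j _ => Ω.mul_mem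
        (hκ _ (hsm _ _ (K₀.sub_mem (K₀.sub_mem (hV _ (hT _ _)).1 (hsm _ _ (hV _ (hT _ _)).2.1))
          (hsm _ _ (hV _ (hT _ _)).2.2)))) (hm i j)

end GH

end glue

end Vale.Agent.P101
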