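import Vale.Agent.P101.Ultra

/-! Full sets, characters, reduction to one non-central self-adjoint element. -/

namespace Vale.Agent.P101

open scoped TensorProduct

universe u

/-- the set generates the unit ideal -/
def Full {R : Type*} [Ring R] (s : Set R) : Prop := ∀ I : TwoSidedIdeal R, s ⊆ I → (1 : R) ∈ I

section ring
variable {R : Type*} [Ring R]

lemma Full.span {s : Set R} (h : Full s) : (1 : R) ∈ TwoSidedIdeal.span s :=
  h _ TwoSidedIdeal.subset_span

lemma mem_of_one_mem {I : TwoSidedIdeal R} (h : (1 : R) ∈ I) (x : R) : x ∈ I := by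
  simpa using I.mul_mem_left x 1 h

lemma smul_mem' {K : Type*} [CommSemiring K] [Algebra K R] {I : TwoSidedIdeal R} (c : K) {x : R}
    (h : x ∈ I) : c • x ∈ I := by
  rw [Algebra.smul_def]; exact I.mul_mem_left _ _ h

lemma exists_maximal (I : TwoSidedIdeal R) (hI : (1 : R) ∉ I) : ∃ P : TwoSidedIdeal R,
    I ≤ P ∧ (1 : R) ∉ P ∧ ∀ K : TwoSidedIdeal R, P ≤ K → (1 : R) ∉ K → K ≤ P := by
  obtain ⟨P, hP, hmax⟩ := zorn_le_nonempty₀ {J : TwoSidedIdeal R | (1 : R) ∉ J}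
    (fun c hc hch y hy => by
      refine ⟨TwoSidedIdeal.mk' {x | ∃ J ∈ c, x ∈ J} ⟨y, hy, y.zero_mem⟩ ?_ ?_ ?_ ?_, ?_, ?_⟩
      · rintro a b ⟨J, hJ, ha⟩ ⟨K, hK, hb⟩
        rcases hch.total hJ hK with h | h
        · exact ⟨K, hK, K.add_mem (h ha) hb⟩
        · exact ⟨J, hJ, J.add_mem ha (h hb)⟩
      · rintro a ⟨J, hJ, ha⟩; exact ⟨J, hJ, J.neg_mem ha⟩
      · rintro a b ⟨J, hJ, ha⟩; exact ⟨J, hJ, J.mul_mem_left _ _ ha⟩
      · rintro a b ⟨J, hJ, ha⟩; exact ⟨J, hJ, J.mul_mem_right _ _ ha⟩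
      · simp only [Set.mem_setOf_eq, TwoSidedIdeal.mem_mk']
        rintro ⟨J, hJ, h1⟩
        exact hc hJ h1
      · intro J hJ x hx
        simp only [TwoSidedIdeal.mem_mk']
        exact ⟨J, hJ, hx⟩) I hI
  exact ⟨P, hP, hmax.1, fun K hK h1 => hmax.2 h1 hK⟩

lemma maximal_prime {P : TwoSidedIdeal R}
    (hP : ∀ K : TwoSidedIdeal R, P ≤ K → (1 : R) ∉ K → K ≤ P) {x y : R}
    (h : ∀ r, x * r * y ∈ P) (hy : y ∉ P) : x ∈ P := by
  let K := TwoSidedIdeal.mk' {u : R | ∀ r, u * r * y ∈ P} (fun r => by simp)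
    (fun ha hb r => by rw [add_mul, add_mul]; exact P.add_mem (ha r) (hb r))
    (fun ha r => by rw [neg_mul, neg_mul]; exact P.neg_mem (ha r))
    (fun {a b} hb r => by rw [mul_assoc a, mul_assoc a]; exact P.mul_mem_left _ _ (hb r))
    (fun {a b} ha r => by rw [mul_assoc a]; exact ha _)
  have hK : ∀ u, u ∈ K ↔ ∀ r, u * r * y ∈ P := fun u => TwoSidedIdeal.mem_mk' _ _ _ _ _ _ u
  refine hP K (fun u hu => (hK u).2 fun r => P.mul_mem_right _ _ (P.mul_mem_right _ _ hu))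
    (fun h1 => hy ?_) ((hK x).2 h)
  simpa using (hK 1).1 h1 1

end ring

section two
variable {E₁ E₂ E : Type*} [CStarAlgebra E₁] [CStarAlgebra E₂] [CStarAlgebra E]
  {j₁ : E₁ →⋆ₐ[ℂ] E} {j₂ : E₂ →⋆ₐ[ℂ] E}

/-- `x` such that `j₁ x * z` lies in `I`, for `z` commuting with the range of `j₁` -/
def annL (j₁ : E₁ →⋆ₐ[ℂ] E) (I : TwoSidedIdeal E) (z : E) (hz : ∀ x, Commute (j₁ x) z) :
    TwoSidedIdeal E₁ :=
  TwoSidedIdeal.mk' {x | j₁ x * z ∈ I} (by simp)
    (fun ha hb => by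
      simp only [Set.mem_setOf_eq, map_add, add_mul]; exact I.add_mem ha hb)
    (fun ha => by simp only [Set.mem_setOf_eq, map_neg, neg_mul]; exact I.neg_mem ha)
    (fun ha => by simp only [Set.mem_setOf_eq, map_mul, mul_assoc]; exact I.mul_mem_left _ _ ha)
    (fun {a b} ha => by
      simp only [Set.mem_setOf_eq, map_mul, mul_assoc]
      rw [(hz b).eq, ← mul_assoc]; exact I.mul_mem_right _ _ ha)

lemma mem_annL {I : TwoSidedIdeal E} {z : E} {hz : ∀ x, Commute (j₁ x) z} {x : E₁} :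
    x ∈ annL j₁ I z hz ↔ j₁ x * z ∈ I := TwoSidedIdeal.mem_mk' _ _ _ _ _ _ x

lemma span_mul_mem (hc : ∀ x y, Commute (j₁ x) (j₂ y)) {s : Set E₁} {t : Set E₂}
    {I : TwoSidedIdeal E} (h : ∀ x ∈ s, ∀ y ∈ t, j₁ x * j₂ y ∈ I) {x : E₁}
    (hx : x ∈ TwoSidedIdeal.span s) {y : E₂} (hy : y ∈ TwoSidedIdeal.span t) :
    j₁ x * j₂ y ∈ I := by
  have h1 : ∀ y ∈ t, j₂ y * j₁ x ∈ I := fun y hy => by
    rw [← (hc x y).eq]
    exact mem_annL.1 ((TwoSidedIdeal.span_le (I := annL j₁ I (j₂ y) fun x => hc x y)).2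
      (fun x hx => mem_annL.2 (h x hx y hy)) hx)
  rw [(hc x y).eq]
  exact mem_annL.1 ((TwoSidedIdeal.span_le (I := annL j₂ I (j₁ x) fun y => (hc x y).symm)).2
      (fun y hy => mem_annL.2 (h1 y hy)) hy)

lemma Full.two (hc : ∀ x y, Commute (j₁ x) (j₂ y)) {s : Set E₁} {t : Set E₂} (hs : Full s)
    (ht : Full t) {I : TwoSidedIdeal E} (h : ∀ x ∈ s, ∀ y ∈ t, j₁ x * j₂ y ∈ I) : (1 : E) ∈ I := by
  simpa using span_mul_mem hc h hs.span ht.span

lemma prime_pair (hc : ∀ x y, Commute (j₁ x) (j₂ y)) (I : TwoSidedIdeal E) (hI : (1 : E) ∉ I) :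
    ∃ (P₁ : TwoSidedIdeal E₁) (P₂ : TwoSidedIdeal E₂), (1 : E₁) ∉ P₁ ∧ (1 : E₂) ∉ P₂ ∧
      ∀ x ∉ P₁, ∀ y ∉ P₂, j₁ x * j₂ y ∉ I := by
  let Φ : E₁ ⊗[ℂ] E₂ →ₐ[ℂ] E := Algebra.TensorProduct.lift j₁.toAlgHom j₂.toAlgHom hc
  obtain ⟨P, hP, h1, hmax⟩ := exists_maximal (TwoSidedIdeal.comap Φ I) (by
    rw [TwoSidedIdeal.mem_comap, map_one]; exact hI)
  refine ⟨TwoSidedIdeal.comap (Algebra.TensorProduct.includeLeft : E₁ →ₐ[ℂ] E₁ ⊗[ℂ] E₂) P,
    TwoSidedIdeal.comap (Algebra.TensorProduct.includeRight : E₂ →ₐ[ℂ] E₁ ⊗[ℂ] E₂) P,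
    by rw [TwoSidedIdeal.mem_comap, map_one]; exact h1,
    by rw [TwoSidedIdeal.mem_comap, map_one]; exact h1, fun x hx y hy hxy => hx ?_⟩
  rw [TwoSidedIdeal.mem_comap] at hy ⊢
  refine maximal_prime hmax (fun r => ?_) hy
  have h2 : x ⊗ₜ[ℂ] y ∈ P := hP (by rw [TwoSidedIdeal.mem_comap]; simpa [Φ] using hxy)
  induction r using TensorProduct.induction_on with
  | zero => simp
  | add r r' hr hr' => rw [mul_add, add_mul]; exact P.add_mem hr hr'
  | tmul a b =>
    have := P.mul_mem_left ((1 : E₁) ⊗ₜ[ℂ] b) _ (P.mul_mem_right _ (a ⊗ₜ[ℂ] (1 : E₂)) h2)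
    simpa using this

end two

section one
variable {E : Type*} [CStarAlgebra E]

lemma one_mem_of_small {I : TwoSidedIdeal E} {x : E} (h : 1 - x ∈ I) (hx : ‖x‖ < 1) :
    (1 : E) ∈ I := by
  have := I.mul_mem_right _ (↑(Units.oneSub x hx)⁻¹ : E) h
  rwa [show (1 - x : E) = (Units.oneSub x hx : E) from rfl, Units.mul_inv] at this

/-- the spectrum of `h` modulo the ideal `I` -/
def Sp (I : TwoSidedIdeal E) (h : E) : Set ℝ :=
  {t | ∀ f : ℝ → ℝ, Continuous f → f t ≠ 0 → cfc f h ∉ I}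

lemma cfc_mem_of_compact {I : TwoSidedIdeal E} {h : E} {K : Set ℝ} (hK : IsCompact K)
    (hd : ∀ t ∈ K, t ∉ Sp I h) {g : ℝ → ℝ} (hg : Continuous g)
    (hgK : ∀ t ∈ spectrum ℝ h, t ∉ K → g t = 0) : cfc g h ∈ I := by
  have key : ∃ f : ℝ → ℝ, Continuous f ∧ (∀ t, 0 ≤ f t) ∧ cfc f h ∈ I ∧ ∀ t ∈ K, 0 < f t := by
    refine hK.induction_on (p := fun s => ∃ f : ℝ → ℝ, Continuous f ∧ (∀ t, 0 ≤ f t) ∧
      cfc f h ∈ I ∧ ∀ t ∈ s, 0 < f t) ⟨0, continuous_zero, fun _ => le_rfl, by simp, by simp⟩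
      ?_ ?_ ?_
    · rintro s t hst ⟨f, h1, h2, h3, h4⟩
      exact ⟨f, h1, h2, h3, fun x hx => h4 x (hst hx)⟩
    · rintro s t ⟨f, h1, h2, h3, h4⟩ ⟨f', h1', h2', h3', h4'⟩
      refine ⟨fun x => f x + f' x, h1.add h1', fun x => add_nonneg (h2 x) (h2' x), ?_, ?_⟩
      · rw [cfc_add h f f' h1.continuousOn h1'.continuousOn]; exact I.add_mem h3 h3'
      · rintro x (hx | hx)
        · exact add_pos_of_pos_of_nonneg (h4 x hx) (h2' x)
        · exact add_pos_of_nonneg_of_pos (h2 x) (h4' x hx)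
    · intro t ht
      have := hd t ht
      simp only [Sp, Set.mem_setOf_eq, not_forall, not_not] at this
      obtain ⟨f, h1, h2, h3⟩ := this
      refine ⟨{x | f x ≠ 0}, mem_nhdsWithin_of_mem_nhds ((isOpen_ne_fun h1 continuous_const).mem_nhds
        h2), fun x => f x * f x, h1.mul h1, fun x => mul_self_nonneg _, ?_,
        fun x hx => mul_self_pos.2 hx⟩
      rw [cfc_mul f f h h1.continuousOn h1.continuousOn]; exact I.mul_mem_left _ _ h3
  obtain ⟨f, h1, h2, h3, h4⟩ := key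
  obtain ⟨m, hm, hmf⟩ : ∃ m : ℝ, 0 < m ∧ ∀ t ∈ K, m ≤ f t := by
    rcases K.eq_empty_or_nonempty with rfl | hne
    · exact ⟨1, one_pos, by simp⟩
    · obtain ⟨x, hx, hmin⟩ := hK.exists_isMinOn hne h1.continuousOn
      exact ⟨f x, h4 x hx, fun t ht => hmin ht⟩
  have hc : Continuous fun t => g t / max (f t) m :=
    hg.div (h1.max continuous_const) fun t => (lt_max_of_lt_right hm).ne'
  have : cfc g h = cfc (fun t => g t / max (f t) m) h * cfc f h := by
    rw [← cfc_mul _ _ h hc.continuousOn h1.continuousOn]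
    refine cfc_congr fun t ht => ?_
    by_cases htK : t ∈ K
    · have := h4 t htK
      simp only [max_eq_left (hmf t htK)]
      field_simp
    · simp [hgK t ht htK]
  rw [this]
  exact I.mul_mem_left _ _ h3

lemma spectrum_subset_Icc (h : E) : spectrum ℝ h ⊆ Set.Icc (-‖h‖) ‖h‖ := fun t ht => by
  rcases subsingleton_or_nontrivial E with hE | hE
  · simp at ht
  · exact abs_le.1 (spectrum.norm_le_norm_of_mem ht)

lemma Sp_subset {I : TwoSidedIdeal E} {h : E} : Sp I h ⊆ Set.Icc (-‖h‖) ‖h‖ := fun t ht => by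
  by_contra hn
  refine ht (fun x => max (|x| - ‖h‖) 0) (by fun_prop) ?_ ?_
  · rw [Set.mem_Icc, ← abs_le, not_le] at hn
    exact (lt_max_of_lt_left (sub_pos.2 hn)).ne'
  · rw [cfc_congr (g := 0) fun x hx => by
      simpa using abs_le.2 (spectrum_subset_Icc h hx)]
    simp

lemma Sp_nonempty {I : TwoSidedIdeal E} (hI : (1 : E) ∉ I) {h : E} (hh : IsSelfAdjoint h) :
    (Sp I h).Nonempty := by
  by_contra hn
  rw [Set.not_nonempty_iff_eq_empty] at hn
  have := cfc_mem_of_compact (I := I) (h := h) isCompact_Icc (by simp [hn])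
    (g := fun _ => 1) continuous_const fun t ht htK => absurd (spectrum_subset_Icc h ht) htK
  rw [cfc_const_one ℝ h] at this
  exact hI this

lemma approx_of_Sp {I : TwoSidedIdeal E} {h : E} (hh : IsSelfAdjoint h) {t c : ℝ} (hc : 0 < c)
    (hS : ∀ s ∈ Sp I h, |s - t| < c) : ∃ x : E, ‖x‖ ≤ c ∧ h - algebraMap ℝ E t - x ∈ I := by
  let cl : ℝ → ℝ := fun s => max (-c) (min (s - t) c)
  have hcl : Continuous cl := by fun_prop
  refine ⟨cfc cl h, norm_cfc_le hc.le fun s _ => abs_le.2 ⟨le_max_left _ _,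
    max_le (by linarith) (min_le_right _ _)⟩, ?_⟩
  have h1 : h - algebraMap ℝ E t - cfc cl h = cfc (fun s => s - t - cl s) h := by
    rw [cfc_sub _ _ h (by fun_prop) hcl.continuousOn, cfc_sub _ _ h (by fun_prop) (by fun_prop),
      cfc_id' ℝ h, cfc_const t h]
  rw [h1]
  refine cfc_mem_of_compact (K := Set.Icc (-‖h‖) ‖h‖ ∩ {s | c ≤ |s - t|})
    (isCompact_Icc.inter_right (isClosed_le continuous_const (by fun_prop)))
    (fun s hs hs' => absurd (hS s hs') (not_lt.2 hs.2)) (by fun_prop) fun s hs hsK => ?_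
  have h2 : |s - t| < c := by
    by_contra hn
    exact hsK ⟨spectrum_subset_Icc h hs, not_lt.1 hn⟩
  rw [abs_lt] at h2
  simp only [cl, min_eq_left h2.2.le, max_eq_right h2.1.le, sub_self]

lemma full_comm_of_noChar (hE : IsEmpty (E →⋆ₐ[ℂ] ℂ)) :
    Full {z : E | ∃ x y, z = x * y - y * x} := by
  intro I hI
  by_contra h1
  obtain ⟨M, hIM, hM1, hmax⟩ := exists_maximal I h1
  have hcomm : ∀ x y, x * y - y * x ∈ M := fun x y => hIM (hI ⟨x, y, rfl⟩)
  have hprime : ∀ x y, x * y ∈ M → y ∉ M → x ∈ M := fun x y hxy hy =>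
    maximal_prime hmax (fun r => by
      have : x * r * y = (x * r - r * x) * y + r * (x * y) := by noncomm_ring
      rw [this]
      exact M.add_mem (M.mul_mem_right _ _ (hcomm _ _)) (M.mul_mem_left _ _ hxy)) hy
  have hsa : ∀ h : E, IsSelfAdjoint h → ∃ t : ℝ, h - algebraMap ℝ E t ∈ M := by
    intro h hh
    obtain ⟨t, ht⟩ := Sp_nonempty hM1 hh
    refine ⟨t, ?_⟩
    have huniq : ∀ s ∈ Sp M h, s = t := fun s hs => by
      by_contra hne
      have hd : 0 < |s - t| := abs_pos.2 (sub_ne_zero.2 hne)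
      refine hs (fun x => max (|x - t| - |s - t| / 2) 0) (by fun_prop)
        (lt_max_of_lt_left (by linarith)).ne' (hprime _ _ ?_
        (ht (fun x => max (|s - t| / 2 - |x - t|) 0) (by fun_prop)
        (lt_max_of_lt_left (by simpa using hd)).ne'))
      rw [← cfc_mul _ _ h (by fun_prop) (by fun_prop), cfc_congr (g := 0) fun x _ => by
        rcases le_total (|x - t|) (|s - t| / 2) with h | h
        · simp [max_eq_right (sub_nonpos.2 h)]
        · simp [max_eq_right (sub_nonpos.2 h)]]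
      simp
    set a := h - algebraMap ℝ E t
    let K := TwoSidedIdeal.mk' {u : E | ∃ r, u - r * a ∈ M} ⟨0, by simp⟩
      (by
        rintro u v ⟨r, hr⟩ ⟨r', hr'⟩
        exact ⟨r + r', by convert M.add_mem hr hr' using 1; noncomm_ring⟩)
      (by rintro u ⟨r, hr⟩; exact ⟨-r, by convert M.neg_mem hr using 1; noncomm_ring⟩)
      (by
        rintro u v ⟨r, hr⟩
        exact ⟨u * r, by convert M.mul_mem_left u _ hr using 1; noncomm_ring⟩)
      (by
        rintro u v ⟨r, hr⟩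
        exact ⟨r * v, by
          convert M.add_mem (M.mul_mem_right _ v hr) (M.mul_mem_left r _ (hcomm a v)) using 1
          noncomm_ring⟩)
    have hK : ∀ u, u ∈ K ↔ ∃ r, u - r * a ∈ M := fun u => TwoSidedIdeal.mem_mk' _ _ _ _ _ _ u
    refine hmax K (fun u hu => (hK u).2 ⟨0, by simpa using hu⟩) (fun h1 => ?_)
      ((hK a).2 ⟨1, by simp⟩)
    obtain ⟨r, hr⟩ := (hK 1).1 h1
    have hpos : 0 < 1 / (‖r‖ + 1) := by positivity
    obtain ⟨x, hx, hx'⟩ := approx_of_Sp (I := M) hh (t := t) hpos fun s hs => by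
      simpa [huniq s hs] using hpos
    refine hM1 (one_mem_of_small (x := r * x) ?_ ?_)
    · convert M.add_mem hr (M.mul_mem_left r _ hx') using 1
      simp only [a]; noncomm_ring
    · refine (norm_mul_le _ _).trans_lt ((mul_le_mul_of_nonneg_left hx (norm_nonneg _)).trans_lt ?_)
      rw [mul_one_div, div_lt_one (by positivity)]
      linarith
  have hall : ∀ x : E, ∃ c : ℂ, x - c • 1 ∈ M := fun x => by
    obtain ⟨s, hs⟩ := hsa _ (realPart x).2
    obtain ⟨t, ht⟩ := hsa _ (imaginaryPart x).2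
    refine ⟨s + Complex.I * t, ?_⟩
    convert M.add_mem hs (smul_mem' Complex.I ht) using 1
    conv_lhs => rw [← realPart_add_I_smul_imaginaryPart x]
    simp only [Algebra.algebraMap_eq_smul_one, ← Complex.coe_smul, add_smul, mul_smul, smul_sub]
    abel
  choose χ hχ using hall
  have hun : ∀ x (c : ℂ), x - c • 1 ∈ M → χ x = c := fun x c hc => by
    by_contra hne
    have h2 := smul_mem' (c - χ x)⁻¹ (M.sub_mem (hχ x) hc)
    have h3 : (c - χ x)⁻¹ • (x - χ x • (1 : E) - (x - c • 1)) = 1 := by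
      rw [sub_sub_sub_cancel_left, ← sub_smul, smul_smul,
        inv_mul_cancel₀ (sub_ne_zero.2 (Ne.symm hne)), one_smul]
    exact hM1 (h3 ▸ h2)
  let χ' : E →ₐ[ℂ] ℂ :=
    { toFun := χ
      map_one' := hun _ _ (by simp)
      map_mul' := fun x y => hun _ _ (by
        convert M.add_mem (M.mul_mem_right _ y (hχ x)) (smul_mem' (χ x) (hχ y)) using 1
        simp only [sub_mul, smul_mul_assoc, one_mul, smul_sub, mul_smul]; abel)
      map_zero' := hun _ _ (by simp)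
      map_add' := fun x y => hun _ _ (by
        convert M.add_mem (hχ x) (hχ y) using 1
        rw [add_smul]; abel)
      commutes' := fun c => hun _ _ (by simp [Algebra.algebraMap_eq_smul_one]) }
  exact hE.false { χ' with map_star' := fun x => map_star χ' x }

/-- commutators with the members of a list -/
def comms (L : List E) : Set E := {z | ∃ a ∈ L, ∃ d, z = a * d - d * a}

def NC (L : List E) : Prop := (∀ a ∈ L, IsSelfAdjoint a) ∧ Full (comms L)

lemma comms_mono {L L' : List E} (h : L ⊆ L') : comms L ⊆ comms L' := by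
  rintro z ⟨a, ha, d, rfl⟩; exact ⟨a, h ha, d, rfl⟩

lemma exists_NC (hE : IsEmpty (E →⋆ₐ[ℂ] ℂ)) : ∃ L : List E, NC L := by
  have key : ∀ u ∈ TwoSidedIdeal.span {z : E | ∃ x y, z = x * y - y * x}, ∃ L : List E,
      (∀ a ∈ L, IsSelfAdjoint a) ∧ u ∈ TwoSidedIdeal.span (comms L) := by
    intro u hu
    induction hu using TwoSidedIdeal.span_induction with
    | mem z hz =>
      obtain ⟨x, y, rfl⟩ := hz
      refine ⟨[realPart x, imaginaryPart x], by
        simp [(realPart x).2.star_eq, (imaginaryPart x).2.star_eq, IsSelfAdjoint], ?_⟩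
      have h1 : (realPart x : E) * y - y * realPart x ∈
          TwoSidedIdeal.span (comms [(realPart x : E), imaginaryPart x]) :=
        TwoSidedIdeal.subset_span ⟨_, by simp, y, rfl⟩
      have h2 : (imaginaryPart x : E) * y - y * imaginaryPart x ∈
          TwoSidedIdeal.span (comms [(realPart x : E), imaginaryPart x]) :=
        TwoSidedIdeal.subset_span ⟨_, by simp, y, rfl⟩
      convert TwoSidedIdeal.add_mem _ h1 (smul_mem' Complex.I h2) using 1
      conv_lhs => rw [← realPart_add_I_smul_imaginaryPart x]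
      simp only [add_mul, mul_add, smul_mul_assoc, mul_smul_comm, smul_sub]
      abel
    | zero => exact ⟨[], by simp, TwoSidedIdeal.zero_mem _⟩
    | add x y _ _ hx hy =>
      obtain ⟨L, h1, h2⟩ := hx
      obtain ⟨L', h1', h2'⟩ := hy
      refine ⟨L ++ L', fun a ha => (List.mem_append.1 ha).elim (h1 a) (h1' a),
        TwoSidedIdeal.add_mem _
          (TwoSidedIdeal.span_mono (comms_mono (List.subset_append_left _ _)) h2)
          (TwoSidedIdeal.span_mono (comms_mono (List.subset_append_right _ _)) h2')⟩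
    | neg x _ hx => obtain ⟨L, h1, h2⟩ := hx; exact ⟨L, h1, TwoSidedIdeal.neg_mem _ h2⟩
    | left_absorb a x _ hx =>
      obtain ⟨L, h1, h2⟩ := hx; exact ⟨L, h1, TwoSidedIdeal.mul_mem_left _ _ _ h2⟩
    | right_absorb a x _ hx =>
      obtain ⟨L, h1, h2⟩ := hx; exact ⟨L, h1, TwoSidedIdeal.mul_mem_right _ _ _ h2⟩
  obtain ⟨L, h1, h2⟩ := key 1 (full_comm_of_noChar hE).span
  exact ⟨L, h1, fun I hI => TwoSidedIdeal.span_le.2 hI h2⟩

end one

section red
variable {E E' : Type*} [CStarAlgebra E] [CStarAlgebra E']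

lemma claimA (j : E →⋆ₐ[ℂ] E') (a b : E) (L : List E) (z : E') {u : E}
    (hu : u ∈ TwoSidedIdeal.span (comms (a :: L))) : ∃ w : E', ∀ (δ : ℝ) (I : TwoSidedIdeal E'),
      (∀ x ∈ L, ∀ d, j (x * d - d * x) ∈ I) →
      (∀ d, j (a * d - d * a) + δ • (j (b * d - d * b) * z) ∈ I) → j u + δ • w ∈ I := by
  induction hu using TwoSidedIdeal.span_induction with
  | mem y hy =>
    obtain ⟨x, hx, d, rfl⟩ := hy
    rcases List.mem_cons.1 hx with rfl | hx
    · exact ⟨_, fun δ I _ h => h d⟩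
    · exact ⟨0, fun δ I h _ => by simpa using h x hx d⟩
  | zero => exact ⟨0, fun δ I _ _ => by simp⟩
  | add x y _ _ hx hy =>
    obtain ⟨w, hw⟩ := hx
    obtain ⟨w', hw'⟩ := hy
    refine ⟨w + w', fun δ I h h' => ?_⟩
    convert I.add_mem (hw δ I h h') (hw' δ I h h') using 1
    rw [map_add, smul_add]; abel
  | neg x _ hx =>
    obtain ⟨w, hw⟩ := hx
    refine ⟨-w, fun δ I h h' => ?_⟩
    convert I.neg_mem (hw δ I h h') using 1
    rw [map_neg, smul_neg]; abel
  | left_absorb c x _ hx =>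
    obtain ⟨w, hw⟩ := hx
    refine ⟨j c * w, fun δ I h h' => ?_⟩
    convert I.mul_mem_left (j c) _ (hw δ I h h') using 1
    rw [map_mul, mul_add, mul_smul_comm]
  | right_absorb c x _ hx =>
    obtain ⟨w, hw⟩ := hx
    refine ⟨w * j c, fun δ I h h' => ?_⟩
    convert I.mul_mem_right _ (j c) (hw δ I h h') using 1
    rw [map_mul, add_mul, smul_mul_assoc]

lemma NC.reduce {j₁ j₂ : E →⋆ₐ[ℂ] E'} (hc : ∀ x y, Commute (j₁ x) (j₂ y)) {a b : E} {L : List E}
    (h : NC (a :: b :: L)) : ∃ L' : List E', L'.length = L.length + 1 ∧ NC L' := by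
  obtain ⟨hsa, hfull⟩ := h
  have h1 : (1 : E) ∈ TwoSidedIdeal.span (comms (a :: L)) ⊔ TwoSidedIdeal.span (comms [b]) := by
    refine hfull _ ?_
    rintro z ⟨x, hx, d, rfl⟩
    simp only [List.mem_cons] at hx
    rcases hx with rfl | rfl | hx
    · exact TwoSidedIdeal.mem_sup_left (TwoSidedIdeal.subset_span ⟨_, by simp, d, rfl⟩)
    · exact TwoSidedIdeal.mem_sup_right (TwoSidedIdeal.subset_span ⟨_, by simp, d, rfl⟩)
    · exact TwoSidedIdeal.mem_sup_left (TwoSidedIdeal.subset_span ⟨_, by simp [hx], d, rfl⟩)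
  obtain ⟨u, hu, v, hv, huv⟩ := TwoSidedIdeal.mem_sup.1 h1
  obtain ⟨w₁, hw₁⟩ := claimA j₁ a b L (j₂ b) hu
  obtain ⟨w₂, hw₂⟩ := claimA j₂ a b L (j₁ b) hu
  set w := w₁ + j₁ v * w₂ with hw
  set δ : ℝ := 1 / (‖w‖ + 1) with hδ
  have hδ0 : 0 < δ := by positivity
  refine ⟨(j₁ a + j₂ a + δ • (j₁ b * j₂ b)) :: L.map fun x => j₁ x + j₂ x, by simp, ?_, ?_⟩
  · have ha := hsa a (by simp)
    have hb := hsa b (by simp)
    intro x hx
    rcases List.mem_cons.1 hx with rfl | hx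
    · refine ((ha.map j₁).add (ha.map j₂)).add (IsSelfAdjoint.smul (IsSelfAdjoint.all δ) ?_)
      exact ((hb.map j₁).commute_iff (hb.map j₂)).1 (hc b b)
    · obtain ⟨y, hy, rfl⟩ := List.mem_map.1 hx
      have := hsa y (by simp [hy])
      exact (this.map j₁).add (this.map j₂)
  intro I hI
  have hI' : ∀ x ∈ (j₁ a + j₂ a + δ • (j₁ b * j₂ b)) :: L.map fun x => j₁ x + j₂ x, ∀ d,
      x * d - d * x ∈ I := fun x hx d => hI ⟨x, hx, d, rfl⟩
  have e1 : ∀ d, j₁ (a * d - d * a) + δ • (j₁ (b * d - d * b) * j₂ b) ∈ I := fun d => by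
    convert hI' _ List.mem_cons_self (j₁ d) using 1
    simp only [map_sub, map_mul, add_mul, mul_add, smul_mul_assoc, mul_smul_comm, sub_mul,
      smul_sub, mul_assoc, ← (hc d a).eq, ← (hc d b).eq]
    abel
  have e2 : ∀ d, j₂ (a * d - d * a) + δ • (j₂ (b * d - d * b) * j₁ b) ∈ I := fun d => by
    convert hI' _ List.mem_cons_self (j₂ d) using 1
    rw [(hc b b).eq]
    simp only [map_sub, map_mul, add_mul, mul_add, smul_mul_assoc, mul_smul_comm, sub_mul,
      smul_sub, mul_assoc, (hc a d).eq, (hc b d).eq]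
    abel
  have f1 := hw₁ δ I (fun x hx d => by
    convert hI' _ (List.mem_cons_of_mem _ (List.mem_map_of_mem hx)) (j₁ d) using 1
    simp only [map_sub, map_mul, add_mul, mul_add, ← (hc d x).eq]; abel) e1
  have f2 := hw₂ δ I (fun x hx d => by
    convert hI' _ (List.mem_cons_of_mem _ (List.mem_map_of_mem hx)) (j₂ d) using 1
    simp only [map_sub, map_mul, add_mul, mul_add, (hc x d).eq]; abel) e2
  have f3 : j₁ v * j₂ v ∈ I := by
    refine span_mul_mem hc ?_ hv hv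
    rintro _ ⟨x, hx, d, rfl⟩ _ ⟨y, hy, d', rfl⟩
    rw [List.mem_singleton] at hx hy
    subst hx hy
    have := smul_mem' δ⁻¹ (I.sub_mem (I.mul_mem_right _ (j₂ d') (e1 d))
      (I.mul_mem_left (j₂ d') _ (e1 d)))
    convert this using 1
    generalize y * d - d * y = c
    generalize a * d - d * a = c'
    simp only [add_mul, mul_add, smul_mul_assoc, mul_smul_comm, (hc c' d').eq, map_sub, map_mul,
      mul_sub, ← mul_assoc (j₂ d'), ← (hc c d').eq, mul_assoc]
    rw [add_sub_add_left_eq_sub, ← smul_sub, smul_smul, inv_mul_cancel₀ hδ0.ne', one_smul]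
  refine one_mem_of_small (x := -(δ • w)) ?_ ?_
  · convert I.add_mem (I.add_mem f1 (I.mul_mem_left (j₁ v) _ f2)) f3 using 1
    have g1 : j₁ u + j₁ v = 1 := by rw [← map_add, huv, map_one]
    have g2 : j₂ u + j₂ v = 1 := by rw [← map_add, huv, map_one]
    have g3 : (1 : E') = j₁ u + j₁ v * (j₂ u + j₂ v) := by rw [g2, mul_one, g1]
    rw [sub_neg_eq_add, hw]
    conv_lhs => rw [g3]
    simp only [mul_add, smul_add, mul_smul_comm]
    abel
  · rw [norm_neg, norm_smul, Real.norm_of_nonneg hδ0.le, hδ, one_div_mul_eq_div,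
      div_lt_one (by positivity)]
    linarith

end red

theorem exists_single {𝒞 : Set CAlg.{u}} (hP : Pair 𝒞) {E₀ : CAlg.{u}} (h₀ : E₀ ∈ 𝒞)
    (hE : IsEmpty (E₀.E →⋆ₐ[ℂ] ℂ)) : ∃ E ∈ 𝒞, ∃ h : E.E, NC [h] := by
  have key : ∀ n : ℕ, ∀ E ∈ 𝒞, ∀ L : List E.E, L.length = n + 1 → NC L →
      ∃ E ∈ 𝒞, ∃ h : E.E, NC [h] := by
    intro n
    induction n with
    | zero =>
      intro E hE L hL h
      obtain ⟨a, rfl⟩ := List.length_eq_one_iff.1 hL
      exact ⟨E, hE, a, h⟩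
    | succ n ih =>
      intro E hE L hL h
      match L, hL, h with
      | a :: b :: L, hL, h =>
        obtain ⟨E', hE', j₁, j₂, hc⟩ := hP E hE E hE
        obtain ⟨L', h1, h2⟩ := h.reduce hc
        exact ih E' hE' L' (by simp at hL; omega) h2
  obtain ⟨L, hL⟩ := exists_NC hE
  refine key L.length E₀ h₀ (0 :: L) rfl ⟨fun a ha => ?_, fun I hI => hL.2 I
    ((comms_mono (List.subset_cons_self _ _)).trans hI)⟩
  rcases List.mem_cons.1 ha with rfl | ha
  · exact IsSelfAdjoint.zero _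
  · exact hL.1 a ha

end Vale.Agent.P101
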