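import Mathlib

/-! Order zero systems and the join of two commuting ones. -/

namespace Vale.Agent.P101

open Complex

variable {E : Type*} [Ring E] [StarRing E] {ι : Type*} [Fintype ι] [DecidableEq ι]

/-- the value at the unit -/
def tr (φ : ι → ι → E) : E := ∑ m, φ m m

structure OZ (φ : ι → ι → E) : Prop where
  star : ∀ i j, star (φ i j) = φ j i
  mul : ∀ i j k l, φ i j * φ k l = if j = k then tr φ * φ i l else 0

lemma OZ.comm {φ : ι → ι → E} (h : OZ φ) (i j : ι) : φ i j * tr φ = tr φ * φ i j := by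
  conv_lhs => rw [tr, Finset.mul_sum]
  simp [h.mul]

lemma OZ.star_tr {φ : ι → ι → E} (h : OZ φ) : Star.star (tr φ) = tr φ := by
  simp [tr, h.star]

lemma OZ.tr_top {φ : ι → ι → E} (h : OZ φ) {i : ι} {v : E} (hv : φ i i * v = v) :
    tr φ * v = v := by
  have := h.mul i i i i
  rw [if_pos rfl] at this
  calc tr φ * v = tr φ * φ i i * v := by rw [mul_assoc, hv]
    _ = v := by rw [← this, mul_assoc, hv, hv]

lemma OZ.map {F : Type*} [Ring F] [StarRing F] {φ : ι → ι → E} (h : OZ φ) {G : Type*}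
    [FunLike G E F] [RingHomClass G E F] [StarHomClass G E F] (j : G) :
    OZ fun i k => j (φ i k) where
  star i k := by rw [← map_star, h.star]
  mul i k l m := by
    rw [← map_mul, h.mul]
    split_ifs <;> simp [tr]

structure JH (a b : ι → ι → E) (r : E) : Prop where
  ha : OZ a
  hb : OZ b
  ab : ∀ i j k l, b k l * a i j = a i j * b k l
  sr : star r = r
  ra : ∀ i j, a i j * r = r * a i j
  rb : ∀ i j, b i j * r = r * b i j
  rr : r * r = 1 - tr a * tr a

def jX (a b : ι → ι → E) (k l : ι) : E := ∑ m, a m l * b k m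
def jY (a b : ι → ι → E) (k l : ι) : E := ∑ m, a k m * b m l
def jF (a b : ι → ι → E) : E := ∑ i, ∑ j, a i j * b j i

namespace JH
variable {a b : ι → ι → E} {r : E} (h : JH a b r)
include h

lemma ab' (i j k l : ι) (y : E) : b k l * (a i j * y) = a i j * (b k l * y) := by
  rw [← mul_assoc, h.ab, mul_assoc]
lemma aa' (i j k l : ι) (y : E) :
    a i j * (a k l * y) = if j = k then tr a * (a i l * y) else 0 := by
  rw [← mul_assoc, h.ha.mul]; split_ifs <;> simp [mul_assoc]
lemma bb' (i j k l : ι) (y : E) :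
    b i j * (b k l * y) = if j = k then tr b * (b i l * y) else 0 := by
  rw [← mul_assoc, h.hb.mul]; split_ifs <;> simp [mul_assoc]
lemma ae (i j : ι) : a i j * tr a = tr a * a i j := h.ha.comm i j
lemma bf (i j : ι) : b i j * tr b = tr b * b i j := h.hb.comm i j
lemma af (i j : ι) : a i j * tr b = tr b * a i j := by
  simp [tr, Finset.mul_sum, Finset.sum_mul, h.ab]
lemma be (i j : ι) : b i j * tr a = tr a * b i j := by
  simp [tr, Finset.mul_sum, Finset.sum_mul, h.ab]
lemma fe : tr b * tr a = tr a * tr b := by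
  conv_lhs => rw [tr.eq_1 a, Finset.mul_sum]
  conv_rhs => rw [tr.eq_1 a, Finset.sum_mul]
  simp [h.af]
lemma re : r * tr a = tr a * r := by simp [tr, Finset.mul_sum, Finset.sum_mul, h.ra]
lemma rf : r * tr b = tr b * r := by simp [tr, Finset.mul_sum, Finset.sum_mul, h.rb]

end JH

/-- `x` commutes with the three central elements -/
structure Cz (a b : ι → ι → E) (r x : E) : Prop where
  e : x * tr a = tr a * x
  f : x * tr b = tr b * x
  r : x * r = r * x

omit [StarRing E] [DecidableEq ι] in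
lemma Cz.mul {a b : ι → ι → E} {r x y : E} (hx : Cz a b r x) (hy : Cz a b r y) :
    Cz a b r (x * y) :=
  ⟨by rw [mul_assoc, hy.e, ← mul_assoc, hx.e, mul_assoc],
   by rw [mul_assoc, hy.f, ← mul_assoc, hx.f, mul_assoc],
   by rw [mul_assoc, hy.r, ← mul_assoc, hx.r, mul_assoc]⟩

omit [StarRing E] [DecidableEq ι] in
lemma Cz.sum {a b : ι → ι → E} {r : E} {x : ι → E} (hx : ∀ i, Cz a b r (x i)) :
    Cz a b r (∑ i, x i) :=
  ⟨by simp [Finset.mul_sum, Finset.sum_mul, (hx _).e],
   by simp [Finset.mul_sum, Finset.sum_mul, (hx _).f],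
   by simp [Finset.mul_sum, Finset.sum_mul, (hx _).r]⟩

omit [StarRing E] [DecidableEq ι] in
lemma Cz.e' {a b : ι → ι → E} {r x : E} (hx : Cz a b r x) (y : E) :
    x * (tr a * y) = tr a * (x * y) := by rw [← mul_assoc, hx.e, mul_assoc]
omit [StarRing E] [DecidableEq ι] in
lemma Cz.f' {a b : ι → ι → E} {r x : E} (hx : Cz a b r x) (y : E) :
    x * (tr b * y) = tr b * (x * y) := by rw [← mul_assoc, hx.f, mul_assoc]
omit [StarRing E] [DecidableEq ι] in
lemma Cz.r' {a b : ι → ι → E} {r x : E} (hx : Cz a b r x) (y : E) :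
    x * (r * y) = r * (x * y) := by rw [← mul_assoc, hx.r, mul_assoc]

namespace JH
variable {a b : ι → ι → E} {r : E} (h : JH a b r)
include h

lemma ca (i j : ι) : Cz a b r (a i j) := ⟨h.ae i j, h.af i j, h.ra i j⟩
lemma cb (i j : ι) : Cz a b r (b i j) := ⟨h.be i j, h.bf i j, h.rb i j⟩
lemma cX (i j : ι) : Cz a b r (jX a b i j) := Cz.sum fun _ => (h.ca _ _).mul (h.cb _ _)
lemma cY (i j : ι) : Cz a b r (jY a b i j) := Cz.sum fun _ => (h.ca _ _).mul (h.cb _ _)
lemma cF : Cz a b r (jF a b) := Cz.sum fun _ => Cz.sum fun _ => (h.ca _ _).mul (h.cb _ _)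
lemma fe' (y : E) : tr b * (tr a * y) = tr a * (tr b * y) := by
  rw [← mul_assoc, h.fe, mul_assoc]
lemma re' (y : E) : r * (tr a * y) = tr a * (r * y) := by rw [← mul_assoc, h.re, mul_assoc]
lemma rf' (y : E) : r * (tr b * y) = tr b * (r * y) := by rw [← mul_assoc, h.rf, mul_assoc]

lemma aX (i j k l : ι) : a i j * jX a b k l = tr a * (a i l * b k j) := by
  simp [jX, Finset.mul_sum, h.aa']
lemma aY (i j k l : ι) : a i j * jY a b k l = if j = k then tr a * jY a b i l else 0 := by
  split_ifs with hjk <;> simp [jY, Finset.mul_sum, h.aa', hjk]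
lemma bX (i j k l : ι) : b i j * jX a b k l = if j = k then tr b * jX a b i l else 0 := by
  split_ifs with hjk <;> simp [jX, Finset.mul_sum, h.ab', h.hb.mul, hjk, (h.ca _ _).f']
lemma bY (i j k l : ι) : b i j * jY a b k l = tr b * (a k j * b i l) := by
  simp [jY, Finset.mul_sum, h.ab', h.hb.mul, (h.ca _ _).f']
lemma Xa (i j k l : ι) : jX a b i j * a k l = if j = k then tr a * jX a b i l else 0 := by
  split_ifs with hjk <;> simp [jX, Finset.mul_sum, Finset.sum_mul, mul_assoc, h.ab, h.aa', hjk]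
lemma Xb (i j k l : ι) : jX a b i j * b k l = tr b * (a k j * b i l) := by
  simp [jX, Finset.sum_mul, mul_assoc, h.hb.mul, (h.ca _ _).f']
lemma Ya (i j k l : ι) : jY a b i j * a k l = tr a * (a i l * b k j) := by
  simp [jY, Finset.sum_mul, mul_assoc, h.ab, h.aa']
lemma Yb (i j k l : ι) : jY a b i j * b k l = if j = k then tr b * jY a b i l else 0 := by
  split_ifs with hjk <;>
    simp [jY, Finset.mul_sum, Finset.sum_mul, mul_assoc, h.hb.mul, hjk, (h.ca _ _).f']
lemma XX (i j k l : ι) : jX a b i j * jX a b k l = tr a * (tr b * (a k l * b i j)) := by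
  conv_lhs => rw [jX.eq_1 a b k l, Finset.mul_sum]
  simp only [← mul_assoc, h.Xa]
  simp [mul_assoc, h.Xb]
lemma YY (i j k l : ι) : jY a b i j * jY a b k l = tr a * (tr b * (a i j * b k l)) := by
  conv_lhs => rw [jY.eq_1 a b k l, Finset.mul_sum]
  simp only [← mul_assoc, h.Ya]
  simp [mul_assoc, h.hb.mul, (h.ca _ _).f']
lemma XY (i j k l : ι) :
    jX a b i j * jY a b k l = if j = k then tr a * (tr a * (tr b * b i l)) else 0 := by
  conv_lhs => rw [jY.eq_1 a b k l, Finset.mul_sum]
  simp only [← mul_assoc, h.Xa]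
  split_ifs with hjk
  · simp only [mul_assoc, h.Xb, ← Finset.mul_sum, ← Finset.sum_mul]
    rw [← h.fe' (b i l)]; rfl
  · simp
lemma YX (i j k l : ι) :
    jY a b i j * jX a b k l = if j = k then tr a * (tr b * (tr b * a i l)) else 0 := by
  conv_lhs => rw [jX.eq_1 a b k l, Finset.mul_sum]
  simp only [← mul_assoc, h.Ya]
  simp only [mul_assoc, h.hb.mul]
  split_ifs with hjk
  · simp only [← Finset.mul_sum]
    rw [(h.ca _ _).f', ← h.af]; rfl
  · simp
lemma aF (k l : ι) : a k l * jF a b = tr a * jY a b k l := by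
  simp [jF, jY, Finset.mul_sum, h.aa']
lemma bF (k l : ι) : b k l * jF a b = tr b * jX a b k l := by
  simp [jF, jX, Finset.mul_sum, h.ab', h.hb.mul, (h.ca _ _).f']
lemma Fb (k l : ι) : jF a b * b k l = tr b * jY a b k l := by
  simp [jF, jY, Finset.mul_sum, Finset.sum_mul, mul_assoc, h.hb.mul, (h.ca _ _).f']
lemma sumX : ∑ k, jX a b k k = jF a b := by rw [jF, Finset.sum_comm]; rfl
lemma sumY : ∑ k, jY a b k k = jF a b := rfl
lemma XF (k l : ι) : jX a b k l * jF a b = tr a * (tr a * (tr b * b k l)) := by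
  simp [← h.sumY, Finset.mul_sum, h.XY]
lemma YF (k l : ι) : jY a b k l * jF a b = tr a * (tr b * (tr b * a k l)) := by
  simp [← h.sumX, Finset.mul_sum, h.YX]
lemma FF : jF a b * jF a b = tr a * (tr a * (tr b * tr b)) := by
  conv_lhs => rw [← h.sumX, Finset.sum_mul, h.sumX]
  simp only [h.XF, ← Finset.mul_sum]; rfl
lemma starX (k l : ι) : star (jX a b k l) = jY a b l k := by
  simp [jX, jY, h.ha.star, h.hb.star, h.ab]
lemma starY (k l : ι) : star (jY a b k l) = jX a b l k := by rw [← h.starX, star_star]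
lemma starF : star (jF a b) = jF a b := by
  conv_lhs => rw [← h.sumX]
  simp [h.starX, h.sumY]

end JH

variable [Algebra ℂ E] [StarModule ℂ E]

/-- the join -/
def jP (a b : ι → ι → E) (r : E) (k l : ι) : E :=
  tr a * a k l + tr b * (r * (r * b k l)) + I • (r * jX a b k l) - I • (r * jY a b k l)

def jW (a b : ι → ι → E) (r : E) : E := r - I • jF a b

namespace JH
variable {a b : ι → ι → E} {r : E} (h : JH a b r)
include h

omit [StarModule ℂ E] in
lemma tr_jP : tr (jP a b r) = tr a * tr a + tr b * (tr b * (r * r)) := by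
  rw [tr]
  simp only [jP, Finset.sum_add_distrib, Finset.sum_sub_distrib, ← Finset.mul_sum,
    ← Finset.smul_sum, h.sumX, h.sumY, add_sub_cancel_right]
  rw [← tr, ← tr, h.rf, h.rf']

lemma oz : OZ (jP a b r) where
  star k l := by
    simp only [jP, star_add, star_sub, star_mul, star_smul, h.ha.star, h.hb.star, h.ha.star_tr,
      h.hb.star_tr, h.sr, h.starX, h.starY, (h.ca _ _).e, mul_assoc, (h.cb _ _).r', (h.cb _ _).f,
      h.rf', (h.cX _ _).r, (h.cY _ _).r, RCLike.star_def, conj_I, neg_smul]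
    abel
  mul i j k l := by
    rw [h.tr_jP]
    simp only [jP, mul_add, add_mul, mul_sub, sub_mul, smul_mul_assoc, mul_smul_comm, mul_assoc,
      (h.ca _ _).e', (h.ca _ _).f', (h.ca _ _).r', (h.cb _ _).e', (h.cb _ _).f', (h.cb _ _).r',
      (h.cX _ _).e', (h.cX _ _).f', (h.cX _ _).r', (h.cY _ _).e', (h.cY _ _).f', (h.cY _ _).r',
      h.ha.mul, h.hb.mul, h.ab, h.aX, h.aY, h.bX, h.bY, h.Xa, h.Xb, h.Ya, h.Yb, h.XX, h.XY, h.YX,
      h.YY, smul_add, smul_sub, smul_smul, I_mul_I]
    split_ifs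
    · simp only [h.fe', h.re', h.rf']
      module
    · simp only [h.fe', h.re', h.rf', mul_zero]
      module

omit [StarModule ℂ E] in
lemma top₁ {i : ι} {y : E} (hy : a i i * y = y) (hr : r * y = 0) : jP a b r i i * y = y := by
  simp only [jP, add_mul, sub_mul, smul_mul_assoc, mul_assoc, hy, h.ha.tr_top hy,
    ← (h.cb _ _).r', ← (h.cX _ _).r', ← (h.cY _ _).r', hr, mul_zero, smul_zero, add_zero, sub_zero]

omit [StarModule ℂ E] in
lemma top₂ {i : ι} {u : E} (hu : b i i * u = u) : jP a b r i i * (jW a b r * u) = jW a b r * u := by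
  have hf := h.hb.tr_top hu
  have h1 : jW a b r * u = r * u - I • (jY a b i i * u) := by
    rw [jW, sub_mul, smul_mul_assoc]
    congr 2
    conv_lhs => rw [← hu, ← mul_assoc, h.Fb, mul_assoc, ← (h.cY _ _).f', hf]
  have h2 : jP a b r i i * jW a b r = tr a * (r * a i i) + tr b * (r * (r * (r * b i i)))
      + I • (r * (r * jX a b i i)) - I • (r * (r * jY a b i i)) - I • (tr a * (tr a * jY a b i i))
      - I • (tr b * (tr b * (r * (r * jX a b i i)))) + tr a * (tr a * (tr b * (r * b i i)))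
      - tr a * (tr b * (tr b * (r * a i i))) := by
    simp only [jP, jW, mul_add, add_mul, mul_sub, sub_mul, smul_mul_assoc, mul_smul_comm,
      mul_assoc, (h.ca _ _).r, (h.cb _ _).r, (h.cX _ _).r, (h.cY _ _).r, h.aF, h.bF, h.XF, h.YF,
      smul_add, smul_sub, smul_smul, I_mul_I, h.fe', h.re', h.rf']
    module
  have hrr : ∀ y, r * (r * y) = y - tr a * (tr a * y) := fun y => by
    rw [← mul_assoc, h.rr, sub_mul, one_mul, mul_assoc]
  rw [← mul_assoc, h2, h1]
  simp only [add_mul, sub_mul, smul_mul_assoc, mul_assoc, hu, ← h.rf', ← (h.ca _ _).f',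
    ← (h.cX _ _).f', hf]
  rw [hrr (r * u), hrr (jY a b i i * u)]
  simp only [smul_sub]
  abel

lemma WW {u u' : E} (hu : tr b * u = u) :
    star (jW a b r * u') * (jW a b r * u) = star u' * u := by
  have h1 : star (jW a b r) * jW a b r = r * r + tr a * (tr a * (tr b * tr b)) := by
    simp only [jW, star_sub, star_smul, h.sr, h.starF, RCLike.star_def, conj_I, mul_sub, sub_mul,
      smul_mul_assoc, mul_smul_comm, h.FF, h.cF.r, smul_sub, smul_smul, neg_smul, neg_mul,
      smul_neg, I_mul_I]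
    module
  rw [star_mul, mul_assoc, ← mul_assoc (star (jW a b r)), h1, h.rr]
  simp only [add_mul, sub_mul, mul_assoc, hu, one_mul, sub_add_cancel]

end JH

end Vale.Agent.P101
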