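import Vale.Agent.P101.Sq

/-! Moving an almost constant element of a dimension drop algebra by a unitary. -/

namespace Vale.Agent.P101

open scoped CStarAlgebra unitInterval Matrix.Norms.L2Operator

theorem FH.transfer {M Q G' : Type*} [CStarAlgebra M] [CStarAlgebra Q] [CStarAlgebra G']
    {L R : Q →⋆ₐ[ℂ] M} {F G H : M} {S₀ S₁ S₁' T₀ T₁ : StarSubalgebra ℂ M}
    (h : FH L R F G H S₀ S₁ S₁' T₀ T₁) (h₀ : IsClosed (S₀ : Set M))
    (h₁ : IsClosed (S₁ : Set M)) (h₂ : IsClosed (T₀ : Set M)) (h₃ : IsClosed (T₁ : Set M))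
    (Λ : sqA S₀ S₁ T₀ T₁ →⋆ₐ[ℂ] G') (U : C(I, Q)) (hU : ∀ s, U s ∈ unitary Q) (h0 : U 0 = 1) :
    ∃ V ∈ unitary G', ∀ (g : C(I, Q)) (ε : ℝ), Commute G (L (g 0)) → F * L (g 0) = R (g 0) * F →
      Commute F (L (g 1)) → L (g 0) ∈ S₀ → L (g 1) ∈ S₁' → R (g 0) ∈ T₀ → R (g 1) ∈ T₁ →
      (∀ s, dist (ad (U s) (g 0)) (g s) ≤ ε) → ∃ Y₁ Y₂ : sqA S₀ S₁ T₀ T₁,
      (∀ t s, Y₁.1 (t, s) = ad (pw H t) (L (g t))) ∧ (∀ t s, Y₂.1 (t, s) = R (g s)) ∧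
      dist (ad V (Λ Y₁)) (Λ Y₂) ≤ 4 * ε := by
  obtain ⟨X, uX, x₀, x₁, x₂, x₃, hX⟩ := h.exists_X U hU h0
  haveI := sqA_closed h₀ h₁ h₂ h₃
  let X' : sqA S₀ S₁ T₀ T₁ := ⟨X, mem_sqA.2 fun s => ⟨x₀ s, x₁ s, x₂ s, x₃ s⟩⟩
  have uX' : X' ∈ unitary _ := ⟨Subtype.ext (ContinuousMap.ext fun x => (uX x).1),
    Subtype.ext (ContinuousMap.ext fun x => (uX x).2)⟩
  refine ⟨Λ X', Unitary.map_mem _ uX', fun g ε h1 h2 h3 h4 h5 h6 h7 hg => ?_⟩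
  have hL : Continuous L := map_continuous L
  have hR : Continuous R := map_continuous R
  refine ⟨⟨⟨fun z => ad (pw H z.1) (L (g z.1)), by unfold ad; fun_prop⟩,
    mem_sqA.2 fun s => ⟨by simpa [ad, pw_zero] using h4, by
      simpa [ad, pw_one, h.sH] using h.b₄ _ h5,
      mul_mem (mul_mem (pw_mem h.c₃ _) (h.c₁ _)) (star_mem (pw_mem h.c₃ _)),
      mul_mem (mul_mem (pw_mem h.d₃ _) (h.d₁ _)) (star_mem (pw_mem h.d₃ _))⟩⟩,
    ⟨⟨fun z => R (g z.2), by fun_prop⟩, mem_sqA.2 fun s => ⟨h.a₁ _, ?_, h6, h7⟩⟩,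
    fun _ _ => rfl, fun _ _ => rfl, ?_⟩
  · have := h.b₄ _ (h.b₁ (g s))
    rwa [(h.HR _).eq, mul_assoc, h.HH, mul_one] at this
  · have e : ∀ Y₁ Y₂, dist (ad (Λ X') (Λ Y₁)) (Λ Y₂) ≤ dist (ad X' Y₁) Y₂ := fun Y₁ Y₂ => by
      have e := map_ad Λ X' Y₁
      rw [← e]
      have e' := dist_map_le Λ (ad X' Y₁) Y₂
      exact e'
    refine (e _ _).trans ?_
    rw [Subtype.dist_eq, ContinuousMap.dist_le (by linarith [dist_nonneg.trans (hg 0)])]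
    exact fun z => hX g ε h1 h2 h3 hg z.1 z.2

section
variable {a b k l : Type} [Fintype a] [Fintype b] [Fintype k] [Fintype l] [DecidableEq a]
  [DecidableEq b] [DecidableEq k] [DecidableEq l]

def eL (a b k l : Type) : ((a × k) × (b × l)) × (a × b) ≃ (a × b) × ((k × l) × (a × b)) :=
  ⟨fun x => ((x.1.1.1, x.1.2.1), (x.1.1.2, x.1.2.2), x.2),
    fun y => (((y.1.1, y.2.1.1), y.1.2, y.2.1.2), y.2.2), fun _ => rfl, fun _ => rfl⟩

def fF (x : ((a × k) × (b × l)) × (a × b)) : ((a × k) × (b × l)) × (a × b) :=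
  (((x.2.1, x.1.1.2), x.1.2), x.1.1.1, x.2.2)

def fG (x : ((a × k) × (b × l)) × (a × b)) : ((a × k) × (b × l)) × (a × b) :=
  ((x.1.1, x.2.2, x.1.2.2), x.2.1, x.1.2.1)

omit [Fintype a] [Fintype b] [Fintype k] [Fintype l] [DecidableEq a]
  [DecidableEq b] [DecidableEq k] [DecidableEq l] in
lemma fF_inv : Function.Involutive (fF : _ → ((a × k) × (b × l)) × (a × b)) := fun _ => rfl

omit [Fintype a] [Fintype b] [Fintype k] [Fintype l] [DecidableEq a]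
  [DecidableEq b] [DecidableEq k] [DecidableEq l] in
lemma fG_inv : Function.Involutive (fG : _ → ((a × k) × (b × l)) × (a × b)) := fun _ => rfl

lemma fh [Nonempty a] [Nonempty b] [Nonempty k] [Nonempty l]
    {w : (a × k) × (b × l) → (a × k) × (b × l)} (hw : Function.Involutive w) :
    FH (ampHom (eL a b k l)) (ampHom (Equiv.prodComm _ _)) (pm fF) (pm fG) (pm (Prod.map w id))
      (AS (eS (Equiv.refl _) _)) (AS (eS (hw.toPerm.trans (Equiv.prodComm _ _)) _))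
      (AS (eS (Equiv.prodComm _ _) _)) (AS (eT₀ _ a b)) (AS (eT₁ _ a b)) := by
  have hw' : Function.Involutive (Prod.map w (id : a × b → a × b)) := fun x => Prod.ext (hw x.1) rfl
  have hA : ∀ {N α γ : Type} [Fintype N] [Fintype α] [Fintype γ] [DecidableEq N] [DecidableEq α]
      [DecidableEq γ] (e : N ≃ α × γ) (x : Matrix α α ℂ), ampHom e x = amp e x := fun _ _ => rfl
  refine
    { sF := star_pm fF_inv
      sG := star_pm fG_inv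
      sH := star_pm hw'
      FF := pm_pm fF_inv
      GG := pm_pm fG_inv
      HH := pm_pm hw'
      FG := by ext; simp [pm_mul, pm_apply]; rfl
      FGL := fun x => ?_
      HR := fun x => ?_
      a₁ := fun x => mem_AS_of ?_ ?_
      a₂ := mem_AS_of ?_ ?_
      a₃ := fun x => mem_AS_of ?_ ?_
      b₁ := fun x => mem_AS_of ?_ ?_
      b₂ := mem_AS_of ?_ ?_
      b₃ := fun x => mem_AS_of ?_ ?_
      b₄ := ?_
      c₁ := fun x => mem_AS_of ?_ ?_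
      c₂ := mem_AS_of ?_ ?_
      c₃ := mem_AS_of ?_ ?_
      d₁ := fun x => mem_AS_of ?_ ?_
      d₂ := mem_AS_of ?_ ?_
      d₃ := mem_AS_of ?_ ?_ }
  · have h1 : Function.Involutive (fun x : ((a × k) × (b × l)) × (a × b) => fG (fF x)) :=
      fun _ => rfl
    have h2 : (pm fF * pm fG : Matrix _ _ ℂ) = pm fun x : ((a × k) × (b × l)) × (a × b) =>
        fG (fF x) := by ext; simp [pm_mul, pm_apply]
    rw [h2, pm_mul, mul_pm h1]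
    ext ⟨⟨⟨i₁, k₁⟩, j₁, l₁⟩, m₁, n₁⟩ ⟨⟨⟨i₂, k₂⟩, j₂, l₂⟩, m₂, n₂⟩
    simp [hA, amp_apply, eL, fF, fG]
    congr 1; simp only [eq_iff_iff]; tauto
  · change _ * _ = _ * _
    rw [pm_mul, mul_pm hw']
    ext
    simp [hA, amp_apply, hw.eq_iff]
    congr
  any_goals
    intro i j c c'
    simp +contextual [hA, amp_apply, eL, fF, fG, eS, eT₀, eT₁, pm_mul, mul_pm fF_inv,
      mul_pm fG_inv, pm_apply, Prod.ext_iff]
  · tauto
  · tauto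
  · rintro _ ⟨x, rfl⟩
    refine ⟨x, ?_⟩
    rw [pm_mul, mul_pm hw']
    rfl

theorem exists_unitary [Nonempty a] [Nonempty b] [Nonempty k] [Nonempty l] {E G Z : Type*}
    [CStarAlgebra E] [CStarAlgebra G] [CStarAlgebra Z] (j : E →⋆ₐ[ℂ] G) (τ : Z →⋆ₐ[ℂ] G)
    (hc : ∀ x z, Commute (j x) (τ z)) (ι : Dd a b →⋆ₐ[ℂ] Z) (o : b × l ≃ Option (a × k))
    {i₀ : a × k} {φ : a × k → a × k → E} {v : Fin 1 → E} (H : Data i₀ φ v)
    (U : C(I, Matrix (a × b) (a × b) ℂ)) (hU : ∀ s, U s ∈ unitary _) (h0 : U 0 = 1) :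
    ∃ V ∈ unitary G, ∀ (g : Dd a b) (ε : ℝ), (∀ s, dist (ad (U s) (g.1 0)) (g.1 s) ≤ ε) →
      ∃ y, dist (ad V (j y)) (τ (ι g)) ≤ 4 * ε := by
  obtain ⟨h, a', b', m, hh, hs, hG⟩ := H.GA o
  obtain ⟨Γ, hΓ, hΓ'⟩ := exists_Gamma j τ hc hh hs hG (Classical.arbitrary _) i₀
  obtain ⟨Θ, hΘ, hΘ'⟩ := exists_Theta ι (Equiv.refl _)
    ((twist_invol o).toPerm.trans (Equiv.prodComm _ _)) (Classical.arbitrary _) i₀
    (Classical.arbitrary _)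
  have hF := fh (twist_invol o)
  obtain ⟨V, hV, hV'⟩ := hF.transfer (AS_closed _) (AS_closed _) (AS_closed _) (AS_closed _)
    (Γ.comp Θ) U hU h0
  refine ⟨V, hV, fun g ε hg => ?_⟩
  obtain ⟨⟨x, hx⟩, y, hy⟩ := g.2
  replace hx : g.1 0 = amp (Equiv.refl _) x := hx.symm
  replace hy : g.1 1 = amp (Equiv.prodComm _ _) y := hy.symm
  have hA : ∀ {N α γ : Type} [Fintype N] [Fintype α] [Fintype γ] [DecidableEq N] [DecidableEq α]
      [DecidableEq γ] (e : N ≃ α × γ) (x : Matrix α α ℂ), ampHom e x = amp e x := fun _ _ => rfl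
  refine (hV' g.1 ε ?_ ?_ ?_ (mem_AS_of ?_ ?_) (mem_AS_of ?_ ?_)
    (mem_AS_of ?_ ?_) (mem_AS_of ?_ ?_) hg).elim fun Y₁ ⟨Y₂, h1, h2, h3⟩ => ?_
  rotate_right
  · refine (hΓ' (Θ Y₁) (hΘ' Y₁ fun t => ?_)).imp fun z hz => ?_
    swap
    · rwa [← hz, ← hΓ _ _ (hΘ Y₂ g h2)]
    · have hW : pm (Prod.map (twist o) (id : a × b → a × b)) ∈ AS (Equiv.refl _) := by
        refine mem_AS_of ?_ ?_ <;> intro i j c c' <;> simp +contextual [pm_apply, Prod.ext_iff]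
      have hL : ampHom (eL a b k l) (g.1 t) ∈ AS (Equiv.refl _) := by
        refine mem_AS_of ?_ ?_ <;> intro i j c c' <;>
          simp +contextual [hA, amp_apply, eL, Prod.ext_iff]
      obtain ⟨w, hw⟩ := mul_mem (mul_mem (pw_mem hW t) hL) (star_mem (pw_mem hW t))
      exact ⟨w, fun s => (h1 t s).trans hw.symm⟩
  · change _ * _ = _ * _
    rw [pm_mul, mul_pm fG_inv, hx]
    ext ⟨⟨⟨i₁, k₁⟩, j₁, l₁⟩, m₁, n₁⟩ ⟨⟨⟨i₂, k₂⟩, j₂, l₂⟩, m₂, n₂⟩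
    simp [hA, amp_apply, eL, fG]
    grind
  · rw [pm_mul, mul_pm fF_inv, hx]
    ext ⟨⟨⟨i₁, k₁⟩, j₁, l₁⟩, m₁, n₁⟩ ⟨⟨⟨i₂, k₂⟩, j₂, l₂⟩, m₂, n₂⟩
    simp [hA, amp_apply, eL, fF]
    grind
  · change _ * _ = _ * _
    rw [pm_mul, mul_pm fF_inv, hy]
    ext ⟨⟨⟨i₁, k₁⟩, j₁, l₁⟩, m₁, n₁⟩ ⟨⟨⟨i₂, k₂⟩, j₂, l₂⟩, m₂, n₂⟩
    simp [hA, amp_apply, eL, fF]
    grind
  all_goals
    intro i j c c'
    simp +contextual [hA, amp_apply, eL, eS, eT₀, eT₁, hx, hy, Prod.ext_iff]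
  all_goals grind

end

end Vale.Agent.P101
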