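import Vale.Agent.P101.Ideal

/-! Pairwise orthogonal full elements. -/

namespace Vale.Agent.P101

open scoped CStarAlgebra

universe u

section one
variable {E : Type*} [CStarAlgebra E]

lemma cfc_mul_eq_zero {H p x : E} (hH : IsSelfAdjoint H) {τ ε : ℝ} (hε : 0 < ε)
    (hp : (H - algebraMap ℝ E τ) * p = p * x) (hx : ‖x‖ ≤ 2 * ε) {ψ : ℝ → ℝ} (hψ : Continuous ψ)
    (h0 : ∀ y, |y - τ| < 3 * ε → ψ y = 0) : cfc ψ H * p = 0 := by
  let r : ℝ → ℝ := fun y => (y - τ) / max ((y - τ) ^ 2) ((3 * ε) ^ 2)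
  have hr : Continuous r := Continuous.div (by fun_prop) (by fun_prop) fun y =>
    (lt_max_of_lt_right (by positivity)).ne'
  have hrn : ‖cfc r H‖ ≤ 1 / (3 * ε) := norm_cfc_le (by positivity) fun y _ => by
    have h3 : 0 < 3 * ε := by positivity
    have hm : 0 < max ((y - τ) ^ 2) ((3 * ε) ^ 2) := lt_max_of_lt_right (by positivity)
    rw [Real.norm_eq_abs, abs_div, abs_of_pos hm, div_le_div_iff₀ hm h3, one_mul]
    rcases le_total (|y - τ|) (3 * ε) with h | h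
    · exact le_max_of_le_right (by nlinarith)
    · exact le_max_of_le_left (by rw [← sq_abs]; nlinarith)
  have h1 : cfc ψ H = cfc r H * cfc ψ H * (H - algebraMap ℝ E τ) := by
    have : H - algebraMap ℝ E τ = cfc (fun y => y - τ) H := by
      rw [cfc_sub _ _ H (by fun_prop) (by fun_prop), cfc_id' ℝ H, cfc_const τ H]
    rw [this, ← cfc_mul _ _ H hr.continuousOn hψ.continuousOn,
      ← cfc_mul (fun x => r x * ψ x) (fun y => y - τ) H (hr.mul hψ).continuousOn (by fun_prop)]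
    refine cfc_congr fun y _ => ?_
    by_cases h : |y - τ| < 3 * ε
    · simp [h0 y h]
    · have h2 : (3 * ε) ^ 2 ≤ (y - τ) ^ 2 := by
        rw [← sq_abs (y - τ)]; exact pow_le_pow_left₀ (by positivity) (not_lt.1 h) 2
      have h3 : y - τ ≠ 0 := fun h4 => h (by rw [h4, abs_zero]; positivity)
      simp only [r, max_eq_left h2]
      field_simp
  have h2 : cfc ψ H * p = cfc r H * (cfc ψ H * p) * x := by
    conv_lhs => rw [h1, mul_assoc, hp]
    simp only [mul_assoc]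
  have h3 : ‖cfc ψ H * p‖ ≤ 1 / (3 * ε) * ‖cfc ψ H * p‖ * (2 * ε) := by
    conv_lhs => rw [h2]
    refine (norm_mul_le _ _).trans (mul_le_mul ((norm_mul_le _ _).trans ?_) hx (norm_nonneg _)
      (by positivity))
    exact mul_le_mul_of_nonneg_right hrn (norm_nonneg _)
  have h4 : 1 / (3 * ε) * ‖cfc ψ H * p‖ * (2 * ε) = 2 / 3 * ‖cfc ψ H * p‖ := by field_simp
  rw [h4] at h3
  exact norm_le_zero_iff.1 (by linarith)

/-- tent function -/
def bump (s ε : ℝ) (y : ℝ) : ℝ := max (ε - |y - s|) 0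

lemma bump_cont (s ε : ℝ) : Continuous (bump s ε) := by unfold bump; fun_prop

lemma bump_loc {a : E} (ha : IsSelfAdjoint a) (s : ℝ) {ε : ℝ} (hε : 0 < ε) : ∃ f : ℝ → ℝ,
    ‖cfc f a‖ ≤ ε ∧ (a - algebraMap ℝ E s) * cfc (bump s ε) a = cfc (bump s ε) a * cfc f a := by
  let cl : ℝ → ℝ := fun y => max (-ε) (min (y - s) ε)
  have hcl : Continuous cl := by fun_prop
  refine ⟨cl, norm_cfc_le hε.le fun s _ => abs_le.2 ⟨le_max_left _ _,
    max_le (by linarith) (min_le_right _ _)⟩, ?_⟩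
  have : a - algebraMap ℝ E s = cfc (fun y => y - s) a := by
    rw [cfc_sub _ _ a (by fun_prop) (by fun_prop), cfc_id' ℝ a, cfc_const s a]
  rw [this, ← cfc_mul _ _ a (by fun_prop) (bump_cont s ε).continuousOn,
    ← cfc_mul _ _ a (bump_cont s ε).continuousOn hcl.continuousOn]
  refine cfc_congr fun y _ => ?_
  rcases le_total (|y - s|) ε with h | h
  · rw [abs_le] at h
    simp only [cl, min_eq_left h.2, max_eq_right h.1, mul_comm]
  · simp [bump, max_eq_right (sub_nonpos.2 h)]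

lemma sum_mem_Sp {a b : E} (ha : IsSelfAdjoint a) (hb : IsSelfAdjoint b) (hab : Commute a b)
    {I : TwoSidedIdeal E} {s t : ℝ}
    (h : ∀ ε > 0, cfc (bump s ε) a * cfc (bump t ε) b ∉ I) : s + t ∈ Sp I (a + b) := by
  intro g hg hg0 hgI
  obtain ⟨η, hη, hgη⟩ := Metric.continuous_iff.1 hg (s + t) (|g (s + t)| / 2)
    (by positivity)
  have hm : 0 < |g (s + t)| / 2 := by positivity
  set m := |g (s + t)| / 2 with hmdef
  have hε : 0 < η / 3 := by positivity
  let k : ℝ → ℝ := fun y => g y / max (g y ^ 2) (m ^ 2)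
  have hk : Continuous k := Continuous.div hg (by fun_prop) fun y =>
    (lt_max_of_lt_right (by positivity)).ne'
  obtain ⟨f₁, h₁, e₁⟩ := bump_loc ha s hε
  obtain ⟨f₂, h₂, e₂⟩ := bump_loc hb t hε
  have key := cfc_mul_eq_zero (H := a + b) (ha.add hb) (τ := s + t) hε
    (p := cfc (bump s (η / 3)) a * cfc (bump t (η / 3)) b) (x := cfc f₁ a + cfc f₂ b) (by
      have c1 : Commute (cfc (bump s (η / 3)) a) (b - algebraMap ℝ E t) :=
        (hab.sub_right (Algebra.commutes t a).symm).cfc_real _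
      have c2 : Commute (cfc f₁ a) (cfc (bump t (η / 3)) b) :=
        ((hab.symm.cfc_real _).symm.cfc_real _)
      have : a + b - algebraMap ℝ E (s + t) = (a - algebraMap ℝ E s) + (b - algebraMap ℝ E t) := by
        rw [map_add]; abel
      rw [this, add_mul, ← mul_assoc, e₁, ← mul_assoc, ← c1.eq, mul_assoc _ (b - _), e₂,
        mul_assoc, c2.eq]
      simp only [mul_add, mul_assoc])
    ((norm_add_le _ _).trans (by linarith)) (ψ := fun y => 1 - k y * g y) (by fun_prop)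
    (fun y hy => by
      have h3 := hgη y (by rw [Real.dist_eq]; linarith)
      rw [Real.dist_eq] at h3
      have h4 : m ≤ |g y| := by
        have := abs_sub_abs_le_abs_sub (g (s + t)) (g y)
        rw [abs_sub_comm] at this
        linarith
      have h5 : m ^ 2 ≤ g y ^ 2 := by rw [← sq_abs (g y)]; exact pow_le_pow_left₀ hm.le h4 2
      have h6 : g y ≠ 0 := abs_pos.1 (hm.trans_le h4)
      simp only [k, max_eq_left h5]
      field_simp
      ring)
  rw [cfc_sub _ _ (a + b) (by fun_prop) (by fun_prop), cfc_const_one ℝ (a + b),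
    cfc_mul _ _ (a + b) hk.continuousOn hg.continuousOn, sub_mul, one_mul, sub_eq_zero] at key
  refine h _ hε ?_
  rw [key]
  exact I.mul_mem_right _ _ (I.mul_mem_left _ _ hgI)

/-- the spectrum modulo any proper ideal contains a `D`-chain of length `d` -/
def Ch (D d : ℝ) (h : E) : Prop := IsSelfAdjoint h ∧ ∀ I : TwoSidedIdeal E, (1 : E) ∉ I →
  ∃ a ∈ Sp I h, ∃ b ∈ Sp I h, d ≤ b - a ∧ ∀ r, a ≤ r → r ≤ b → ∃ t ∈ Sp I h, r ≤ t ∧ t ≤ r + D

lemma NC.gap {h : E} (hh : NC [h]) : ∃ c > 0, ∀ I : TwoSidedIdeal E, (1 : E) ∉ I →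
    ∃ s ∈ Sp I h, ∃ t ∈ Sp I h, c ≤ t - s ∧ t - s ≤ 2 * ‖h‖ := by
  have hsa : IsSelfAdjoint h := hh.1 h (by simp)
  have key : ∀ u ∈ TwoSidedIdeal.span (comms [h]), ∃ C : ℝ, 0 ≤ C ∧ ∀ (x : E) (t : ℝ)
      (I : TwoSidedIdeal E), h - algebraMap ℝ E t - x ∈ I →
      ∃ w, ‖w‖ ≤ C * ‖x‖ ∧ u - w ∈ I := by
    intro u hu
    induction hu using TwoSidedIdeal.span_induction with
    | mem y hy =>
      obtain ⟨a, ha, d, rfl⟩ := hy
      rw [List.mem_singleton] at ha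
      subst ha
      refine ⟨2 * ‖d‖, by positivity, fun x t I hI => ⟨x * d - d * x, ?_, ?_⟩⟩
      · have := norm_sub_le (x * d) (d * x)
        have := norm_mul_le x d
        have := norm_mul_le d x
        linarith
      · convert I.sub_mem (I.mul_mem_right _ d hI) (I.mul_mem_left d _ hI) using 1
        simp only [sub_mul, mul_sub, Algebra.commutes t d]
        abel
    | zero => exact ⟨0, le_rfl, fun x t I _ => ⟨0, by simp, by simp⟩⟩
    | add y z _ _ hy hz =>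
      obtain ⟨C, h0, hC⟩ := hy
      obtain ⟨C', h0', hC'⟩ := hz
      refine ⟨C + C', by positivity, fun x t I hI => ?_⟩
      obtain ⟨w, h1, h2⟩ := hC x t I hI
      obtain ⟨w', h1', h2'⟩ := hC' x t I hI
      refine ⟨w + w', (norm_add_le _ _).trans (by linarith), ?_⟩
      convert I.add_mem h2 h2' using 1; abel
    | neg y _ hy =>
      obtain ⟨C, h0, hC⟩ := hy
      refine ⟨C, h0, fun x t I hI => ?_⟩
      obtain ⟨w, h1, h2⟩ := hC x t I hI
      refine ⟨-w, by rwa [norm_neg], ?_⟩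
      convert I.neg_mem h2 using 1; abel
    | left_absorb c y _ hy =>
      obtain ⟨C, h0, hC⟩ := hy
      refine ⟨‖c‖ * C, by positivity, fun x t I hI => ?_⟩
      obtain ⟨w, h1, h2⟩ := hC x t I hI
      refine ⟨c * w, (norm_mul_le _ _).trans ?_, by rw [← mul_sub]; exact I.mul_mem_left _ _ h2⟩
      rw [mul_assoc]; exact mul_le_mul_of_nonneg_left h1 (norm_nonneg _)
    | right_absorb c y _ hy =>
      obtain ⟨C, h0, hC⟩ := hy
      refine ⟨‖c‖ * C, by positivity, fun x t I hI => ?_⟩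
      obtain ⟨w, h1, h2⟩ := hC x t I hI
      refine ⟨w * c, (norm_mul_le _ _).trans ?_, by rw [← sub_mul]; exact I.mul_mem_right _ _ h2⟩
      rw [mul_comm, mul_assoc]; exact mul_le_mul_of_nonneg_left h1 (norm_nonneg _)
  obtain ⟨C, h0, hC⟩ := key 1 hh.2.span
  have hc : 0 < 1 / (C + 1) := by positivity
  refine ⟨1 / (C + 1), hc, fun I hI => ?_⟩
  obtain ⟨t, ht⟩ := Sp_nonempty hI hsa
  have : ∃ s ∈ Sp I h, 1 / (C + 1) ≤ |s - t| := by
    by_contra hn
    push Not at hn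
    obtain ⟨x, hx, hx'⟩ := approx_of_Sp hsa hc hn
    obtain ⟨w, h1, h2⟩ := hC x t I hx'
    refine hI (one_mem_of_small h2 (h1.trans_lt ((mul_le_mul_of_nonneg_left hx h0).trans_lt ?_)))
    rw [mul_one_div, div_lt_one (by positivity)]
    linarith
  obtain ⟨s, hs, hst⟩ := this
  have h1 := Sp_subset hs
  have h2 := Sp_subset ht
  rcases le_total s t with h3 | h3
  · rw [abs_sub_comm, abs_of_nonneg (sub_nonneg.2 h3)] at hst
    exact ⟨s, hs, t, ht, hst, by linarith [h1.1, h2.2]⟩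
  · rw [abs_of_nonneg (sub_nonneg.2 h3)] at hst
    exact ⟨t, ht, s, hs, hst, by linarith [h1.2, h2.1]⟩

lemma Ch.orth {D : ℝ} (hD : 0 < D) {n : ℕ} (hn : 0 < n) {h : E} (hh : Ch D (2 * D * n + D) h) :
    ∃ e : Fin n → E, (∀ i, IsSelfAdjoint (e i)) ∧ (∀ i j, i ≠ j → e i * e j = 0) ∧
      ∀ i, Full {e i} := by
  let C : Fin n → Set ℝ := fun i => Set.range fun k : ℤ => 2 * D * (n * k + i)
  let g : Fin n → ℝ → ℝ := fun i x => max (D - Metric.infDist x (C i)) 0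
  have hg : ∀ i, Continuous (g i) := fun i =>
    (continuous_const.sub (Metric.continuous_infDist_pt _)).max continuous_const
  refine ⟨fun i => cfc (g i) h, fun i => IsSelfAdjoint.cfc, fun i j hij => ?_, fun i I hI => ?_⟩
  · rw [← cfc_mul _ _ h (hg i).continuousOn (hg j).continuousOn, cfc_congr (g := 0) ?_]
    · simp
    intro x _
    by_contra hne
    have hpos : ∀ i, g i x ≠ 0 → ∃ k : ℤ, |x - 2 * D * (n * k + i)| < D := fun i hi => by
      have : Metric.infDist x (C i) < D := by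
        by_contra hn
        exact hi (max_eq_right (sub_nonpos.2 (not_lt.1 hn)))
      obtain ⟨_, ⟨k, rfl⟩, hk⟩ := (Metric.infDist_lt_iff (Set.range_nonempty _)).1 this
      exact ⟨k, hk⟩
    obtain ⟨k, hk⟩ := hpos i (left_ne_zero_of_mul hne)
    obtain ⟨l, hl⟩ := hpos j (right_ne_zero_of_mul hne)
    rw [abs_lt] at hk hl
    have h1 : (n : ℝ) * k + i < n * l + j + 1 := by nlinarith
    have h2 : (n : ℝ) * l + j < n * k + i + 1 := by nlinarith
    have h3 : (n : ℤ) * k + (i : ℕ) < n * l + (j : ℕ) + 1 := by exact_mod_cast h1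
    have h4 : (n : ℤ) * l + (j : ℕ) < n * k + (i : ℕ) + 1 := by exact_mod_cast h2
    have h5 : (n : ℤ) * k + (i : ℕ) = n * l + (j : ℕ) := by omega
    have hi : ((i : ℕ) : ℤ) < n := by exact_mod_cast i.2
    have hj : ((j : ℕ) : ℤ) < n := by exact_mod_cast j.2
    have hkl : k = l := by
      by_contra hkl
      rcases lt_or_gt_of_ne hkl with h6 | h6
      · have : (n : ℤ) * (k + 1) ≤ n * l := mul_le_mul_of_nonneg_left h6 (by positivity)
        have := Int.natCast_nonneg (j : ℕ)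
        linarith
      · have : (n : ℤ) * (l + 1) ≤ n * k := mul_le_mul_of_nonneg_left h6 (by positivity)
        have := Int.natCast_nonneg (i : ℕ)
        linarith
    subst hkl
    exact hij (Fin.ext (by omega))
  · by_contra h1
    obtain ⟨a, -, b, -, hab, hch⟩ := hh.2 I h1
    have hL : 0 < 2 * D * n := by positivity
    let k : ℤ := ⌈(a + D / 2 - 2 * D * i) / (2 * D * n)⌉
    have k1 : (a + D / 2 - 2 * D * i) / (2 * D * n) ≤ k := Int.le_ceil _
    have k2 : (k : ℝ) < (a + D / 2 - 2 * D * i) / (2 * D * n) + 1 := Int.ceil_lt_add_one _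
    rw [div_le_iff₀ hL] at k1
    rw [← sub_lt_iff_lt_add, lt_div_iff₀ hL] at k2
    obtain ⟨t, ht, t1, t2⟩ := hch (2 * D * (n * k + i) - D / 2) (by nlinarith) (by nlinarith)
    refine ht (g i) (hg i) (lt_max_of_lt_left ?_).ne' (hI rfl)
    have : Metric.infDist t (C i) ≤ dist t (2 * D * (n * k + i)) :=
      Metric.infDist_le_dist_of_mem ⟨k, rfl⟩
    have h3 : dist t (2 * D * (n * k + i)) ≤ D / 2 := by
      rw [Real.dist_eq, abs_le]; constructor <;> linarith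
    linarith

end one

lemma Ch.step {E₁ E₂ E : Type*} [CStarAlgebra E₁] [CStarAlgebra E₂] [CStarAlgebra E]
    {j₁ : E₁ →⋆ₐ[ℂ] E} {j₂ : E₂ →⋆ₐ[ℂ] E} (hc : ∀ x y, Commute (j₁ x) (j₂ y)) {D d c : ℝ}
    {h₁ : E₁} (H₁ : Ch D d h₁) {h₂ : E₂} (hs₂ : IsSelfAdjoint h₂)
    (H₂ : ∀ I : TwoSidedIdeal E₂, (1 : E₂) ∉ I →
      ∃ s ∈ Sp I h₂, ∃ t ∈ Sp I h₂, c ≤ t - s ∧ t - s ≤ D) : Ch D (d + c) (j₁ h₁ + j₂ h₂) := by
  refine ⟨(H₁.1.map j₁).add (hs₂.map j₂), fun I hI => ?_⟩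
  obtain ⟨P₁, P₂, p₁, p₂, hP⟩ := prime_pair hc I hI
  have hsum : ∀ s ∈ Sp P₁ h₁, ∀ t ∈ Sp P₂ h₂, s + t ∈ Sp I (j₁ h₁ + j₂ h₂) := fun s hs t ht => by
    have := H₁.1
    refine sum_mem_Sp (H₁.1.map j₁) (hs₂.map j₂) (hc _ _) fun ε hε => ?_
    rw [← j₁.map_cfc _ h₁ (bump_cont s ε).continuousOn (map_continuous j₁) H₁.1 (H₁.1.map j₁),
      ← j₂.map_cfc _ h₂ (bump_cont t ε).continuousOn (map_continuous j₂) hs₂ (hs₂.map j₂)]
    exact hP _ (hs _ (bump_cont s ε) (by simp [bump, hε.le, hε.ne'])) _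
      (ht _ (bump_cont t ε) (by simp [bump, hε.le, hε.ne']))
  obtain ⟨a, ha, b, hb, hab, hch⟩ := H₁.2 P₁ p₁
  obtain ⟨s, hs, t, ht, h1, h2⟩ := H₂ P₂ p₂
  refine ⟨a + s, hsum a ha s hs, b + t, hsum b hb t ht, by linarith, fun r r1 r2 => ?_⟩
  rcases le_total r (b + s) with h3 | h3
  · obtain ⟨y, hy, y1, y2⟩ := hch (r - s) (by linarith) (by linarith)
    exact ⟨y + s, hsum y hy s hs, by linarith, by linarith⟩
  · exact ⟨b + t, hsum b hb t ht, r2, by linarith⟩

theorem exists_orth {𝒞 : Set CAlg.{u}} (hP : Pair 𝒞) {E₀ : CAlg.{u}} (h₀ : E₀ ∈ 𝒞)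
    (hE : IsEmpty (E₀.E →⋆ₐ[ℂ] ℂ)) (n : ℕ) : ∃ E ∈ 𝒞, ∃ e : Fin n → E.E,
      (∀ i, IsSelfAdjoint (e i)) ∧ (∀ i j, i ≠ j → e i * e j = 0) ∧ ∀ i, Full {e i} := by
  rcases n.eq_zero_or_pos with rfl | hn
  · exact ⟨E₀, h₀, Fin.elim0, by simp, by simp, by simp⟩
  obtain ⟨E, hE, h, hh⟩ := exists_single hP h₀ hE
  obtain ⟨c, hc, H⟩ := hh.gap
  have hsa : IsSelfAdjoint h := hh.1 h (by simp)
  set D := 2 * ‖h‖ + 1
  have hD : 0 < D := by positivity
  have key : ∀ m : ℕ, ∃ E' ∈ 𝒞, ∃ h' : E'.E, Ch D (m * c) h' := by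
    intro m
    induction m with
    | zero =>
      refine ⟨E, hE, h, hsa, fun I hI => ?_⟩
      obtain ⟨s, hs, -⟩ := H I hI
      exact ⟨s, hs, s, hs, by simp, fun r r1 r2 => ⟨s, hs, r2, by linarith⟩⟩
    | succ m ih =>
      obtain ⟨E', hE', h', H'⟩ := ih
      obtain ⟨E'', hE'', j₁, j₂, hj⟩ := hP E' hE' E hE
      refine ⟨E'', hE'', j₁ h' + j₂ h, ?_⟩
      rw [Nat.cast_succ, add_mul, one_mul]
      refine H'.step hj hsa fun I hI => ?_
      obtain ⟨s, hs, t, ht, h1, h2⟩ := H I hI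
      exact ⟨s, hs, t, ht, h1, by linarith⟩
  obtain ⟨m, hm⟩ := exists_nat_ge ((2 * D * n + D) / c)
  rw [div_le_iff₀ hc] at hm
  obtain ⟨E', hE', h', H'⟩ := key m
  refine ⟨E', hE', Ch.orth hD hn (h := h') ⟨H'.1, fun I hI => ?_⟩⟩
  obtain ⟨a, ha, b, hb, hab, hch⟩ := H'.2 I hI
  exact ⟨a, ha, b, hb, hm.trans hab, hch⟩

end Vale.Agent.P101
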