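import Vale.Agent.P101.Move

/-! Pulling unitaries back from the central sequence algebra. -/

namespace Vale.Agent.P101

open scoped CStarAlgebra unitInterval
open Filter Topology

lemma exists_near_unitary {B : Type*} [CStarAlgebra B] {x : B} {δ : ℝ} (hδ0 : 0 ≤ δ) (hδ : δ < 1)
    (h1 : ‖1 - star x * x‖ ≤ δ) (h2 : ‖1 - x * star x‖ ≤ δ) : ∃ v ∈ unitary B, ‖v - x‖ ≤ δ := by
  let := CStarAlgebra.spectralOrder B
  let := CStarAlgebra.spectralOrderedRing B
  have ha : IsSelfAdjoint (star x * x) := IsSelfAdjoint.star_mul_self x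
  have hsp : ∀ t ∈ spectrum ℝ (star x * x), 0 ≤ t := fun t ht =>
    spectrum_nonneg_of_nonneg (star_mul_self_nonneg x) ht
  set μ := cfc (fun t : ℝ => √t) (star x * x) with hμ
  have hμμ : μ * μ = star x * x := by
    rw [cfc_sqrt_sq ha (f := fun t => t) continuous_id hsp, cfc_id' ℝ _]
  have hμs : star μ = μ := IsSelfAdjoint.cfc.star_eq
  have hn : ‖1 - μ‖ ≤ δ := by
    rw [hμ, ← cfc_const_one ℝ (star x * x), ← cfc_sub _ _ _ (by fun_prop) (by fun_prop)]
    refine norm_cfc_le hδ0 fun t ht => ?_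
    have h3 := norm_apply_le_norm_cfc (fun t : ℝ => 1 - t) (star x * x) ht
    rw [cfc_sub _ _ _ (by fun_prop) (by fun_prop), cfc_const_one ℝ _, cfc_id' ℝ _] at h3
    refine le_trans ?_ (h3.trans h1)
    have h4 : 1 - t = (1 - √t) * (1 + √t) := by nlinarith [Real.mul_self_sqrt (hsp t ht)]
    rw [h4, norm_mul]
    refine le_mul_of_one_le_right (norm_nonneg _) ?_
    rw [Real.norm_of_nonneg (by positivity)]
    linarith [Real.sqrt_nonneg t]
  obtain ⟨m, hm⟩ := isUnit_one_sub_of_norm_lt_one (hn.trans_lt hδ)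
  obtain ⟨r, hr⟩ := isUnit_one_sub_of_norm_lt_one (h2.trans_lt hδ)
  rw [sub_sub_cancel] at hm hr
  have hm' : star (↑m⁻¹ : B) = ↑m⁻¹ := by
    rw [← Units.coe_star_inv]; congr 2; ext; simpa [hm] using hμs
  have h5 : star (x * ↑m⁻¹) * (x * ↑m⁻¹) = 1 := by
    rw [star_mul, hm', mul_assoc, ← mul_assoc (star x), ← hμμ, ← hm]; simp
  have h6 : x * ↑m⁻¹ * (m * star x * ↑r⁻¹) = 1 := by
    rw [mul_assoc (m : B), mul_assoc, Units.inv_mul_cancel_left, ← mul_assoc, ← hr]; simp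
  have hv : x * ↑m⁻¹ ∈ unitary B := ⟨h5, by rw [left_inv_eq_right_inv h5 h6, h6]⟩
  refine ⟨_, hv, ?_⟩
  have : x * ↑m⁻¹ - x = x * ↑m⁻¹ * (1 - μ) := by rw [← hm, mul_sub]; simp
  rwa [this, CStarRing.norm_mem_unitary_mul _ hv]

lemma dist_ad_le {B : Type*} [CStarAlgebra B] {v x y : B} {δ C : ℝ} (hv : v ∈ unitary B)
    (hδ : δ ≤ 1) (h : ‖v - x‖ ≤ δ) (hy : ‖y‖ ≤ C) : dist (ad v y) (ad x y) ≤ 3 * C * δ := by
  have h1 : ‖v‖ ≤ 1 := by simpa using (CStarRing.norm_mem_unitary_mul 1 hv).trans_le norm_one_le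
  have h2 : ‖x‖ ≤ 2 := by
    have := norm_sub_le v (v - x)
    rw [sub_sub_cancel] at this
    linarith
  have h3 : ad v y - ad x y = (v - x) * y * star v + x * y * star (v - x) := by
    simp only [ad, star_sub]; noncomm_ring
  have h4 := (norm_nonneg _).trans h
  have h5 := (norm_nonneg _).trans hy
  rw [dist_eq_norm, h3]
  calc _ ≤ ‖v - x‖ * ‖y‖ * ‖v‖ + ‖x‖ * ‖y‖ * ‖v - x‖ := norm_add_le_of_le
        (by simpa using norm_mul₃_le (a := v - x) (b := y) (c := star v))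
        (by simpa only [norm_star] using norm_mul₃_le (a := x) (b := y) (c := star (v - x)))
    _ ≤ δ * C * 1 + 2 * C * δ := by gcongr
    _ = _ := by ring

theorem pullback {A B Z E G : Type*} [CStarAlgebra A] [CStarAlgebra B] [CStarAlgebra Z]
    [CStarAlgebra E] [CStarAlgebra G] {φ : A →⋆ₐ[ℂ] B} {ψ : Z →⋆ₐ[ℂ] B} {J : Type}
    {U : Ultrafilter J} {ιE : cen (StarAlgHom.id ℂ A) U →⋆ₐ[ℂ] E} (hE : IsModel ιE)
    {ιG : cen (φ.comp (StarAlgHom.id ℂ A)) U →⋆ₐ[ℂ] G} (hG : IsModel ιG) {j : E →⋆ₐ[ℂ] G}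
    (hj : ∀ x, j (ιE x) = ιG (pull φ tendsto_id x))
    {c : Z → cen (φ.comp (StarAlgHom.id ℂ A)) U} (hc : ∀ z i, (c z : J → B) i = ψ z) {V : G}
    (hV : V ∈ unitary G) (FA : Finset A) (FZ : Finset Z) {ε : ℝ} (hε : 0 < ε)
    (h : ∀ z ∈ FZ, ∃ y, dist (ad V (j y)) (ιG (c z)) ≤ ε) : ∃ v ∈ unitary B,
      (∀ a ∈ FA, dist (ad v (φ a)) (φ a) ≤ ε) ∧ ∀ z ∈ FZ, ∃ a, dist (ad v (φ a)) (ψ z) ≤ 3 * ε := by
  have hjc : Continuous j := map_continuous j
  have h1 : ∀ z ∈ FZ, ∃ w, dist (ad V (j (ιE w))) (ιG (c z)) < 2 * ε := fun z hz => by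
    obtain ⟨y, hy⟩ := h z hz
    exact hE.dense.exists_mem_open (s := {y | dist (ad V (j y)) (ιG (c z)) < 2 * ε})
      (isOpen_lt (by unfold ad; fun_prop) continuous_const) ⟨y, hy.trans_lt (by linarith)⟩
  choose! w hw using h1
  choose C hC using fun z => (w z).2.1
  set D := ∑ z ∈ FZ, |C z| + ∑ a ∈ FA, ‖a‖
  have hD1 : ∀ z ∈ FZ, ∀ i, ‖φ ((w z : J → A) i)‖ ≤ D := fun z hz i =>
    (NonUnitalStarAlgHom.norm_apply_le φ _).trans ((hC z i).trans ((le_abs_self _).trans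
      ((Finset.single_le_sum (fun z _ => abs_nonneg (C z)) hz).trans
        (le_add_of_nonneg_right (by positivity)))))
  have hD2 : ∀ a ∈ FA, ‖φ a‖ ≤ D := fun a ha => (NonUnitalStarAlgHom.norm_apply_le φ _).trans
    ((Finset.single_le_sum (fun a _ => norm_nonneg a) ha).trans
      (le_add_of_nonneg_left (by positivity)))
  have hD : 0 ≤ D := by positivity
  obtain ⟨δ, hδ0, hδ1, hδ⟩ : ∃ δ : ℝ, 0 < δ ∧ δ < 1 ∧ 3 * D * δ ≤ ε / 2 := by
    obtain ⟨δ, h1, h2⟩ := exists_pos_mul_lt (half_pos hε) (3 * D)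
    exact ⟨min δ (1 / 2), by positivity, (min_le_right _ _).trans_lt (by norm_num),
      (mul_le_mul_of_nonneg_left (min_le_left _ _) (by positivity)).trans h2.le⟩
  obtain ⟨x, hx1, hx2, hx3⟩ := hG.dense.exists_mem_open (s := {X | ‖1 - star X * X‖ < δ} ∩
    ({X | ‖1 - X * star X‖ < δ} ∩ ⋂ z ∈ FZ, {X | dist (ad X (j (ιE (w z)))) (ιG (c z)) < 2 * ε}))
    ((isOpen_lt (by fun_prop) continuous_const).inter ((isOpen_lt (by fun_prop)
      continuous_const).inter (isOpen_biInter_finset fun z _ =>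
        isOpen_lt (by unfold ad; fun_prop) continuous_const)))
    ⟨V, by simpa [hV.1] using hδ0, by simpa [hV.2] using hδ0, Set.mem_iInter₂.2 hw⟩
  have e1 := (hG.tend (1 - star x * x)).eventually_lt_const (by simpa [map_star] using hx1)
  have e2 := (hG.tend (1 - x * star x)).eventually_lt_const (by simpa [map_star] using hx2)
  have e3 : ∀ᶠ i in U, ∀ z ∈ FZ, dist (ad ((x : J → B) i) (φ ((w z : J → A) i))) (ψ z) < 2 * ε :=
    (eventually_all_finset FZ).2 fun z hz => by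
      have := (hG.tend (x * pull φ tendsto_id (w z) * star x - c z)).eventually_lt_const (by
        simpa [map_star, hj, ad, dist_eq_norm] using Set.mem_iInter₂.1 hx3 z hz)
      refine this.mono fun i hi => ?_
      rw [dist_eq_norm, ← hc z i]
      exact hi
  have e4 : ∀ᶠ i in U, ∀ a ∈ FA, ‖(x : J → B) i * φ a - φ a * (x : J → B) i‖ < ε / 2 :=
    (eventually_all_finset FA).2 fun a _ =>
      (x.2.2 a).norm.eventually_lt_const (by simpa using hε)
  obtain ⟨i, h1, h2, h3, h4⟩ := (e1.and (e2.and (e3.and e4))).exists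
  obtain ⟨v, hv, hvx⟩ := exists_near_unitary (x := (x : J → B) i) hδ0.le hδ1 h1.le h2.le
  refine ⟨v, hv, fun a ha => ?_, fun z hz => ⟨(w z : J → A) i, ?_⟩⟩
  · have h5 : ad v (φ a) - φ a = ((v - (x : J → B) i) * φ a - φ a * (v - (x : J → B) i) +
        ((x : J → B) i * φ a - φ a * (x : J → B) i)) * star v := by
      rw [ad, show ∀ X, (v - X) * φ a - φ a * (v - X) + (X * φ a - φ a * X) = v * φ a - φ a * v
        from fun X => by noncomm_ring, sub_mul, mul_assoc (φ a), hv.2, mul_one]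
    rw [dist_eq_norm, h5, CStarRing.norm_mul_mem_unitary _ (Unitary.star_mem hv)]
    have h6 := norm_mul_le_of_le hvx (hD2 a ha)
    have h7 := norm_mul_le_of_le (hD2 a ha) hvx
    refine (norm_add_le_of_le (norm_sub_le_of_le h6 h7) (h4 a ha).le).trans ?_
    nlinarith [mul_nonneg hD hδ0.le]
  · linarith [dist_triangle (ad v (φ ((w z : J → A) i))) (ad ((x : J → B) i)
      (φ ((w z : J → A) i))) (ψ z), dist_ad_le hv hδ1.le hvx (hD1 z hz i), h3 z hz]

end Vale.Agent.P101
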