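import Vale.Agent.P101.Orth
import Vale.Agent.P101.Join

/-! Construction of an order zero system whose defect is absorbed by one element. -/

namespace Vale.Agent.P101

open scoped CStarAlgebra
open Complex

universe u

section basic
variable {E : Type*} [CStarAlgebra E]

lemma eq_zero_of_star_mul {x : E} (h : star x * x = 0) : x = 0 :=
  (CStarRing.star_mul_self_eq_zero_iff x).1 h

lemma eq_zero_of_sum {κ : Type*} [Fintype κ] {z : κ → E} (h : ∑ k, star (z k) * z k = 0) (k : κ) :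
    z k = 0 := by
  let := CStarAlgebra.spectralOrder E
  let := CStarAlgebra.spectralOrderedRing E
  exact eq_zero_of_star_mul ((Finset.sum_eq_zero_iff_of_nonneg
    fun i _ => star_mul_self_nonneg (z i)).1 h k (Finset.mem_univ _))

lemma exists_abs (x : E) : ∃ μ : E, star μ = μ ∧ μ * μ = star x * x := by
  let := CStarAlgebra.spectralOrder E
  let := CStarAlgebra.spectralOrderedRing E
  exact ⟨CFC.sqrt (star x * x), (IsSelfAdjoint.of_nonneg (CFC.sqrt_nonneg _)).star_eq,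
    CFC.sqrt_mul_sqrt_self _ (star_mul_self_nonneg x)⟩

lemma norm_one_le : ‖(1 : E)‖ ≤ 1 := by
  rcases subsingleton_or_nontrivial E with h | h
  · simp [Subsingleton.elim (1 : E) 0]
  · simp

lemma norm_one_sub_star_mul {x : E} (hx : ‖x‖ ≤ 1) : ‖1 - star x * x‖ ≤ 1 := by
  let := CStarAlgebra.spectralOrder E
  let := CStarAlgebra.spectralOrderedRing E
  have h0 : star x * x ≤ 1 := (CStarAlgebra.norm_le_one_iff_of_nonneg _
    (star_mul_self_nonneg x)).1 (by
      rw [CStarRing.norm_star_mul_self]; exact mul_le_one₀ hx (norm_nonneg _) hx)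
  rw [CStarAlgebra.norm_le_one_iff_of_nonneg _ (sub_nonneg.2 h0)]
  exact sub_le_self _ (star_mul_self_nonneg x)

lemma cfc_sqrt_sq {e : E} (he : IsSelfAdjoint e) {f : ℝ → ℝ} (hf : Continuous f)
    (h : ∀ t ∈ spectrum ℝ e, 0 ≤ f t) :
    cfc (fun t => √(f t)) e * cfc (fun t => √(f t)) e = cfc f e := by
  rw [← cfc_mul _ _ e (by fun_prop) (by fun_prop)]
  exact cfc_congr fun t ht => Real.mul_self_sqrt (h t ht)

lemma Full.finite {s : Set E} (h : Full s) : ∃ (K : ℕ) (x : Fin K → E), (∀ k, x k ∈ s) ∧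
    Full (Set.range x) := by
  have key : ∀ u ∈ TwoSidedIdeal.span s, ∃ t : Set E, t.Finite ∧ t ⊆ s ∧
      u ∈ TwoSidedIdeal.span t := by
    intro u hu
    induction hu using TwoSidedIdeal.span_induction with
    | mem z hz => exact ⟨{z}, by simp, by simpa using hz, TwoSidedIdeal.subset_span rfl⟩
    | zero => exact ⟨∅, by simp, by simp, TwoSidedIdeal.zero_mem _⟩
    | add x y _ _ hx hy =>
      obtain ⟨t, h1, h2, h3⟩ := hx
      obtain ⟨t', h1', h2', h3'⟩ := hy
      exact ⟨t ∪ t', h1.union h1', Set.union_subset h2 h2', TwoSidedIdeal.add_mem _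
        (TwoSidedIdeal.span_mono Set.subset_union_left h3)
        (TwoSidedIdeal.span_mono Set.subset_union_right h3')⟩
    | neg x _ hx => obtain ⟨t, h1, h2, h3⟩ := hx; exact ⟨t, h1, h2, TwoSidedIdeal.neg_mem _ h3⟩
    | left_absorb a x _ hx =>
      obtain ⟨t, h1, h2, h3⟩ := hx; exact ⟨t, h1, h2, TwoSidedIdeal.mul_mem_left _ _ _ h3⟩
    | right_absorb a x _ hx =>
      obtain ⟨t, h1, h2, h3⟩ := hx; exact ⟨t, h1, h2, TwoSidedIdeal.mul_mem_right _ _ _ h3⟩
  obtain ⟨t, h1, h2, h3⟩ := key 1 h.span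
  obtain ⟨K, x, -, hx⟩ := h1.fin_param
  exact ⟨K, x, fun k => h2 (hx ▸ ⟨k, rfl⟩), fun I hI => TwoSidedIdeal.span_le.2 (hx ▸ hI) h3⟩

lemma Full.sos {x : E} (h : Full {x}) : ∃ (M : ℕ) (y : Fin M → E),
    ∑ k, star (x * y k) * (x * y k) = 1 := by
  let := CStarAlgebra.spectralOrder E
  let := CStarAlgebra.spectralOrderedRing E
  let Q : E → Prop := fun T => ∃ (M : ℕ) (y : Fin M → E), ∑ k, star (x * y k) * (x * y k) = T
  have Q0 : Q 0 := ⟨0, Fin.elim0, by simp⟩
  have Qadd : ∀ T T', Q T → Q T' → Q (T + T') := by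
    rintro _ _ ⟨M, y, rfl⟩ ⟨M', y', rfl⟩
    exact ⟨M + M', Fin.append y y', by simp [Fin.sum_univ_add]⟩
  have Qconj : ∀ T b, Q T → Q (star b * T * b) := by
    rintro _ b ⟨M, y, rfl⟩
    exact ⟨M, fun k => y k * b, by simp [Finset.mul_sum, Finset.sum_mul, mul_assoc]⟩
  have key : ∀ u ∈ TwoSidedIdeal.span {x}, ∃ T, Q T ∧ star u * u ≤ T := by
    intro u hu
    induction hu using TwoSidedIdeal.span_induction with
    | mem z hz =>
      rw [Set.mem_singleton_iff] at hz
      subst hz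
      exact ⟨_, ⟨1, fun _ => 1, rfl⟩, by simp⟩
    | zero => exact ⟨0, Q0, by simp⟩
    | add a b _ _ ha hb =>
      obtain ⟨T, h1, h2⟩ := ha
      obtain ⟨T', h1', h2'⟩ := hb
      refine ⟨(T + T) + (T' + T'), Qadd _ _ (Qadd _ _ h1 h1) (Qadd _ _ h1' h1'), ?_⟩
      refine le_trans ?_ (add_le_add (add_le_add h2 h2) (add_le_add h2' h2'))
      rw [← sub_nonneg]
      convert star_mul_self_nonneg (a - b) using 1
      simp only [star_add, star_sub]; noncomm_ring
    | neg a _ ha => obtain ⟨T, h1, h2⟩ := ha; exact ⟨T, h1, by simpa using h2⟩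
    | left_absorb c a _ ha =>
      obtain ⟨T, h1, h2⟩ := ha
      refine ⟨_, Qconj T (algebraMap ℝ E ‖c‖) h1, ?_⟩
      refine le_trans ?_ (star_left_conjugate_le_conjugate h2 _)
      have h3 := star_left_conjugate_le_conjugate
        (CStarAlgebra.star_mul_le_algebraMap_norm_sq (a := c)) a
      convert h3 using 1
      · simp [mul_assoc]
      · simp [Algebra.algebraMap_eq_smul_one, sq, smul_smul]
    | right_absorb c a _ ha =>
      obtain ⟨T, h1, h2⟩ := ha
      refine ⟨_, Qconj T c h1, ?_⟩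
      convert star_left_conjugate_le_conjugate h2 c using 1
      simp [mul_assoc]
  obtain ⟨T, h1, h2⟩ := key 1 h.span
  rw [star_one, one_mul] at h2
  have h3 : IsStrictlyPositive T := isStrictlyPositive_one.of_le h2
  have h4 := CFC.conjugate_rpow_neg_one_half T h3
  have h5 := Qconj T (T ^ (-(1 / 2) : ℝ)) h1
  rw [(IsSelfAdjoint.of_nonneg CFC.rpow_nonneg).star_eq, h4] at h5
  exact h5

lemma Full.star_mul {x : E} (h : Full {x}) : Full {star x * x} := fun I hI => by
  obtain ⟨M, y, hy⟩ := h.sos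
  rw [← hy]
  refine sum_mem fun k _ => ?_
  have := I.mul_mem_left (star (y k)) _ (I.mul_mem_right _ (y k) (hI rfl))
  simpa [mul_assoc] using this

lemma Full.perturb {x : E} (h : Full {x}) : ∃ δ > 0, ∀ x', ‖x - x'‖ ≤ δ → Full {x'} := by
  obtain ⟨M, y, hy⟩ := h.sos
  have hc : Continuous fun z : E => ∑ k, star (x * y k) * (z * y k) := by fun_prop
  obtain ⟨δ, hδ, h1⟩ := Metric.continuous_iff.1 hc x 1 one_pos
  refine ⟨δ / 2, by positivity, fun x' hx' I hI => ?_⟩
  have h2 := h1 x' (by rw [dist_comm, dist_eq_norm]; linarith)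
  rw [hy, dist_comm, dist_eq_norm] at h2
  refine one_mem_of_small ?_ h2
  rw [sub_sub_cancel]
  exact sum_mem fun k _ => I.mul_mem_left _ _ (I.mul_mem_right _ _ (hI rfl))

end basic

section col
variable {E : Type*} [CStarAlgebra E] {ι : Type*}

structure Col (w : ι → E) (c : E) : Prop where
  diag : ∀ i, star (w i) * w i = c
  off : ∀ i j, i ≠ j → star (w i) * w j = 0

variable [Fintype ι] [DecidableEq ι]

structure Data (i₀ : ι) (φ : ι → ι → E) {M : ℕ} (v : Fin M → E) : Prop where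
  oz : OZ φ
  nrm : ‖tr φ‖ ≤ 1
  top : ∀ k, φ i₀ i₀ * v k = v k
  sum : ∑ k, star (v k) * v k = 1 - tr φ

lemma Col.data {w : ι → E} {c : E} (h : Col w c) (hc : Full {c}) (i₀ : ι) :
    ∃ (φ : ι → ι → E) (M : ℕ) (v : Fin M → E), Data i₀ φ v := by
  let := CStarAlgebra.spectralOrder E
  let := CStarAlgebra.spectralOrderedRing E
  have hc0 : 0 ≤ c := h.diag i₀ ▸ star_mul_self_nonneg _
  have hsa : IsSelfAdjoint c := .of_nonneg hc0
  have hsp : ∀ t ∈ spectrum ℝ c, 0 ≤ t := fun t ht => spectrum_nonneg_of_nonneg hc0 ht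
  obtain ⟨δ, hδ, hper⟩ := hc.perturb
  let g : ℝ → ℝ := fun t => (√(max t δ))⁻¹
  have hg : Continuous g := Continuous.inv₀ (by fun_prop) fun t =>
    (Real.sqrt_pos.2 (lt_max_of_lt_right hδ)).ne'
  let f : ℝ → ℝ := fun t => t / max t δ
  have hf : Continuous f := Continuous.div (by fun_prop) (by fun_prop) fun t =>
    (lt_max_of_lt_right hδ).ne'
  have hgc : cfc g c * c * cfc g c = cfc f c := by
    conv_lhs => enter [1, 2]; rw [← cfc_id' ℝ c]
    rw [← cfc_mul _ _ c hg.continuousOn (by fun_prop),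
      ← cfc_mul (fun t => g t * t) g c (by fun_prop) hg.continuousOn]
    refine cfc_congr fun t _ => ?_
    have h1 := Real.mul_self_sqrt (lt_max_of_lt_right (b := t) hδ).le
    have h2 := (Real.sqrt_pos.2 (lt_max_of_lt_right (b := t) hδ)).ne'
    simp only [f, g]
    rw [← h1]
    field_simp
    simp
  set c' := cfc f c
  let c₀ := cfc (fun t => max (t - δ) 0) c
  have hc₀ : Full {c₀} := hper _ (by
    conv_lhs => enter [1, 1]; rw [← cfc_id' ℝ c]
    rw [← cfc_sub _ _ c (by fun_prop) (by fun_prop)]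
    refine norm_cfc_le hδ.le fun t ht => ?_
    have := hsp t ht
    rw [Real.norm_eq_abs, abs_le]
    constructor
    · linarith [max_le (show t - δ ≤ t + δ by linarith) (show 0 ≤ t + δ by linarith)]
    · linarith [le_max_left (t - δ) 0])
  have hcc : c' * c₀ = c₀ := by
    rw [← cfc_mul _ _ c hf.continuousOn (by fun_prop)]
    refine cfc_congr fun t _ => ?_
    rcases le_total t δ with h1 | h1
    · simp [max_eq_right (sub_nonpos.2 h1)]
    · simp only [f, max_eq_left h1, div_self (hδ.trans_le h1).ne', one_mul]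
  have hc1 : c' ≤ 1 := cfc_le_one _ _ fun t _ =>
    (div_le_one (lt_max_of_lt_right hδ)).2 (le_max_left _ _)
  obtain ⟨M, y, hy⟩ := hc₀.sos
  let w' : ι → E := fun i => w i * cfc g c
  have hgs : star (cfc g c) = cfc g c := IsSelfAdjoint.cfc.star_eq
  have hw : ∀ i j, star (w' i) * w' j = if i = j then c' else 0 := fun i j => by
    simp only [w', star_mul, hgs]
    rw [mul_assoc, ← mul_assoc (star (w i))]
    split_ifs with hij
    · rw [hij, h.diag, ← mul_assoc, hgc]
    · rw [h.off i j hij]; simp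
  have hw' : ∀ i j z, star (w' i) * (w' j * z) = if i = j then c' * z else 0 := fun i j z => by
    rw [← mul_assoc, hw]; split_ifs <;> simp
  let φ : ι → ι → E := fun i j => w' i * star (w' j)
  have hφ : OZ φ := ⟨fun i j => by simp [φ], fun i j k l => by
    simp only [φ, tr, Finset.sum_mul, mul_assoc, hw']
    split_ifs <;> simp⟩
  have he0 : 0 ≤ tr φ := Finset.sum_nonneg fun i _ => mul_star_self_nonneg _
  have hee : tr φ * tr φ ≤ tr φ := by
    conv_lhs => rw [tr.eq_1 φ, Finset.mul_sum]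
    refine Finset.sum_le_sum fun i _ => ?_
    have h1 : tr φ * φ i i = w' i * c' * star (w' i) := by
      simp only [φ, tr, Finset.sum_mul, mul_assoc, hw']
      simp
    have h2 := star_right_conjugate_le_conjugate hc1 (w' i)
    rw [mul_one] at h2
    exact h1 ▸ h2
  have hn : ‖tr φ‖ ≤ 1 := by
    have h1 := CStarAlgebra.norm_le_norm_of_nonneg_of_le
      (by simpa [hφ.star_tr] using star_mul_self_nonneg (tr φ)) hee
    have h2 : ‖tr φ * tr φ‖ = ‖tr φ‖ * ‖tr φ‖ := by
      simpa [hφ.star_tr] using CStarRing.norm_star_mul_self (x := tr φ)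
    by_contra h3
    rw [h2] at h1
    nlinarith
  have hr0 : 0 ≤ 1 - tr φ := sub_nonneg.2 ((CStarAlgebra.norm_le_one_iff_of_nonneg _ he0).1 hn)
  set s := CFC.sqrt (1 - tr φ)
  have hs : star s = s := (IsSelfAdjoint.of_nonneg (CFC.sqrt_nonneg _)).star_eq
  have hss : s * s = 1 - tr φ := CFC.sqrt_mul_sqrt_self _ hr0
  have hq : ∀ z, c' * (c₀ * z) = c₀ * z := fun z => by rw [← mul_assoc, hcc]
  refine ⟨φ, M, fun k => w' i₀ * (c₀ * y k * s), hφ, hn, fun k => ?_, ?_⟩
  · simp only [φ, mul_assoc, hw', if_true, hq]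
  · have : ∀ k, star (w' i₀ * (c₀ * y k * s)) * (w' i₀ * (c₀ * y k * s)) =
        s * (star (c₀ * y k) * (c₀ * y k)) * s := fun k => by
      rw [star_mul, mul_assoc, hw', if_pos rfl, star_mul, hs]
      simp only [mul_assoc, hq]
    simp only [this, ← Finset.sum_mul, ← Finset.mul_sum, hy, mul_one, hss]

lemma Data.prep {i₀ : ι} {φ : ι → ι → E} {M : ℕ} {v : Fin M → E} (h : Data i₀ φ v) :
    ∃ (ρ : E) (v' : Fin M → E), star ρ = ρ ∧ (∀ i j, φ i j * ρ = ρ * φ i j) ∧
      ρ * ρ = 1 - tr φ * tr φ ∧ ‖ρ‖ ≤ 1 ∧ (∀ k, φ i₀ i₀ * v' k = v' k) ∧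
      ∑ k, star (v' k) * v' k = ρ * ρ ∧ ∀ k, ρ * v' k = 0 := by
  have he : IsSelfAdjoint (tr φ) := h.oz.star_tr
  have hsp : ∀ t ∈ spectrum ℝ (tr φ), -1 ≤ t ∧ t ≤ 1 := fun t ht => by
    have := spectrum_subset_Icc _ ht
    exact ⟨by linarith [this.1, h.nrm], this.2.trans h.nrm⟩
  set ρ := cfc (fun t : ℝ => √(1 - t * t)) (tr φ)
  set s := cfc (fun t : ℝ => √(1 + t)) (tr φ)
  have hρ : ρ * ρ = 1 - tr φ * tr φ := by
    rw [cfc_sqrt_sq he (by fun_prop) fun t ht => by nlinarith [hsp t ht],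
      cfc_sub _ _ _ (by fun_prop) (by fun_prop), cfc_const_one ℝ _,
      cfc_mul _ _ _ (by fun_prop) (by fun_prop), cfc_id' ℝ _]
  have hs : s * s = 1 + tr φ := by
    rw [cfc_sqrt_sq he (by fun_prop) fun t ht => by linarith [hsp t ht],
      cfc_add _ _ _ (by fun_prop) (by fun_prop), cfc_const_one ℝ _, cfc_id' ℝ _]
  have hss : star s = s := IsSelfAdjoint.cfc.star_eq
  have hρs : star ρ = ρ := IsSelfAdjoint.cfc.star_eq
  have hse : s * tr φ = tr φ * s := ((Commute.refl (tr φ)).cfc_real _).eq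
  have htop : ∀ k, φ i₀ i₀ * (v k * s) = v k * s := fun k => by rw [← mul_assoc, h.top]
  refine ⟨ρ, fun k => v k * s, hρs, fun i j => ?_, hρ, ?_, htop, ?_, fun k => ?_⟩
  · exact (Commute.cfc_real (a := tr φ) (b := φ i j) (h.oz.comm i j).symm _).eq.symm
  · refine norm_cfc_le zero_le_one fun t _ => ?_
    rw [Real.norm_of_nonneg (Real.sqrt_nonneg _), Real.sqrt_le_left zero_le_one]
    nlinarith
  · have : ∀ k, star (v k * s) * (v k * s) = s * (star (v k) * v k) * s := fun k => by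
      simp only [star_mul, hss, mul_assoc]
    simp only [this, ← Finset.sum_mul, ← Finset.mul_sum, h.sum, hρ]
    rw [mul_sub, mul_one, hse, sub_mul, mul_assoc, hs]
    noncomm_ring
  · refine eq_zero_of_star_mul ?_
    have h1 := h.oz.tr_top (htop k)
    rw [star_mul, hρs, mul_assoc, ← mul_assoc ρ, hρ, sub_mul, one_mul, mul_assoc (tr φ), h1, h1,
      sub_self, mul_zero]

lemma Data.step {E' : Type*} [CStarAlgebra E'] {j₁ j₂ : E →⋆ₐ[ℂ] E'}
    (hc : ∀ x y, Commute (j₁ x) (j₂ y)) {i₀ : ι} {φ : ι → ι → E} {M : ℕ} {v : Fin (M + 2) → E}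
    (h : Data i₀ φ v) : ∃ (ψ : ι → ι → E') (v' : Fin (M + 1) → E'), Data i₀ ψ v' := by
  obtain ⟨ρ, v, hρ, hφρ, hρρ, hρn, htop, hsum, hρv⟩ := h.prep
  obtain ⟨μ, hμ, hμμ⟩ := exists_abs (v 0)
  have hvρ : ∀ k, star (v k) * ρ = 0 := fun k => by
    rw [← hρ, ← star_mul, hρv, star_zero]
  have hX : ∀ k i j, star (v k) * (φ i j * μ) = 0 := fun k i j => by
    have h1 : ∑ l, star (v l * (φ j i * v k)) * (v l * (φ j i * v k)) = 0 := by
      have : ∀ l, star (v l * (φ j i * v k)) * (v l * (φ j i * v k)) =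
          star (φ j i * v k) * (star (v l) * v l) * (φ j i * v k) := fun l => by
        simp only [star_mul, mul_assoc]
      simp only [this, ← Finset.sum_mul, ← Finset.mul_sum, hsum]
      rw [mul_assoc, mul_assoc, ← mul_assoc ρ (φ j i), ← hφρ, mul_assoc, hρv]
      simp
    have h2 := eq_zero_of_sum h1 0
    have h3 : μ * (φ j i * v k) = 0 := by
      refine eq_zero_of_star_mul ?_
      rw [star_mul, hμ, mul_assoc, ← mul_assoc μ, hμμ, mul_assoc, h2]
      simp
    have h4 := congrArg star h3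
    rwa [star_mul, star_mul, hμ, h.oz.star, star_zero, mul_assoc] at h4
  let a : ι → ι → E' := fun i j => j₁ (φ i j)
  let b : ι → ι → E' := fun i j => j₂ (φ i j)
  have hta : tr a = j₁ (tr φ) := by simp [tr, a]
  have htb : tr b = j₂ (tr φ) := by simp [tr, b]
  have H : JH a b (j₁ ρ) :=
    { ha := h.oz.map j₁
      hb := h.oz.map j₂
      ab := fun i j k l => (hc _ _).eq.symm
      sr := by rw [← map_star, hρ]
      ra := fun i j => by simp only [a, ← map_mul, hφρ]
      rb := fun i j => (hc _ _).eq.symm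
      rr := by rw [hta, ← map_mul, hρρ]; simp }
  let u : Fin (M + 2) → E' := fun k => j₁ μ * j₂ (v k)
  have hu : ∀ k, b i₀ i₀ * u k = u k := fun k => by
    simp only [u, b]
    rw [← mul_assoc, ← (hc _ _).eq, mul_assoc, ← map_mul, htop]
  have hy : ∀ k z, jP a b (j₁ ρ) i₀ i₀ * (j₁ (v k) * z) = j₁ (v k) * z := fun k z =>
    H.top₁ (by simp only [a]; rw [← mul_assoc, ← map_mul, htop])
      (by rw [← mul_assoc, ← map_mul, hρv]; simp)
  have hcross : ∀ k l z, star (j₁ (v k) * z) * (jW a b (j₁ ρ) * u l) = 0 := fun k l z => by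
    have : j₁ (star (v k)) * (jW a b (j₁ ρ) * u l) = 0 := by
      simp only [jW, jF, u, a, b, sub_mul, mul_sub, smul_mul_assoc, mul_smul_comm, Finset.sum_mul,
        Finset.mul_sum]
      rw [← mul_assoc, ← map_mul, hvρ, Finset.sum_eq_zero fun i _ => Finset.sum_eq_zero
        fun j _ => ?_]
      · simp
      · rw [mul_assoc, ← mul_assoc (j₂ _), ← (hc _ _).eq, mul_assoc, ← mul_assoc (j₁ (φ i j)),
          ← mul_assoc, ← map_mul, ← map_mul, hX]
        simp
    rw [star_mul, mul_assoc, ← map_star, this, mul_zero]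
  have hcross' : ∀ k l z, star (jW a b (j₁ ρ) * u l) * (j₁ (v k) * z) = 0 := fun k l z => by
    have := congrArg star (hcross k l z)
    rwa [star_mul, star_star, star_zero] at this
  have hprod : ∀ x y x' y', star (j₁ x * j₂ y) * (j₁ x' * j₂ y') =
      j₁ (star x * x') * j₂ (star y * y') := fun x y x' y' => by
    rw [star_mul, ← map_star, ← map_star, ← (hc _ _).eq, mul_assoc, ← mul_assoc (j₂ _),
      ← (hc _ _).eq]
    simp only [map_mul, mul_assoc]
  have htr : tr (jP a b (j₁ ρ)) = 1 - j₁ (ρ * ρ) * j₂ (ρ * ρ) := by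
    rw [H.tr_jP, ← map_mul, ← mul_assoc, htb, ← map_mul, ← (hc _ _).eq, hta, hρρ]
    simp only [map_sub, map_one, map_mul]
    noncomm_ring
  refine ⟨jP a b (j₁ ρ), fun k => j₁ (v k.succ) * j₂ ρ + jW a b (j₁ ρ) * u k.succ +
    if k = 0 then j₁ (v 0) * j₂ (v 0) else 0, H.oz, ?_, fun k => ?_, ?_⟩
  · have := norm_one_sub_star_mul (x := j₁ ρ * j₂ ρ) ((norm_mul_le _ _).trans (mul_le_one₀
      ((NonUnitalStarAlgHom.norm_apply_le j₁ ρ).trans hρn) (norm_nonneg _)
      ((NonUnitalStarAlgHom.norm_apply_le j₂ ρ).trans hρn)))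
    rwa [hprod, hρ, ← htr] at this
  · rw [mul_add, mul_add, hy, H.top₂ (hu _)]
    split_ifs
    · rw [hy]
    · simp
  · have : ∀ k : Fin (M + 1), star (j₁ (v k.succ) * j₂ ρ + jW a b (j₁ ρ) * u k.succ +
        if k = 0 then j₁ (v 0) * j₂ (v 0) else 0) * (j₁ (v k.succ) * j₂ ρ +
        jW a b (j₁ ρ) * u k.succ + if k = 0 then j₁ (v 0) * j₂ (v 0) else 0) =
        j₁ (star (v k.succ) * v k.succ) * j₂ (ρ * ρ) +
        j₁ (star (v 0) * v 0) * j₂ (star (v k.succ) * v k.succ) +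
        if k = 0 then j₁ (star (v 0) * v 0) * j₂ (star (v 0) * v 0) else 0 := fun k => by
      have e1 := H.WW (u' := u k.succ) (H.hb.tr_top (hu k.succ))
      have e2 : star (u k.succ) * u k.succ =
          j₁ (star (v 0) * v 0) * j₂ (star (v k.succ) * v k.succ) := by
        simp only [u]; rw [hprod, hμ, hμμ]
      split_ifs
      · simp only [star_add, add_mul, mul_add, hcross, hcross', hprod, e1, e2, hρ, hρv, hvρ,
          map_zero, mul_zero, add_zero, zero_add]
      · simp only [star_add, add_mul, mul_add, hcross, hcross', hprod, e1, e2, hρ, add_zero,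
          zero_add]
    simp only [this, Finset.sum_add_distrib, Finset.sum_ite_eq', Finset.mem_univ, if_true,
      ← Finset.sum_mul, ← Finset.mul_sum, ← map_sum]
    rw [Fin.sum_univ_succ] at hsum
    rw [htr, sub_sub_cancel, add_assoc, ← mul_add, ← map_add, add_comm (∑ _, _) (star (v 0) * v 0),
      hsum, ← add_mul, ← map_add, add_comm, hsum]

end col

section cls
variable {𝒞 : Set CAlg.{u}} (hP : Pair 𝒞) {E₀ : CAlg.{u}} (h₀ : E₀ ∈ 𝒞)
  (hE : IsEmpty (E₀.E →⋆ₐ[ℂ] ℂ))
include hP h₀ hE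

theorem exists_col_two : ∃ E ∈ 𝒞, ∃ (w : Bool → E.E) (c : E.E), Col w c ∧ Full {c} := by
  obtain ⟨E₁, hE₁, e, -, he, hf⟩ := exists_orth hP h₀ hE 2
  have h1 : Full {z | ∃ d, z = e 0 * d * e 1} := fun I hI => by
    by_contra h1
    obtain ⟨P, hIP, hP1, hmax⟩ := exists_maximal I h1
    refine hP1 (hf 0 P (Set.singleton_subset_iff.2 (maximal_prime hmax
      (fun r => hIP (hI ⟨r, rfl⟩)) fun h2 => hP1 (hf 1 P (Set.singleton_subset_iff.2 h2)))))
  obtain ⟨K, x, hx, hx'⟩ := h1.finite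
  obtain ⟨E₂, hE₂, e', hs', he', hf'⟩ := exists_orth hP h₀ hE K
  obtain ⟨E, hE', j₁, j₂, hc⟩ := hP E₁ hE₁ E₂ hE₂
  let s : E.E := ∑ k, j₁ (x k) * j₂ (e' k)
  have hss : s * s = 0 := by
    simp only [s, Finset.sum_mul, Finset.mul_sum]
    refine Finset.sum_eq_zero fun k _ => Finset.sum_eq_zero fun l _ => ?_
    obtain ⟨d, hd⟩ := hx k
    obtain ⟨d', hd'⟩ := hx l
    have : x l * x k = 0 := by
      rw [hd, hd']
      simp only [mul_assoc]
      rw [← mul_assoc (e 1) (e 0), he 1 0 (by decide)]; simp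
    rw [mul_assoc, ← mul_assoc (j₂ _), ← (hc _ _).eq, mul_assoc, ← mul_assoc, ← map_mul, this]
    simp
  have hsf : Full {s} := fun I hI => by
    have h2 : ∀ k, j₁ (x k) ∈ I := fun k => by
      have h3 := (hf' k).star_mul (annL j₂ I (j₁ (x k)) fun y => (hc _ _).symm) (by
        rw [Set.singleton_subset_iff, SetLike.mem_coe, mem_annL, ← (hc _ _).eq, (hs' k).star_eq]
        convert I.mul_mem_right _ (j₂ (e' k)) (hI rfl) using 1
        simp only [s, Finset.sum_mul, mul_assoc, ← map_mul]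
        rw [Finset.sum_eq_single k (fun l _ hl => by simp [he' l k hl]) (by simp)])
      simpa [mem_annL] using h3
    have h4 := hx' (TwoSidedIdeal.comap j₁ I) (by
      rintro _ ⟨k, rfl⟩; exact TwoSidedIdeal.mem_comap _ |>.2 (h2 k))
    simpa [TwoSidedIdeal.mem_comap] using h4
  obtain ⟨μ, hμ, hμμ⟩ := exists_abs s
  have hμs : μ * s = 0 := eq_zero_of_star_mul (by
    rw [star_mul, hμ, mul_assoc, ← mul_assoc μ, hμμ, mul_assoc, hss]; simp)
  have hsμ : star s * μ = 0 := by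
    have := congrArg star hμs
    rwa [star_mul, hμ, star_zero] at this
  refine ⟨E, hE', fun i => cond i s μ, star s * s, ⟨?_, ?_⟩, hsf.star_mul⟩
  · rintro (_ | _) <;> simp [hμ, hμμ]
  · rintro (_ | _) (_ | _) h <;> simp [hμ, hμs, hsμ] at h ⊢

theorem exists_col (n : ℕ) : ∃ E ∈ 𝒞, ∃ (w : Fin (n + 1) → E.E) (c : E.E), Col w c ∧ Full {c} := by
  induction n with
  | zero =>
    exact ⟨E₀, h₀, fun _ => 1, 1, ⟨by simp, fun i j h => absurd (Subsingleton.elim (α := Fin 1) i j) h⟩,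
      fun I hI => hI rfl⟩
  | succ n ih =>
    obtain ⟨E₁, hE₁, w, c, hw, hc⟩ := ih
    obtain ⟨E₂, hE₂, w', c', hw', hc'⟩ := exists_col_two hP h₀ hE
    obtain ⟨E, hE', j₁, j₂, hj⟩ := hP E₁ hE₁ E₂ hE₂
    obtain ⟨f⟩ : Nonempty (Fin (n + 1 + 1) ↪ Fin (n + 1) × Bool) :=
      Function.Embedding.nonempty_of_card_le (by simp)
    have hprod : ∀ x y x' y', star (j₁ x * j₂ y) * (j₁ x' * j₂ y') =
        j₁ (star x * x') * j₂ (star y * y') := fun x y x' y' => by
      rw [star_mul, ← map_star, ← map_star, ← (hj _ _).eq, mul_assoc, ← mul_assoc (j₂ _),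
        ← (hj _ _).eq]
      simp only [map_mul, mul_assoc]
    refine ⟨E, hE', fun i => j₁ (w (f i).1) * j₂ (w' (f i).2), j₁ c * j₂ c',
      ⟨fun i => by rw [hprod, hw.diag, hw'.diag], fun i j hij => ?_⟩, fun I hI => ?_⟩
    · rw [hprod]
      by_cases h1 : (f i).1 = (f j).1
      · rw [hw'.off _ _ fun h2 => hij (f.injective (Prod.ext h1 h2))]; simp
      · rw [hw.off _ _ h1]; simp
    · refine Full.two hj hc hc' ?_
      rintro _ rfl _ rfl
      exact hI rfl

theorem exists_data {ι : Type} [Fintype ι] [DecidableEq ι] (i₀ : ι) :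
    ∃ E ∈ 𝒞, ∃ (φ : ι → ι → E.E) (v : Fin 1 → E.E), Data i₀ φ v := by
  have key : ∀ M : ℕ, ∀ E ∈ 𝒞, ∀ (φ : ι → ι → E.E) (v : Fin (M + 1) → E.E),
      Data i₀ φ v → ∃ E ∈ 𝒞, ∃ (φ : ι → ι → E.E) (v : Fin 1 → E.E), Data i₀ φ v := by
    intro M
    induction M with
    | zero => exact fun E hE φ v h => ⟨E, hE, φ, v, h⟩
    | succ M ih =>
      intro E hE φ v h
      obtain ⟨E', hE', j₁, j₂, hj⟩ := hP E hE E hE
      obtain ⟨ψ, v', h'⟩ := h.step hj
      exact ih E' hE' ψ v' h'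
  obtain ⟨E, hE', w, c, hw, hc⟩ := exists_col hP h₀ hE (Fintype.card ι)
  obtain ⟨f⟩ : Nonempty (ι ↪ Fin (Fintype.card ι + 1)) :=
    Function.Embedding.nonempty_of_card_le (by simp)
  have hw' : Col (fun i => w (f i)) c :=
    ⟨fun i => hw.diag _, fun i j hij => hw.off _ _ (f.injective.ne hij)⟩
  obtain ⟨φ, M, v, h⟩ := hw'.data hc i₀
  refine key M E hE' φ (Fin.cons 0 v) ⟨h.oz, h.nrm, fun k => ?_, ?_⟩
  · refine Fin.cases ?_ (fun k => ?_) k
    · simp
    · simpa using h.top k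
  · simpa [Fin.sum_univ_succ] using h.sum

end cls

end Vale.Agent.P101
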