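import Vale.Agent.P101.Gamma
import Vale.Agent.P101.Flip
import Vale.Agent.P101.Defs

/-! The algebra of the square and its homomorphism to a dimension drop algebra with
coefficients. -/

namespace Vale.Agent.P101

open scoped CStarAlgebra unitInterval Matrix.Norms.L2Operator

section AS
variable {N α γ : Type*} [Fintype N] [Fintype α] [Fintype γ] [DecidableEq N] [DecidableEq α]
  [DecidableEq γ]

/-- the range of an amplification -/
def AS (e : N ≃ α × γ) : StarSubalgebra ℂ (Matrix N N ℂ) := (ampHom e).range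

lemma mem_AS {e : N ≃ α × γ} {Y : Matrix N N ℂ} : Y ∈ AS e ↔ ∃ x, amp e x = Y := Iff.rfl

lemma AS_closed (e : N ≃ α × γ) : IsClosed (AS e : Set (Matrix N N ℂ)) :=
  (AS e).toSubalgebra.toSubmodule.closed_of_finiteDimensional

lemma mem_AS_of [Nonempty γ] {e : N ≃ α × γ} {Y : Matrix N N ℂ}
    (h1 : ∀ i j c c', c ≠ c' → Y (e.symm (i, c)) (e.symm (j, c')) = 0)
    (h2 : ∀ i j c c', Y (e.symm (i, c)) (e.symm (j, c)) = Y (e.symm (i, c')) (e.symm (j, c'))) :
    Y ∈ AS e := by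
  obtain ⟨c₀⟩ := ‹Nonempty γ›
  refine ⟨Matrix.of fun i j => Y (e.symm (i, c₀)) (e.symm (j, c₀)), ?_⟩
  ext p q
  obtain ⟨⟨i, c⟩, rfl⟩ := e.symm.surjective p
  obtain ⟨⟨j, c'⟩, rfl⟩ := e.symm.surjective q
  change amp e _ _ _ = _
  simp only [amp_apply, Equiv.apply_symm_apply, Matrix.of_apply]
  split_ifs with h
  · rw [← h, h2]
  · exact (h1 _ _ _ _ h).symm

/-- permutation matrices -/
def pm (f : N → N) : Matrix N N ℂ := Matrix.of fun i j => if f i = j then 1 else 0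

omit [Fintype N] in
lemma pm_apply (f : N → N) (i j : N) : pm f i j = if f i = j then 1 else 0 := rfl

lemma pm_mul (f : N → N) (Y : Matrix N N ℂ) : pm f * Y = Y.submatrix f id := by
  ext; simp [pm, Matrix.mul_apply]

lemma mul_pm {f : N → N} (hf : Function.Involutive f) (Y : Matrix N N ℂ) :
    Y * pm f = Y.submatrix id f := by
  ext; simp [pm, Matrix.mul_apply, hf.eq_iff]

omit [Fintype N] in
lemma star_pm {f : N → N} (hf : Function.Involutive f) : star (pm f) = pm f := by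
  ext i j
  simp only [Matrix.star_apply, pm_apply, hf.eq_iff (x := j), eq_comm (a := j)]
  split_ifs <;> simp

lemma pm_pm {f : N → N} (hf : Function.Involutive f) : pm f * pm f = 1 := by
  ext i j; simp [pm_mul, pm_apply, hf i, Matrix.one_apply]

end AS

section sq
variable {M : Type*} [CStarAlgebra M]

def sqA (S₀ S₁ T₀ T₁ : StarSubalgebra ℂ M) : StarSubalgebra ℂ C(I × I, M) :=
  ⨅ s : I, S₀.comap (evX M (0, s)) ⊓ S₁.comap (evX M (1, s)) ⊓ T₀.comap (evX M (s, 0)) ⊓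
    T₁.comap (evX M (s, 1))

lemma mem_sqA {S₀ S₁ T₀ T₁ : StarSubalgebra ℂ M} {Y : C(I × I, M)} : Y ∈ sqA S₀ S₁ T₀ T₁ ↔
    ∀ s, Y (0, s) ∈ S₀ ∧ Y (1, s) ∈ S₁ ∧ Y (s, 0) ∈ T₀ ∧ Y (s, 1) ∈ T₁ := by
  simp [sqA, StarSubalgebra.mem_iInf, and_assoc]

lemma sqA_closed {S₀ S₁ T₀ T₁ : StarSubalgebra ℂ M} (h₀ : IsClosed (S₀ : Set M))
    (h₁ : IsClosed (S₁ : Set M)) (h₂ : IsClosed (T₀ : Set M)) (h₃ : IsClosed (T₁ : Set M)) :
    IsClosed (sqA S₀ S₁ T₀ T₁ : Set C(I × I, M)) := by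
  have : (sqA S₀ S₁ T₀ T₁ : Set C(I × I, M)) = ⋂ s : I, (fun Y => Y (0, s)) ⁻¹' S₀ ∩
      ((fun Y => Y (1, s)) ⁻¹' S₁ ∩ ((fun Y => Y (s, 0)) ⁻¹' T₀ ∩ (fun Y => Y (s, 1)) ⁻¹' T₁)) := by
    ext Y; simp [mem_sqA]
  rw [this]
  exact isClosed_iInter fun s => (h₀.preimage (by fun_prop)).inter
    ((h₁.preimage (by fun_prop)).inter
      ((h₂.preimage (by fun_prop)).inter (h₃.preimage (by fun_prop))))

def lnA (T₀ T₁ : StarSubalgebra ℂ M) : StarSubalgebra ℂ C(I, M) :=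
  T₀.comap (evX M 0) ⊓ T₁.comap (evX M 1)

lemma mem_lnA {T₀ T₁ : StarSubalgebra ℂ M} {Y : C(I, M)} : Y ∈ lnA T₀ T₁ ↔ Y 0 ∈ T₀ ∧ Y 1 ∈ T₁ :=
  Iff.rfl

lemma lnA_closed {T₀ T₁ : StarSubalgebra ℂ M} (h₂ : IsClosed (T₀ : Set M))
    (h₃ : IsClosed (T₁ : Set M)) : IsClosed (lnA T₀ T₁ : Set C(I, M)) :=
  (h₂.preimage (f := fun Y : C(I, M) => Y 0) (by fun_prop)).inter
    (h₃.preimage (f := fun Y : C(I, M) => Y 1) (by fun_prop))

end sq

/-- the dimension drop algebra -/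
noncomputable def Dd (a b : Type) [Fintype a] [Fintype b] [DecidableEq a] [DecidableEq b] :
    StarSubalgebra ℂ C(I, Matrix (a × b) (a × b) ℂ) :=
  lnA (AS (Equiv.refl _)) (AS (Equiv.prodComm _ _))

instance (a b : Type) [Fintype a] [Fintype b] [DecidableEq a] [DecidableEq b] :
    IsClosed (Dd a b : Set C(I, Matrix (a × b) (a × b) ℂ)) :=
  lnA_closed (AS_closed _) (AS_closed _)

lemma mem_Dd {p q : ℕ} {f : C(I, Mat p q)} : f ∈ Dd (Fin p) (Fin q) ↔ f ∈ dimDrop p q := by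
  have h1 : ∀ x : Matrix (Fin p) (Fin p) ℂ, amp (Equiv.refl _) x =
      Matrix.kronecker x (1 : Matrix (Fin q) (Fin q) ℂ) := fun x => by
    ext; simp [amp_apply, Matrix.one_apply]; congr
  have h2 : ∀ x : Matrix (Fin q) (Fin q) ℂ, amp (Equiv.prodComm _ _) x =
      Matrix.kronecker (1 : Matrix (Fin p) (Fin p) ℂ) x := fun x => by
    ext; simp [amp_apply, Matrix.one_apply]; congr
  simp only [Dd, mem_lnA, mem_AS, h1, h2, dimDrop, Set.mem_setOf_eq, eq_comm]

lemma exists_hom_Dd {p q : ℕ} {Z : Type*} [CStarAlgebra Z] {ι : C(I, Mat p q) → Z}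
    (h : IsHomOn (dimDrop p q) ι) : ∃ ι' : Dd (Fin p) (Fin q) →⋆ₐ[ℂ] Z, ∀ f, ι' f = ι f := by
  have h0 : ι 0 = 0 := by
    simpa using h.map_smul 0 _ (mem_Dd.1 (zero_mem _))
  exact ⟨{toFun := fun f => ι f
          map_one' := h.map_one
          map_mul' := fun f g => h.map_mul _ (mem_Dd.1 f.2) _ (mem_Dd.1 g.2)
          map_zero' := h0
          map_add' := fun f g => h.map_add _ (mem_Dd.1 f.2) _ (mem_Dd.1 g.2)
          commutes' := fun c => by
            have := h.map_smul c _ (mem_Dd.1 (one_mem _))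
            rw [h.map_one] at this
            simpa [Algebra.algebraMap_eq_smul_one] using this
          map_star' := fun f => h.map_star _ (mem_Dd.1 f.2) }, fun _ => rfl⟩

section theta
variable {N α β γ δ a b : Type} [Fintype N] [Fintype α] [Fintype β] [Fintype γ] [Fintype δ]
  [Fintype a] [Fintype b] [DecidableEq N] [DecidableEq α] [DecidableEq β] [DecidableEq γ]
  [DecidableEq δ] [DecidableEq a] [DecidableEq b]

def eS (e : N ≃ α × γ) (P : Type) : N × P ≃ (α × P) × γ :=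
  ⟨fun x => (((e x.1).1, x.2), (e x.1).2), fun y => (e.symm (y.1.1, y.2), y.1.2),
    fun _ => by simp, fun _ => by simp⟩

def eT₀ (N a b : Type) : N × (a × b) ≃ (N × a) × b :=
  ⟨fun x => ((x.1, x.2.1), x.2.2), fun y => (y.1.1, y.1.2, y.2), fun _ => rfl, fun _ => rfl⟩

def eT₁ (N a b : Type) : N × (a × b) ≃ (N × b) × a :=
  ⟨fun x => ((x.1, x.2.2), x.2.1), fun y => (y.1.1, y.2, y.1.2), fun _ => rfl, fun _ => rfl⟩

/-- slices -/
noncomputable def sl (Y : C(I × I, Matrix (N × (a × b)) (N × (a × b)) ℂ)) (n n' : N) :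
    C(I, C(I, Matrix (a × b) (a × b) ℂ)) :=
  ContinuousMap.curry ⟨fun x => Matrix.of fun i j => Y x (n, i) (n', j),
    continuous_matrix fun _ _ => Y.continuous.matrix_elem _ _⟩

lemma sl_apply (Y : C(I × I, Matrix (N × (a × b)) (N × (a × b)) ℂ)) (n n' : N) (t s : I)
    (i j : a × b) : sl Y n n' t s i j = Y (t, s) (n, i) (n', j) := rfl

lemma sl_mem {S₀ S₁} {Y : C(I × I, Matrix (N × (a × b)) (N × (a × b)) ℂ)}
    (hY : Y ∈ sqA S₀ S₁ (AS (eT₀ N a b)) (AS (eT₁ N a b))) (n n' : N) (t : I) :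
    sl Y n n' t ∈ Dd a b := by
  obtain ⟨-, -, ⟨x, hx⟩, y, hy⟩ := mem_sqA.1 hY t
  refine ⟨⟨Matrix.of fun i j => x (n, i) (n', j), ?_⟩, Matrix.of fun i j => y (n, i) (n', j), ?_⟩
  · ext i j
    exact congrFun (congrFun hx (n, i)) (n', j)
  · ext i j
    exact congrFun (congrFun hy (n, i)) (n', j)

theorem exists_Theta {Z : Type*} [CStarAlgebra Z] (ι : Dd a b →⋆ₐ[ℂ] Z) (e0 : N ≃ α × γ)
    (e1 : N ≃ β × δ) (c : γ) (d : δ) (π : a × b) :
    ∃ Θ : sqA (AS (eS e0 (a × b))) (AS (eS e1 (a × b))) (AS (eT₀ N a b)) (AS (eT₁ N a b)) →⋆ₐ[ℂ]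
      DD (evX Z (0 : I)) (evX Z (1 : I)) e0 e1,
      (∀ Y (g : Dd a b), (∀ t s, Y.1 (t, s) = amp (Equiv.prodComm _ _) (g.1 s)) →
        (Θ Y).1 = Matrix.diagonal fun _ => cst Z (ι g)) ∧
      ∀ Y, (∀ t, ∃ x, ∀ s, Y.1 (t, s) = amp (Equiv.refl _) x) →
        ∀ n n', ∃ f, (Θ Y).1 n n' = emb Z f := by
  have hι : Continuous ι := map_continuous ι
  let θ : sqA (AS (eS e0 (a × b))) (AS (eS e1 (a × b))) (AS (eT₀ N a b)) (AS (eT₁ N a b)) →
      N → N → I → Dd a b := fun Y n n' t => ⟨sl Y.1 n n' t, sl_mem Y.2 n n' t⟩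
  have hsc : ∀ (r : ℂ) Y, Y = algebraMap ℂ _ r → ∀ n n' t,
      θ Y n n' t = if n = n' then algebraMap ℂ _ r else 0 := by
    rintro r _ rfl n n' t
    ext s i j
    split_ifs with h <;>
      simp [θ, sl_apply, h, Algebra.algebraMap_eq_smul_one, Matrix.one_apply]
  let Θ : sqA (AS (eS e0 (a × b))) (AS (eS e1 (a × b))) (AS (eT₀ N a b)) (AS (eT₁ N a b)) →⋆ₐ[ℂ]
      Matrix N N C(I, Z) :=
    { toFun := fun Y => Matrix.of fun n n' => ⟨fun t => ι (θ Y n n' t),
        hι.comp ((sl Y.1 n n').continuous.subtype_mk _)⟩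
      map_one' := by
        ext n n' t
        simp only [Matrix.of_apply, ContinuousMap.coe_mk, hsc 1 1 (map_one _).symm,
          Matrix.one_apply]
        split_ifs <;> simp
      map_mul' := fun Y Y' => by
        ext n n' t
        simp only [Matrix.of_apply, ContinuousMap.coe_mk, Matrix.mul_apply,
          ContinuousMap.sum_apply, ContinuousMap.mul_apply, ← map_mul, ← map_sum]
        congr 1
        ext s i j
        simp [θ, sl_apply, Matrix.mul_apply, Fintype.sum_prod_type (α₁ := N), Matrix.sum_apply]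
      map_zero' := by
        ext n n' t
        simp [hsc 0 0 (map_zero _).symm]
      map_add' := fun Y Y' => by
        ext n n' t
        simp only [Matrix.of_apply, ContinuousMap.coe_mk, Matrix.add_apply,
          ContinuousMap.add_apply, ← map_add]
        rfl
      commutes' := fun r => by
        ext n n' t
        simp only [Matrix.of_apply, ContinuousMap.coe_mk, hsc r _ rfl,
          Matrix.algebraMap_matrix_apply]
        split_ifs <;> simp [Algebra.algebraMap_eq_smul_one]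
      map_star' := fun Y => by
        ext n n' t
        simp only [Matrix.of_apply, ContinuousMap.coe_mk, Matrix.star_apply,
          ContinuousMap.star_apply, ← map_star]
        rfl }
  have hb : ∀ {α γ : Type} [Fintype α] [Fintype γ] [DecidableEq α] [DecidableEq γ]
      (e : N ≃ α × γ) (c : γ) (t : I) Y, (∀ s, Y.1 (t, s) ∈ AS (eS e (a × b))) →
      ∃ x, (Θ Y).map (evX Z t) = amp e x := fun e c t Y hY => by
    refine ⟨Matrix.of fun i j => ι (θ Y (e.symm (i, c)) (e.symm (j, c)) t), ?_⟩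
    ext n n'
    change ι (θ Y n n' t) = _
    rw [amp_apply, ← map_zero ι, Matrix.of_apply, ← apply_ite ι]
    congr 1
    ext s i j
    obtain ⟨x, hx⟩ := mem_AS.1 (hY s)
    split_ifs with h <;> simp [θ, sl_apply, ← hx, amp_apply, eS, h]
  refine ⟨Θ.codRestrict _ fun Y => ⟨hb e0 c 0 Y fun s => (mem_sqA.1 Y.2 s).1,
    hb e1 d 1 Y fun s => (mem_sqA.1 Y.2 s).2.1⟩, fun Y g hY => ?_, fun Y hY n n' => ?_⟩
  · ext n n' t
    change ι (θ Y n n' t) = _
    have : θ Y n n' t = if n = n' then g else 0 := by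
      ext s i j
      split_ifs with h <;> simp [θ, sl_apply, hY, amp_apply, h]
    rw [this, Matrix.diagonal_apply]
    split_ifs <;> simp
  · refine ⟨⟨fun t => Y.1 (t, 0) (n, π) (n', π),
      (Y.1.continuous.comp (by fun_prop)).matrix_elem _ _⟩, ?_⟩
    ext t
    change ι (θ Y n n' t) = _
    rw [emb_apply, ← map_one ι, ← map_smul]
    congr 1
    ext s i j
    obtain ⟨x, hx⟩ := hY t
    simp [θ, sl_apply, hx, amp_apply, Matrix.one_apply]
    congr

end theta

end Vale.Agent.P101
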