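import Vale.Agent.P101.Comp

/-! Central sequence algebras along arbitrary ultrafilters, commuting copies. -/

namespace Vale.Agent.P101

open Filter Topology
open scoped CStarAlgebra

universe u v

section
variable {A : Type*} [CStarAlgebra A] {X : Type*} [CStarAlgebra X] {I : Type}

/-- bounded families that asymptotically commute with the range of `φ` -/
def cen (φ : A →⋆ₐ[ℂ] X) (U : Ultrafilter I) : StarSubalgebra ℂ (I → X) where
  carrier := {x | (∃ C : ℝ, ∀ n, ‖x n‖ ≤ C) ∧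
    ∀ a : A, Tendsto (fun n => x n * φ a - φ a * x n) U (𝓝 0)}
  mul_mem' := by
    rintro x y ⟨⟨C, hC⟩, hx⟩ ⟨⟨D, hD⟩, hy⟩
    refine ⟨⟨C * D, fun n => (norm_mul_le _ _).trans
      (mul_le_mul (hC n) (hD n) (norm_nonneg _) ((norm_nonneg _).trans (hC n)))⟩, fun a => ?_⟩
    have h1 : Tendsto (fun n => x n * (y n * φ a - φ a * y n)) U (𝓝 0) :=
      isBoundedUnder_le_mul_tendsto_zero (isBoundedUnder_of ⟨C, hC⟩) (hy a)
    have h2 : Tendsto (fun n => (x n * φ a - φ a * x n) * y n) U (𝓝 0) :=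
      (hx a).zero_mul_isBoundedUnder_le (isBoundedUnder_of ⟨D, hD⟩)
    have h3 := h1.add h2
    rw [add_zero] at h3
    refine h3.congr fun n => ?_
    simp only [Pi.mul_apply]
    noncomm_ring
  add_mem' := by
    rintro x y ⟨⟨C, hC⟩, hx⟩ ⟨⟨D, hD⟩, hy⟩
    refine ⟨⟨C + D, fun n => (norm_add_le _ _).trans (add_le_add (hC n) (hD n))⟩, fun a => ?_⟩
    have h3 := (hx a).add (hy a)
    rw [add_zero] at h3
    refine h3.congr fun n => ?_
    simp only [Pi.add_apply]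
    noncomm_ring
  algebraMap_mem' := fun c => ⟨⟨‖algebraMap ℂ X c‖, fun _ => le_rfl⟩, fun a => by
    simp [Algebra.commutes]⟩
  star_mem' := by
    rintro x ⟨⟨C, hC⟩, hx⟩
    refine ⟨⟨C, fun n => by simpa using hC n⟩, fun a => ?_⟩
    have h3 := (hx (star a)).star.neg
    rw [star_zero, neg_zero] at h3
    refine h3.congr fun n => ?_
    simp [map_star]

variable {φ : A →⋆ₐ[ℂ] X} {U : Ultrafilter I}

structure IsModel {E : Type*} [CStarAlgebra E] (ι : cen φ U →⋆ₐ[ℂ] E) : Prop where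
  tend : ∀ x : cen φ U, Tendsto (fun i => ‖(x : I → X) i‖) U (𝓝 ‖ι x‖)
  dense : DenseRange ι

lemma cen_tendsto (x : cen φ U) : Tendsto (fun i => ‖(x : I → X) i‖) U
    (𝓝 (limUnder U fun i => ‖(x : I → X) i‖)) := by
  obtain ⟨C, hC⟩ := x.2.1
  obtain ⟨r, -, hr⟩ := (isCompact_Icc (a := (0 : ℝ)) (b := C)).ultrafilter_le_nhds
    (U.map fun i => ‖(x : I → X) i‖) (by
      rw [Ultrafilter.coe_map, le_principal_iff, mem_map]
      exact Eventually.of_forall fun i => ⟨norm_nonneg _, hC i⟩)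
  exact tendsto_nhds_limUnder ⟨r, hr⟩

end

theorem exists_model {A : Type*} [CStarAlgebra A] {X : Type u} [CStarAlgebra X] {I : Type}
    (φ : A →⋆ₐ[ℂ] X) (U : Ultrafilter I) :
    ∃ (E : Type u) (_ : CStarAlgebra E) (ι : cen φ U →⋆ₐ[ℂ] E), IsModel ι := by
  have h : IsCSemi fun x : cen φ U => limUnder U fun i => ‖(x : I → X) i‖ :=
    { zero := tendsto_nhds_unique (cen_tendsto 0) (by simp)
      add := fun x y => le_of_tendsto_of_tendsto' (cen_tendsto (x + y))
        ((cen_tendsto x).add (cen_tendsto y)) fun i => norm_add_le _ _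
      smul := fun c x => le_of_tendsto_of_tendsto' (cen_tendsto (c • x))
        ((cen_tendsto x).const_mul _) fun i => norm_smul_le c ((x : I → X) i)
      mul := fun x y => le_of_tendsto_of_tendsto' (cen_tendsto (x * y))
        ((cen_tendsto x).mul (cen_tendsto y)) fun i => norm_mul_le _ _
      cstar := fun x => le_of_tendsto_of_tendsto' ((cen_tendsto x).mul (cen_tendsto x))
        (cen_tendsto (star x * x)) fun i => CStarRing.norm_star_mul_self.ge }
  obtain ⟨E, _, ι, h1, h2⟩ := exists_completion h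
  exact ⟨E, inferInstance, ι, fun x => h1 x ▸ cen_tendsto x, h2⟩

section
variable {A : Type*} [CStarAlgebra A] {X Y : Type*} [CStarAlgebra X] [CStarAlgebra Y] {I J : Type}
  {φ : A →⋆ₐ[ℂ] X} {U : Ultrafilter I} {W : Ultrafilter J}

def pull (f : X →⋆ₐ[ℂ] Y) {g : J → I} (hg : Tendsto g W U) :
    cen φ U →⋆ₐ[ℂ] cen (f.comp φ) W where
  toFun x := ⟨fun j => f ((x : I → X) (g j)), by
    obtain ⟨⟨C, hC⟩, hx⟩ := x.2
    refine ⟨⟨C, fun j => (NonUnitalStarAlgHom.norm_apply_le f _).trans (hC _)⟩, fun a => ?_⟩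
    have h1 := ((map_continuous f).tendsto 0).comp ((hx a).comp hg)
    rw [map_zero] at h1
    refine h1.congr fun j => ?_
    simp⟩
  map_one' := Subtype.ext (funext fun _ => map_one f)
  map_mul' x y := Subtype.ext (funext fun _ => map_mul f _ _)
  map_zero' := Subtype.ext (funext fun _ => map_zero f)
  map_add' x y := Subtype.ext (funext fun _ => map_add f _ _)
  commutes' c := Subtype.ext (funext fun _ => f.commutes c)
  map_star' x := Subtype.ext (funext fun _ => map_star f _)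

lemma pull_apply (f : X →⋆ₐ[ℂ] Y) {g : J → I} (hg : Tendsto g W U) (x : cen φ U) (j : J) :
    (pull f hg x : J → Y) j = f ((x : I → X) (g j)) := rfl

theorem lift_model {E E' : Type*} [CStarAlgebra E] [CStarAlgebra E'] (f : X →⋆ₐ[ℂ] Y) {g : J → I}
    (hg : Tendsto g W U) {ι : cen φ U →⋆ₐ[ℂ] E} {ι' : cen (f.comp φ) W →⋆ₐ[ℂ] E'}
    (h : IsModel ι) (h' : IsModel ι') : ∃ j : E →⋆ₐ[ℂ] E', ∀ x, j (ι x) = ι' (pull f hg x) :=
  exists_lift ι h.dense (ι'.comp (pull f hg)) fun x =>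
    le_of_tendsto_of_tendsto' (h'.tend _) ((h.tend x).comp hg) fun _ =>
      NonUnitalStarAlgHom.norm_apply_le f _

lemma IsModel.eq_zero {E : Type*} [CStarAlgebra E] {ι : cen φ U →⋆ₐ[ℂ] E} (h : IsModel ι)
    {x : cen φ U} (hx : Tendsto (fun i => (x : I → X) i) U (𝓝 0)) : ι x = 0 :=
  norm_eq_zero.1 (tendsto_nhds_unique (h.tend x) (by simpa using hx.norm))

end

/-- bundled unital C*-algebras -/
structure CAlg where
  E : Type u
  [inst : CStarAlgebra E]

attribute [instance] CAlg.inst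

/-- any two members have commuting copies in a third member -/
def Pair (𝒞 : Set CAlg.{u}) : Prop :=
  ∀ E₁ ∈ 𝒞, ∀ E₂ ∈ 𝒞, ∃ E ∈ 𝒞, ∃ (j₁ : E₁.E →⋆ₐ[ℂ] E.E) (j₂ : E₂.E →⋆ₐ[ℂ] E.E),
    ∀ x y, Commute (j₁ x) (j₂ y)

def models (A : Type u) [CStarAlgebra A] : Set CAlg.{u} :=
  {E | ∃ (I : Type) (U : Ultrafilter I) (ι : cen (StarAlgHom.id ℂ A) U →⋆ₐ[ℂ] E.E), IsModel ι}

theorem pair_models (A : Type u) [CStarAlgebra A] : Pair (models A) := by
  rintro E₁ ⟨I, U, ι₁, h₁⟩ E₂ ⟨J, V, ι₂, h₂⟩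
  let W : Ultrafilter (I × J) := V.bind fun j => U.map fun i => (i, j)
  have hW : ∀ p : I × J → Prop, (∀ᶠ j in V, ∀ᶠ i in U, p (i, j)) → ∀ᶠ x in W, p x := fun p hp => by
    change {x | p x} ∈ (Filter.bind (V : Filter J) fun j => (U.map fun i => (i, j) : Filter _))
    rw [mem_bind']
    exact hp
  have hf : Tendsto (Prod.fst : I × J → I) W U := fun s hs => hW (fun x => x.1 ∈ s)
    (Eventually.of_forall fun _ => hs)
  have hs : Tendsto (Prod.snd : I × J → J) W V := fun s hs => hW (fun x => x.2 ∈ s)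
    (Eventually.mono hs fun _ h => Eventually.of_forall fun _ => h)
  obtain ⟨E, _, ι, h⟩ := exists_model ((StarAlgHom.id ℂ A).comp (StarAlgHom.id ℂ A)) W
  obtain ⟨j₁, hj₁⟩ := lift_model (StarAlgHom.id ℂ A) hf h₁ h
  obtain ⟨j₂, hj₂⟩ := lift_model (StarAlgHom.id ℂ A) hs h₂ h
  refine ⟨⟨E⟩, ⟨_, W, ι, h⟩, j₁, j₂, fun x y => ?_⟩
  refine h₁.dense.induction_on x (isClosed_eq (by fun_prop) (by fun_prop)) fun x => ?_
  refine h₂.dense.induction_on y (isClosed_eq (by fun_prop) (by fun_prop)) fun y => ?_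
  change j₁ (ι₁ x) * j₂ (ι₂ y) = j₂ (ι₂ y) * j₁ (ι₁ x)
  rw [hj₁, hj₂, ← map_mul, ← map_mul, ← sub_eq_zero, ← map_sub]
  refine h.eq_zero ?_
  rw [Metric.tendsto_nhds]
  intro ε hε
  exact hW _ (Eventually.of_forall fun j => Metric.tendsto_nhds.1 (x.2.2 ((y : J → A) j)) ε hε)

end Vale.Agent.P101
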